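import Vale.Agent.Lib.P113.Defs

/-!
# Mixed derivatives of finite sums of products of one-variable functions
-/

namespace Vale.Agent.Lib.P113

open Set

/-- The product `φ₀(t) φ₁(x₀) φ₂(x₁) φ₃(x₂)`. -/
def T4 (φ : Fin 4 → ℝ → ℝ) (t : ℝ) (x : R3) : ℝ := φ 0 t * φ 1 (x 0) * φ 2 (x 1) * φ 3 (x 2)

/-- The slot of a direction: time is `0`, the `j`-th space direction is `j + 1`. -/
def slot : Option (Fin 3) → Fin 4
  | none => 0
  | some j => j.succ

/-- How often each slot occurs in a list of directions. -/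
def cnt : List (Option (Fin 3)) → Fin 4 → ℕ
  | [], _ => 0
  | o :: l, a => cnt l a + if a = slot o then 1 else 0

/-- Differentiate the slot `b` once. -/
noncomputable def dSlot (b : Fin 4) (φ : Fin 4 → ℝ → ℝ) : Fin 4 → ℝ → ℝ :=
  fun a => if a = b then deriv (φ a) else φ a

theorem T4_contDiff {φ : Fin 4 → ℝ → ℝ} (h : ∀ a, ContDiff ℝ (⊤ : ℕ∞) (φ a)) (t : ℝ) :
    ContDiff ℝ (⊤ : ℕ∞) (T4 φ t) := by
  unfold T4
  exact ((contDiff_const.mul ((h 1).comp (contDiff_apply ℝ ℝ 0))).mul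
    ((h 2).comp (contDiff_apply ℝ ℝ 1))).mul ((h 3).comp (contDiff_apply ℝ ℝ 2))

theorem hasDerivAt_T4_time {φ : Fin 4 → ℝ → ℝ} (h : ∀ a, ContDiff ℝ (⊤ : ℕ∞) (φ a)) (t : ℝ) (x : R3) :
    HasDerivAt (fun s => T4 φ s x) (T4 (dSlot 0 φ) t x) t := by
  have h0 : HasDerivAt (φ 0) (deriv (φ 0) t) t := ((h 0).differentiable (by simp) t).hasDerivAt
  have := ((h0.mul_const (φ 1 (x 0))).mul_const (φ 2 (x 1))).mul_const (φ 3 (x 2))
  simpa [T4, dSlot] using this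

theorem hasDerivAt_shift {f : ℝ → ℝ} (hf : ContDiff ℝ (⊤ : ℕ∞) f) (y : ℝ) :
    HasDerivAt (fun s : ℝ => f (y + s)) (deriv f y) 0 := by
  have h1 : HasDerivAt f (deriv f (y + 0)) (y + 0) := (hf.differentiable (by simp) _).hasDerivAt
  have := h1.comp_const_add y 0
  simpa using this

theorem dX_T4 {φ : Fin 4 → ℝ → ℝ} (h : ∀ a, ContDiff ℝ (⊤ : ℕ∞) (φ a)) (j : Fin 3) (t : ℝ) (x : R3) :
    dX j (T4 φ t) x = T4 (dSlot j.succ φ) t x := by
  unfold dX
  rw [← ((T4_contDiff h t).differentiable (by simp) x).lineDeriv_eq_fderiv, lineDeriv]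
  fin_cases j
  · have e : (fun s : ℝ => T4 φ t (x + s • ee 0))
        = fun s => φ 0 t * φ 1 (x 0 + s) * φ 2 (x 1) * φ 3 (x 2) := by
      funext s; simp [T4, ee]
    have hd := (((hasDerivAt_shift (h 1) (x 0)).const_mul (φ 0 t)).mul_const
      (φ 2 (x 1))).mul_const (φ 3 (x 2))
    simp only [Fin.zero_eta, e, hd.deriv]
    simp [T4, dSlot]
  · have e : (fun s : ℝ => T4 φ t (x + s • ee 1))
        = fun s => φ 0 t * φ 1 (x 0) * φ 2 (x 1 + s) * φ 3 (x 2) := by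
      funext s; simp [T4, ee]
    have hd := ((hasDerivAt_shift (h 2) (x 1)).const_mul (φ 0 t * φ 1 (x 0))).mul_const (φ 3 (x 2))
    simp only [Fin.mk_one, e, hd.deriv]
    simp [T4, dSlot]
  · have e : (fun s : ℝ => T4 φ t (x + s • ee 2))
        = fun s => φ 0 t * φ 1 (x 0) * φ 2 (x 1) * φ 3 (x 2 + s) := by
      funext s; simp [T4, ee]
    have hd := (hasDerivAt_shift (h 3) (x 2)).const_mul (φ 0 t * φ 1 (x 0) * φ 2 (x 1))
    simp only [Fin.reduceFinMk, e, hd.deriv]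
    simp [T4, dSlot]

theorem contDiff_iteratedDeriv {f : ℝ → ℝ} (hf : ContDiff ℝ (⊤ : ℕ∞) f) (n : ℕ) :
    ContDiff ℝ (⊤ : ℕ∞) (iteratedDeriv n f) := by
  rw [iteratedDeriv_eq_iterate]
  exact hf.iterate_deriv n

section sums

variable {ι : Type*} (S : Finset ι) (c : ι → ℝ)

theorem dT_sum_T4 {ψ : ι → Fin 4 → ℝ → ℝ} (hψ : ∀ i ∈ S, ∀ a, ContDiff ℝ (⊤ : ℕ∞) (ψ i a)) :
    dT (fun t x => ∑ i ∈ S, c i * T4 (ψ i) t x)
      = fun t x => ∑ i ∈ S, c i * T4 (dSlot 0 (ψ i)) t x := by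
  funext t x
  unfold dT
  have : HasDerivAt (fun s => ∑ i ∈ S, c i * T4 (ψ i) s x)
      (∑ i ∈ S, c i * T4 (dSlot 0 (ψ i)) t x) t :=
    HasDerivAt.fun_sum fun i hi => (hasDerivAt_T4_time (hψ i hi) t x).const_mul (c i)
  exact this.deriv

theorem dS_sum_T4 {ψ : ι → Fin 4 → ℝ → ℝ} (hψ : ∀ i ∈ S, ∀ a, ContDiff ℝ (⊤ : ℕ∞) (ψ i a))
    (j : Fin 3) :
    dS j (fun t x => ∑ i ∈ S, c i * T4 (ψ i) t x)
      = fun t x => ∑ i ∈ S, c i * T4 (dSlot j.succ (ψ i)) t x := by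
  funext t x
  unfold dS
  have h : HasFDerivAt (fun y => ∑ i ∈ S, c i * T4 (ψ i) t y)
      (∑ i ∈ S, c i • fderiv ℝ (T4 (ψ i) t) x) x :=
    HasFDerivAt.fun_sum fun i hi =>
      (((T4_contDiff (hψ i hi) t).differentiable (by simp) x).hasFDerivAt).const_mul (c i)
  unfold dX
  rw [h.fderiv]
  simp only [FunLike.coe_sum, FunLike.coe_smul, Finset.sum_apply,
    Pi.smul_apply, smul_eq_mul]
  refine Finset.sum_congr rfl fun i hi => ?_
  rw [← dX_T4 (hψ i hi) j t x]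
  rfl

theorem mixedDeriv_sum_T4 {φ : ι → Fin 4 → ℝ → ℝ} (hφ : ∀ i ∈ S, ∀ a, ContDiff ℝ (⊤ : ℕ∞) (φ i a))
    (l : List (Option (Fin 3))) :
    mixedDeriv l (fun t x => ∑ i ∈ S, c i * T4 (φ i) t x)
      = fun t x => ∑ i ∈ S, c i * T4 (fun a => iteratedDeriv (cnt l a) (φ i a)) t x := by
  induction l with
  | nil => simp [mixedDeriv, cnt]
  | cons o l ih =>
    have hs : ∀ i ∈ S, ∀ a, ContDiff ℝ (⊤ : ℕ∞) (iteratedDeriv (cnt l a) (φ i a)) :=
      fun i hi a => contDiff_iteratedDeriv (hφ i hi a) _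
    have key : ∀ (b : Fin 4) (i : ι), dSlot b (fun a => iteratedDeriv (cnt l a) (φ i a))
        = fun a => iteratedDeriv (cnt l a + if a = b then 1 else 0) (φ i a) := by
      intro b i
      funext a
      unfold dSlot
      split_ifs
      · rw [iteratedDeriv_succ]
      · rfl
    cases o with
    | none =>
      show dT (mixedDeriv l _) = _
      rw [ih, dT_sum_T4 S c hs]
      simp only [key]
      rfl
    | some j =>
      show dS j (mixedDeriv l _) = _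
      rw [ih, dS_sum_T4 S c hs]
      simp only [key]
      rfl

end sums

end Vale.Agent.Lib.P113
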