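import Vale.Agent.Lib.P113.AtomDefs
import Vale.Agent.Lib.P113.Tensor

/-!
# P113: the discrete tables behind the force are primitive recursive
-/

namespace Vale.Agent.Lib.P113

section general

variable {α : Type*} [Primcodable α]

theorem pr_pow : Primrec₂ ((· ^ ·) : ℕ → ℕ → ℕ) :=
  Primrec₂.unpaired'.1 Nat.Primrec.pow

theorem pr_add' {f g : α → ℕ} (hf : Primrec f) (hg : Primrec g) :
    Primrec (fun a => f a + g a) := Primrec.nat_add.comp hf hg

theorem pr_mul' {f g : α → ℕ} (hf : Primrec f) (hg : Primrec g) :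
    Primrec (fun a => f a * g a) := Primrec.nat_mul.comp hf hg

theorem pr_sub' {f g : α → ℕ} (hf : Primrec f) (hg : Primrec g) :
    Primrec (fun a => f a - g a) := Primrec.nat_sub.comp hf hg

theorem pr_div' {f g : α → ℕ} (hf : Primrec f) (hg : Primrec g) :
    Primrec (fun a => f a / g a) := Primrec.nat_div.comp hf hg

theorem pr_mod' {f g : α → ℕ} (hf : Primrec f) (hg : Primrec g) :
    Primrec (fun a => f a % g a) := Primrec.nat_mod.comp hf hg

theorem pr_pow' {f g : α → ℕ} (hf : Primrec f) (hg : Primrec g) :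
    Primrec (fun a => f a ^ g a) := pr_pow.comp hf hg

theorem pr_eq' {β : Type*} [Primcodable β] {f g : α → β} (hf : Primrec f)
    (hg : Primrec g) : PrimrecPred (fun a => f a = g a) := Primrec.eq.comp hf hg

theorem pr_le' {f g : α → ℕ} (hf : Primrec f) (hg : Primrec g) :
    PrimrecPred (fun a => f a ≤ g a) := Primrec.nat_le.comp hf hg

theorem pr_cons' {β : Type*} [Primcodable β] {f : α → β} {g : α → List β} (hf : Primrec f)
    (hg : Primrec g) : Primrec (fun a => f a :: g a) := Primrec.list_cons.comp hf hg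

theorem pr_len' {β : Type*} [Primcodable β] {g : α → List β}
    (hg : Primrec g) : Primrec (fun a => (g a).length) := Primrec.list_length.comp hg

theorem val_eq_foldl (B : ℕ) (u : List ℕ) (acc : ℕ) :
    u.foldl (fun a d => a * B + d) acc = acc * B ^ u.length + val B u := by
  induction u generalizing acc with
  | nil => simp [val]
  | cons d u ih =>
    simp only [List.foldl_cons, List.length_cons, val]
    rw [ih]
    ring

theorem pr_val' {f : α → ℕ} {g : α → List ℕ} (hf : Primrec f) (hg : Primrec g) :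
    Primrec (fun a => val (f a) (g a)) := by
  have h : Primrec (fun a => (g a).foldl (fun s d => s * f a + d) 0) :=
    Primrec.list_foldl (h := fun a p => p.1 * f a + p.2) hg (Primrec.const 0)
      (pr_add' (pr_mul' (Primrec.fst.comp Primrec.snd) (hf.comp Primrec.fst))
        (Primrec.snd.comp Primrec.snd))
  refine h.of_eq fun a => ?_
  rw [val_eq_foldl]
  simp

theorem pr_k' {f : α → MC} (hf : Primrec f) : Primrec (fun a => (f a).k) :=
  Primrec.succ.comp (Primrec.fst.comp hf)

theorem pr_m' {f : α → MC} (hf : Primrec f) : Primrec (fun a => (f a).m) :=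
  Primrec.succ.comp (Primrec.fst.comp (Primrec.snd.comp hf))

theorem pr_hlt' {f : α → MC} {g : α → ℕ} (hf : Primrec f) (hg : Primrec g) :
    Primrec (fun a => (f a).hlt (g a)) :=
  (Primrec.list_getD false).comp (Primrec.fst.comp (Primrec.snd.comp (Primrec.snd.comp hf))) hg

theorem pr_tr' {f : α → MC} {g h : α → ℕ} (hf : Primrec f) (hg : Primrec g) (hh : Primrec h) :
    Primrec (fun a => (f a).tr (g a) (h a)) :=
  (Primrec.list_getD (0, 0, false)).comp
    ((Primrec.list_getD []).comp (Primrec.snd.comp (Primrec.snd.comp (Primrec.snd.comp hf))) hg) hh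

theorem pr_D' {f : α → MC} (hf : Primrec f) : Primrec (fun a => (f a).D) :=
  pr_mul' (pr_k' hf) (Primrec.succ.comp (pr_mul' (Primrec.const 2) (pr_m' hf)))

theorem pr_B' {f : α → MC} (hf : Primrec f) : Primrec (fun a => (f a).B) :=
  pr_mul' (Primrec.const 4) (pr_D' hf)

theorem pr_junk' {f : α → MC} {g h : α → ℕ} (hf : Primrec f) (hg : Primrec g) (hh : Primrec h) :
    Primrec (fun a => (f a).junk (g a) (h a)) :=
  pr_add' (pr_add' (pr_k' hf) (pr_mul' hg (pr_k' hf))) hh

theorem pr_table' {f : α → MC} {g : α → Idx} (hf : Primrec f) (hg : Primrec g) :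
    Primrec (fun a => (f a).table (g a)) := by
  have i1 : Primrec (fun a => (g a).1) := Primrec.fst.comp hg
  have i2 : Primrec (fun a => (g a).2.1) := Primrec.fst.comp (Primrec.snd.comp hg)
  have i3 : Primrec (fun a => (g a).2.2) := Primrec.snd.comp (Primrec.snd.comp hg)
  have hq : Primrec (fun a => (g a).1 / 2) := pr_div' i1 (Primrec.const 2)
  have t3 := pr_tr' hf hq i3
  have t2 := pr_tr' hf hq i2
  have nil : Primrec (fun _ : α => ([] : List ℕ)) := Primrec.const []
  have two : Primrec (fun _ : α => 2) := Primrec.const 2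
  unfold MC.table
  refine Primrec.ite (pr_eq' (pr_mod' i1 two) (Primrec.const 0)) ?_ ?_
  · refine Primrec.ite (pr_le' (pr_k' hf) i3) ?_ ?_
    · exact Primrec.pair (pr_cons' i1 (pr_cons' i3 (pr_cons' i2 nil))) nil
    · refine Primrec.ite (pr_eq' (Primrec.snd.comp (Primrec.snd.comp t3)) (Primrec.const true))
        ?_ ?_
      · exact Primrec.pair (pr_cons' (pr_mul' two (Primrec.fst.comp t3))
          (pr_cons' (Primrec.fst.comp (Primrec.snd.comp t3))
            (pr_cons' (pr_junk' hf i1 i3) (pr_cons' i2 nil)))) nil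
      · exact Primrec.pair (pr_cons' (Primrec.succ.comp (pr_mul' two (Primrec.fst.comp t3)))
          (pr_cons' i2 nil))
          (pr_cons' (Primrec.fst.comp (Primrec.snd.comp t3)) (pr_cons' (pr_junk' hf i1 i3) nil))
  · refine Primrec.ite (pr_le' (pr_k' hf) i2) ?_ ?_
    · exact Primrec.pair (pr_cons' i1 nil) (pr_cons' i2 (pr_cons' i3 nil))
    · refine Primrec.ite (pr_eq' (Primrec.snd.comp (Primrec.snd.comp t2)) (Primrec.const true))
        ?_ ?_
      · exact Primrec.pair (pr_cons' (pr_mul' two (Primrec.fst.comp t2))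
          (pr_cons' (Primrec.fst.comp (Primrec.snd.comp t2))
            (pr_cons' (pr_junk' hf i1 i2) nil))) (pr_cons' i3 nil)
      · exact Primrec.pair (pr_cons' (Primrec.succ.comp (pr_mul' two (Primrec.fst.comp t2))) nil)
          (pr_cons' (Primrec.fst.comp (Primrec.snd.comp t2))
            (pr_cons' (pr_junk' hf i1 i2) (pr_cons' i3 nil)))

theorem pr_p1u' {g : α → Idx} (hg : Primrec g) : Primrec (fun a => MC.p1u (g a)) :=
  pr_cons' (Primrec.fst.comp hg) (pr_cons' (Primrec.fst.comp (Primrec.snd.comp hg))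
    (Primrec.const []))

theorem pr_p1u'' {g : α → Idx} (hg : Primrec g) : Primrec (fun a => MC.p1u' (g a)) :=
  pr_cons' (Primrec.fst.comp hg) (pr_cons' (Primrec.fst.comp (Primrec.snd.comp hg))
    (pr_cons' (Primrec.snd.comp (Primrec.snd.comp hg)) (Primrec.const [])))

theorem pr_p1g' {g : α → Idx} (hg : Primrec g) : Primrec (fun a => MC.p1g (g a)) :=
  pr_cons' (Primrec.snd.comp (Primrec.snd.comp hg)) (Primrec.const [])

theorem pr_p2u' {f : α → MC} {g : α → Idx} (hf : Primrec f) (hg : Primrec g) :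
    Primrec (fun a => (f a).p2u' (g a)) := Primrec.snd.comp (pr_table' hf hg)

theorem pr_p3u' {f : α → MC} {g : α → Idx} (hf : Primrec f) (hg : Primrec g) :
    Primrec (fun a => (f a).p3u' (g a)) := Primrec.fst.comp (pr_table' hf hg)

theorem pr_qnat' {f : α → ℕ} (hf : Primrec f) : Primrec (fun a => qnat (f a)) :=
  Primrec.pair hf (Primrec.const (0, 0))

theorem pr_qint' {f g : α → ℕ} (hf : Primrec f) (hg : Primrec g) :
    Primrec (fun a => qint (f a) (g a)) :=
  Primrec.pair hf (Primrec.pair hg (Primrec.const 0))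

theorem pr_qfrac' {f g h : α → ℕ} (hf : Primrec f) (hg : Primrec g) (hh : Primrec h) :
    Primrec (fun a => qfrac (f a) (g a) (h a)) :=
  Primrec.pair hf (Primrec.pair hg (pr_sub' hh (Primrec.const 1)))

theorem pr_qenc' {f : α → ℕ} {g : α → List ℕ} (hf : Primrec f) (hg : Primrec g) :
    Primrec (fun a => qenc (f a) (g a)) :=
  pr_qfrac' (pr_val' hf hg) (Primrec.const 0) (pr_pow' hf (pr_len' hg))

theorem pr_famA' {f : α → ℕ} {g : α → List ℕ} {p q : α → QCode} (hf : Primrec f)
    (hg : Primrec g) (hp : Primrec p) (hq : Primrec q) :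
    Primrec (fun a => famA (f a) (g a) (p a) (q a)) :=
  Primrec.pair (pr_qnat' (pr_mul' (Primrec.const 4) (pr_pow' hf (pr_len' hg))))
    (Primrec.pair (pr_qint' (Primrec.const 1) (pr_mul' (Primrec.const 4) (pr_val' hf hg)))
      (Primrec.pair (pr_qnat' (pr_mul' (Primrec.const 8) (pr_pow' hf (pr_len' hg))))
        (Primrec.pair (pr_qint' (Primrec.const 0)
          (pr_add' (pr_mul' (Primrec.const 8) (pr_val' hf hg)) (Primrec.const 2)))
          (Primrec.pair hp hq))))

theorem pr_cylA' {f : α → ℕ} {g : α → List ℕ} (hf : Primrec f) (hg : Primrec g) :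
    Primrec (fun a => cylA (f a) (g a)) :=
  pr_famA' hf hg (Primrec.const _) (Primrec.const _)

theorem pr_repA' {f : α → ℕ} {g h : α → List ℕ} (hf : Primrec f) (hg : Primrec g)
    (hh : Primrec h) : Primrec (fun a => repA (f a) (g a) (h a)) :=
  pr_famA' hf hg
    (pr_qfrac' (pr_pow' hf (pr_len' hg)) (pr_pow' hf (pr_len' hh)) (pr_pow' hf (pr_len' hh)))
    (pr_qfrac' (pr_val' hf hh) (pr_val' hf hg) (pr_pow' hf (pr_len' hh)))

theorem pr_eqc' {f : α → ℕ} (hf : Primrec f) (n : ℕ) : PrimrecPred (fun a => f a = n) :=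
  pr_eq' hf (Primrec.const n)

theorem pr_gA' {f : α → MC} {j : α → ℕ} {g : α → Idx} (hf : Primrec f) (hj : Primrec j)
    (hg : Primrec g) : Primrec (fun a => gA (f a) (j a) (g a)) := by
  have hB := pr_B' hf
  unfold gA
  refine Primrec.ite (pr_eqc' hj 4)
    (pr_cylA' hB (pr_cons' (Primrec.fst.comp hg) (Primrec.const []))) ?_
  refine Primrec.ite (pr_eqc' hj 5) (pr_repA' hB (pr_p1u' hg) (pr_p1u'' hg)) ?_
  refine Primrec.ite (pr_eqc' hj 7) (pr_repA' hB (pr_p1u'' hg) (pr_p1u' hg)) ?_
  refine Primrec.ite ((pr_eqc' hj 8).or (pr_eqc' hj 10)) (pr_cylA' hB (pr_p1u'' hg)) ?_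
  refine Primrec.ite (pr_eqc' hj 11) (pr_repA' hB (pr_p1u'' hg) (pr_p3u' hf hg)) ?_
  exact Primrec.ite (pr_eqc' hj 13) (pr_repA' hB (pr_p3u' hf hg) (pr_p1u'' hg)) (Primrec.const _)

theorem pr_gB' {f : α → MC} {j : α → ℕ} {g : α → Idx} (hf : Primrec f) (hj : Primrec j)
    (hg : Primrec g) : Primrec (fun a => gB (f a) (j a) (g a)) := by
  have hB := pr_B' hf
  unfold gB
  refine Primrec.ite ((pr_eqc' hj 5).or (pr_eqc' hj 7)) (pr_cylA' hB (pr_p1g' hg)) ?_
  refine Primrec.ite (pr_eqc' hj 8) (pr_repA' hB (pr_p1g' hg) (pr_p2u' hf hg)) ?_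
  refine Primrec.ite (pr_eqc' hj 10) (pr_repA' hB (pr_p2u' hf hg) (pr_p1g' hg)) ?_
  exact Primrec.ite ((pr_eqc' hj 11).or (pr_eqc' hj 13)) (pr_cylA' hB (pr_p2u' hf hg))
    (Primrec.const _)

theorem pr_gC' {j : α → ℕ} (hj : Primrec j) : Primrec (fun a => gC (j a)) := by
  unfold gC
  exact Primrec.ite ((pr_eqc' hj 6).or ((pr_eqc' hj 9).or (pr_eqc' hj 12))) (Primrec.const _)
    (Primrec.const _)

theorem pr_gco' {f : α → MC} {x y : α → QCode} {j : α → ℕ} {g : α → Idx} (hf : Primrec f)
    (hx : Primrec x) (hy : Primrec y) (hj : Primrec j) (hg : Primrec g) :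
    Primrec (fun a => gco (f a) (x a) (y a) (j a) (g a)) := by
  have h0 : PrimrecPred (fun a => g a = (0, 0, 0)) := pr_eq' hg (Primrec.const _)
  unfold gco
  refine Primrec.ite (pr_eqc' hj 2) (Primrec.ite h0 hx (Primrec.const _)) ?_
  refine Primrec.ite (pr_eqc' hj 3) (Primrec.ite h0 hy (Primrec.const _)) ?_
  refine Primrec.ite (pr_eqc' hj 4) (Primrec.ite ?_ (Primrec.const _) (Primrec.const _)) ?_
  · exact (pr_eqc' (Primrec.fst.comp (Primrec.snd.comp hg)) 0).and
      ((pr_eqc' (Primrec.snd.comp (Primrec.snd.comp hg)) 0).and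
        (pr_eq' (pr_hlt' hf (pr_div' (Primrec.fst.comp hg) (Primrec.const 2)))
          (Primrec.const true)))
  · exact Primrec.ite ((pr_eqc' hj 6).or ((pr_eqc' hj 9).or (pr_eqc' hj 12)))
      (Primrec.ite h0 (Primrec.const _) (Primrec.const _)) (Primrec.const _)

theorem pr_dirW' {j : α → ℕ} (hj : Primrec j) : Primrec (fun a => dirW (j a)) := by
  unfold dirW
  exact Primrec.ite ((pr_eqc' hj 2).or ((pr_eqc' hj 6).or (pr_eqc' hj 12))) (Primrec.const _)
    (Primrec.ite ((pr_eqc' hj 3).or (pr_eqc' hj 9)) (Primrec.const _) (Primrec.const _))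

theorem pr_gdir' {j : α → ℕ} {i : α → Fin 3} (hj : Primrec j) (hi : Primrec i) :
    Primrec (fun a => gdir (j a) (i a)) := by
  unfold gdir
  exact Primrec.ite (pr_eq' (pr_dirW' hj) hi) (Primrec.const _) (Primrec.const _)

theorem cnt_eq_foldr (l : List (Option (Fin 3))) (a : Fin 4) :
    cnt l a = l.foldr (fun o n => n + if a = slot o then 1 else 0) 0 := by
  induction l with
  | nil => rfl
  | cons o l ih => simp only [cnt, List.foldr_cons, ih]

theorem pr_cnt' {l : α → List (Option (Fin 3))} {b : α → Fin 4} (hl : Primrec l)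
    (hb : Primrec b) : Primrec (fun a => cnt (l a) (b a)) := by
  have h : Primrec (fun a => (l a).foldr (fun o n => n + if b a = slot o then 1 else 0) 0) :=
    Primrec.list_foldr (h := fun a p => p.2 + if b a = slot p.1 then 1 else 0) hl
      (Primrec.const 0)
      (pr_add' (Primrec.snd.comp Primrec.snd)
        (Primrec.ite (pr_eq' (hb.comp Primrec.fst)
          ((Primrec.dom_finite slot).comp (Primrec.fst.comp Primrec.snd)))
          (Primrec.const 1) (Primrec.const 0)))
  exact h.of_eq fun a => (cnt_eq_foldr _ _).symm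

end general

theorem primrec_k : Primrec MC.k := pr_k' Primrec.id
theorem primrec_m : Primrec MC.m := pr_m' Primrec.id
theorem primrec_D : Primrec MC.D := pr_D' Primrec.id
theorem primrec_B : Primrec MC.B := pr_B' Primrec.id

theorem primrec_val : Primrec (fun p : ℕ × List ℕ => val p.1 p.2) :=
  pr_val' Primrec.fst Primrec.snd

theorem primrec_table : Primrec (fun p : MC × Idx => MC.table p.1 p.2) :=
  pr_table' Primrec.fst Primrec.snd

theorem primrec_gA : Primrec (fun p : MC × ℕ × Idx => gA p.1 p.2.1 p.2.2) :=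
  pr_gA' Primrec.fst (Primrec.fst.comp Primrec.snd) (Primrec.snd.comp Primrec.snd)

theorem primrec_gB : Primrec (fun p : MC × ℕ × Idx => gB p.1 p.2.1 p.2.2) :=
  pr_gB' Primrec.fst (Primrec.fst.comp Primrec.snd) (Primrec.snd.comp Primrec.snd)

theorem primrec_gC : Primrec gC := pr_gC' Primrec.id

theorem primrec_gco : Primrec (fun p : CompilerInput × ℕ × Idx =>
    gco p.1.1 (qenc (MC.B p.1.1) [0]) (qenc (MC.B p.1.1) p.1.2) p.2.1 p.2.2) := by
  have h1 : Primrec (fun p : CompilerInput × ℕ × Idx => (p.1.1 : MC)) :=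
    Primrec.fst.comp Primrec.fst
  exact pr_gco' h1 (pr_qenc' (pr_B' h1) (Primrec.const [0]))
    (pr_qenc' (pr_B' h1) (Primrec.snd.comp Primrec.fst))
    (Primrec.fst.comp Primrec.snd) (Primrec.snd.comp Primrec.snd)

theorem primrec_gdir : Primrec (fun p : ℕ × Fin 3 => gdir p.1 p.2) :=
  pr_gdir' Primrec.fst Primrec.snd

theorem primrec_cnt (a : Fin 4) : Primrec (fun l : List (Option (Fin 3)) => cnt l a) :=
  pr_cnt' Primrec.id (Primrec.const a)

end Vale.Agent.Lib.P113
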