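import Vale.Agent.Lib.P113.ForceDefs

/-!
# P113: rational codes of the one-variable factors of the force (definitions only)
-/

namespace Vale.Agent.Lib.P113

/-- Codes of one-variable factors: the six rational parameters `p1 q1 p2 q2 α β` of
`per (cutAff p1 q1 p2 q2 α β)`. -/
abbrev ACode : Type := QCode × QCode × QCode × QCode × QCode × QCode

/-- The function `cutAff …` with the parameters coded by `a`. -/
noncomputable def aRaw (a : ACode) : ℝ → ℝ :=
  cutAff (qval a.1) (qval a.2.1) (qval a.2.2.1) (qval a.2.2.2.1) (qval a.2.2.2.2.1)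
    (qval a.2.2.2.2.2)

/-- The periodic function coded by `a`. -/
noncomputable def aFn (a : ACode) : ℝ → ℝ := per (aRaw a)

/-- The `n`-th derivative of the factor coded by `a` (for the codes in use). -/
noncomputable def atomD (n : ℕ) (a : ACode) (x : ℝ) : ℝ := iteratedDeriv n (aRaw a) (red x)

/-- The `n`-th derivative of the time profile `prof j` (for `2 ≤ j ≤ 13`). -/
noncomputable def profD (n j : ℕ) (t : ℝ) : ℝ :=
  if j ≤ 3 then 16 ^ (n + 1) * iteratedDeriv (n + 1) sstep (16 * t - j)
  else 16 ^ (n + 1) * iteratedDeriv (n + 1) sstep (16 * (red (t - 1 / 2) + 1 / 2) - j)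

/-- code of a natural number -/
def qnat (n : ℕ) : QCode := (n, 0, 0)
/-- code of `a - b` -/
def qint (a b : ℕ) : QCode := (a, b, 0)
/-- code of `(a - b) / c` for `c ≥ 1` -/
def qfrac (a b c : ℕ) : QCode := (a, b, c - 1)

/-- code of `enc B W` -/
def qenc (B : ℕ) (W : List ℕ) : QCode := qfrac (val B W) 0 (B ^ W.length)

/-- the constant function `1` -/
def oneA : ACode := (qnat 0, qnat 1, qnat 0, qnat 0, qnat 0, qnat 1)
/-- `kap` -/
def kapA : ACode := (qnat 8, qnat 3, qnat 8, qint 0 2, qnat 1, qnat 0)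
/-- `fam B u α β` -/
def famA (B : ℕ) (u : List ℕ) (α β : QCode) : ACode :=
  (qnat (4 * B ^ u.length), qint 1 (4 * val B u), qnat (8 * B ^ u.length),
    qint 0 (8 * val B u + 2), α, β)
/-- `cyl B u` -/
def cylA (B : ℕ) (u : List ℕ) : ACode := famA B u (qnat 0) (qnat 1)
/-- `rep B u u'` -/
def repA (B : ℕ) (u u' : List ℕ) : ACode :=
  famA B u (qfrac (B ^ u.length) (B ^ u'.length) (B ^ u'.length))
    (qfrac (val B u') (val B u) (B ^ u'.length))

/-- factor in the variable `x 0` of the term `(j, i)` -/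
def gA (c : MC) (j : ℕ) (i : Idx) : ACode :=
  if j = 4 then cylA c.B [i.1]
  else if j = 5 then repA c.B (MC.p1u i) (MC.p1u' i)
  else if j = 7 then repA c.B (MC.p1u' i) (MC.p1u i)
  else if j = 8 ∨ j = 10 then cylA c.B (MC.p1u' i)
  else if j = 11 then repA c.B (MC.p1u' i) (c.p3u' i)
  else if j = 13 then repA c.B (c.p3u' i) (MC.p1u' i)
  else oneA

/-- factor in the variable `x 1` of the term `(j, i)` -/
def gB (c : MC) (j : ℕ) (i : Idx) : ACode :=
  if j = 5 ∨ j = 7 then cylA c.B (MC.p1g i)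
  else if j = 8 then repA c.B (MC.p1g i) (c.p2u' i)
  else if j = 10 then repA c.B (c.p2u' i) (MC.p1g i)
  else if j = 11 ∨ j = 13 then cylA c.B (c.p2u' i)
  else oneA

/-- factor in the variable `x 2` of the term `(j, i)` -/
def gC (j : ℕ) : ACode := if j = 6 ∨ j = 9 ∨ j = 12 then kapA else oneA

/-- rational coefficient of the term `(j, i)` -/
def gco (c : MC) (x0 y0 : QCode) (j : ℕ) (i : Idx) : QCode :=
  if j = 2 then (if i = (0, 0, 0) then x0 else qnat 0)
  else if j = 3 then (if i = (0, 0, 0) then y0 else qnat 0)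
  else if j = 4 then
    (if i.2.1 = 0 ∧ i.2.2 = 0 ∧ c.hlt (i.1 / 2) = true then qfrac 3 0 8 else qnat 0)
  else if j = 6 ∨ j = 9 ∨ j = 12 then (if i = (0, 0, 0) then qnat 1 else qnat 0)
  else qnat 1

/-- the component `i` of the direction of window `j` -/
def gdir (j : ℕ) (i : Fin 3) : QCode := if dirW j = i then qnat 1 else qnat 0

end Vale.Agent.Lib.P113
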