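import Vale.Agent.Lib.P113.Table

/-!
# The three register updates realising one step of the two-stack machine
-/

namespace Vale.Agent.Lib.P113

namespace MC

theorem drop_two (X : List ℕ) : X.drop 2 = X.tail.tail := by
  rcases X with _ | ⟨a, _ | ⟨b, l⟩⟩ <;> rfl

theorem drop_one' (X : List ℕ) : X.drop 1 = X.tail := by
  rcases X with _ | ⟨a, l⟩ <;> rfl

variable {c : MC}

theorem p1u_dig {i : Idx} (hi : i ∈ c.I) : Dig c.B (p1u i) := by
  rw [mem_I] at hi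
  have := c.two_m_lt_D
  apply dig_list; simp [p1u]; omega

theorem p1u'_dig {i : Idx} (hi : i ∈ c.I) : Dig c.B (p1u' i) := by
  rw [mem_I] at hi
  have := c.two_m_lt_D
  apply dig_list; simp [p1u']; omega

theorem p1g_dig {i : Idx} (hi : i ∈ c.I) : Dig c.B (p1g i) := by
  rw [mem_I] at hi
  apply dig_list; simp [p1g]; omega

/-- intermediate left string -/
def X1 (p : List ℕ × List ℕ) : List ℕ := p1u' (idxOf p.1 p.2) ++ p.1.tail.tail

theorem X1_dig {p : List ℕ × List ℕ} (h : c.WF p) : Dig c.B (X1 p) :=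
  (p1u'_dig (idxOf_mem h)).append h.1.tail.tail

theorem pfx_p1u (p : List ℕ × List ℕ) : Pfx (p1u (idxOf p.1 p.2)) p.1 := ⟨rfl, rfl, trivial⟩
theorem pfx_p1g (p : List ℕ × List ℕ) : Pfx (p1g (idxOf p.1 p.2)) p.2 := ⟨rfl, trivial⟩
theorem pfx_p1u'_X1 (p : List ℕ × List ℕ) : Pfx (p1u' (idxOf p.1 p.2)) (X1 p) :=
  Pfx_append_self _ _

theorem eq_of_pfx_X1 {p : List ℕ × List ℕ} {i : Idx} (h : Pfx (p1u' i) (X1 p)) :
    i = idxOf p.1 p.2 := by
  obtain ⟨a, t, cc⟩ := i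
  obtain ⟨e1, e2, e3, -⟩ := h
  simp only [X1, p1u', List.cons_append, List.headD_cons, List.tail_cons] at e1 e2 e3
  rw [e1, e2, e3]

theorem ph1f {p : List ℕ × List ℕ} (h : c.WF p) :
    updF c.B c.I p1u p1u' p1g (enc c.B p.1) (enc c.B p.2) = enc c.B (X1 p) - enc c.B p.1 := by
  rw [updF_eval c.four_le_B (fun i hi => p1u_dig hi) (fun i hi => p1g_dig hi) h.1 h.2.1
    (idxOf_mem h) (pfx_p1u p) (pfx_p1g p)]
  · simp [X1, p1u, drop_two]
  · rintro ⟨a, t, cc⟩ _ ⟨e1, e2, -⟩ ⟨e3, -⟩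
    simp only at e1 e2 e3
    rw [e1, e2, e3]; rfl

theorem ph1b {p : List ℕ × List ℕ} (h : c.WF p) :
    updF c.B c.I p1u' p1u p1g (enc c.B (X1 p)) (enc c.B p.2) = enc c.B p.1 - enc c.B (X1 p) := by
  have := updF_eval_back (pu := p1u) (pu' := p1u') c.four_le_B (fun i hi => p1u'_dig hi)
    (fun i hi => p1g_dig hi) h.1 h.2.1 (idxOf_mem h) (pfx_p1u p) (pfx_p1g p) ?_
  · simpa [X1, p1u, drop_two] using this
  · intro i _ h1 _
    apply eq_of_pfx_X1 (p := p)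
    simpa [X1, p1u, drop_two] using h1

theorem ph2f {p : List ℕ × List ℕ} (h : c.WF p) :
    updF c.B c.I p1g c.p2u' p1u' (enc c.B p.2) (enc c.B (X1 p))
      = enc c.B (c.step2 p).2 - enc c.B p.2 := by
  rw [updF_eval c.four_le_B (fun i hi => p1g_dig hi) (fun i hi => p1u'_dig hi) h.2.1 (X1_dig h)
    (idxOf_mem h) (pfx_p1g p) (pfx_p1u'_X1 p)]
  · simp [step2, p2u', p1g]
  · intro i _ _ h2
    exact eq_of_pfx_X1 h2

theorem ph2b (hc : c.Valid) {p : List ℕ × List ℕ} (h : c.WF p) :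
    updF c.B c.I c.p2u' p1g p1u' (enc c.B (c.step2 p).2) (enc c.B (X1 p))
      = enc c.B p.2 - enc c.B (c.step2 p).2 := by
  have := updF_eval_back (pu := p1g) (pu' := c.p2u') c.four_le_B
    (fun i hi => (table_dig hc hi).2)
    (fun i hi => p1u'_dig hi) h.2.1 (X1_dig h) (idxOf_mem h) (pfx_p1g p) (pfx_p1u'_X1 p) ?_
  · simpa [step2, p2u', p1g, drop_one'] using this
  · intro i _ _ h2
    exact eq_of_pfx_X1 h2

theorem X1_drop (p : List ℕ × List ℕ) : (X1 p).drop 3 = p.1.tail.tail := by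
  simp [X1, p1u', drop_two]

theorem pfx_p2u' (p : List ℕ × List ℕ) : Pfx (c.p2u' (idxOf p.1 p.2)) (c.step2 p).2 :=
  Pfx_append_self _ _

theorem ph3f (hc : c.Valid) {p : List ℕ × List ℕ} (h : c.WF p) :
    updF c.B c.I p1u' c.p3u' c.p2u' (enc c.B (X1 p)) (enc c.B (c.step2 p).2)
      = enc c.B (c.step2 p).1 - enc c.B (X1 p) := by
  rw [updF_eval (pg := c.p2u') c.four_le_B (fun i hi => p1u'_dig hi)
    (fun i hi => (table_dig hc hi).2) (X1_dig h)
    (step2_WF hc h).2.1 (idxOf_mem h) (pfx_p1u'_X1 p) (pfx_p2u' p)]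
  · have : (p1u' (idxOf p.1 p.2)).length = 3 := rfl
    rw [this, X1_drop]
    rfl
  · intro i _ h1 _
    exact eq_of_pfx_X1 h1

theorem ph3b (hc : c.Valid) {p : List ℕ × List ℕ} (h : c.WF p) :
    updF c.B c.I c.p3u' p1u' c.p2u' (enc c.B (c.step2 p).1) (enc c.B (c.step2 p).2)
      = enc c.B (X1 p) - enc c.B (c.step2 p).1 := by
  have hl : (p1u' (idxOf p.1 p.2)).length = 3 := rfl
  have := updF_eval_back (pu := p1u') (pu' := c.p3u') (pg := c.p2u') c.four_le_B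
    (fun i hi => (table_dig hc hi).1)
    (fun i hi => (table_dig hc hi).2) (X1_dig h) (step2_WF hc h).2.1 (idxOf_mem h)
    (pfx_p1u'_X1 p) (pfx_p2u' p) ?_
  · rw [hl, X1_drop] at this
    exact this
  · intro i hi h1 h2
    rw [hl, X1_drop] at h1
    have e1 := recov_table hc hi h1 h2
    have e2 := recov_table hc (idxOf_mem h) (X := c.p3u' (idxOf p.1 p.2) ++ p.1.tail.tail)
      (Y := (c.step2 p).2) (Pfx_append_self _ _) (pfx_p2u' p)
    exact e1.symm.trans e2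

end MC

end Vale.Agent.Lib.P113
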