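import Vale.Agent.Lib.P113.ForceDefs

/-!
# Periodization of compactly supported smooth functions of one variable
-/

namespace Vale.Agent.Lib.P113

open Set Filter Topology

theorem abs_red_le (x : ℝ) : |red x| ≤ 1 / 2 := abs_sub_round x

theorem red_add_int (x : ℝ) (n : ℤ) : red (x + n) = red x := by
  simp [red, round_add_intCast]

theorem red_of_mem {x : ℝ} (h1 : -(1 / 2) ≤ x) (h2 : x < 1 / 2) : red x = x := by
  have : round x = 0 := round_eq_zero_iff.2 ⟨h1, h2⟩
  simp [red, this]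

theorem per_add_int (g : ℝ → ℝ) (x : ℝ) (n : ℤ) : per g (x + n) = per g x := by
  simp [per, red_add_int]

theorem per_of_mem (g : ℝ → ℝ) {x : ℝ} (h1 : -(1 / 2) ≤ x) (h2 : x < 1 / 2) : per g x = g x := by
  simp [per, red_of_mem h1 h2]

theorem per_eventuallyEq {g : ℝ → ℝ} (hg : ∀ v, 3 / 8 ≤ |v| → g v = 0) (x0 : ℝ) :
    per g =ᶠ[𝓝 x0] fun x => g (x - round x0) := by
  have hball : Metric.ball x0 (1 / 8) ∈ 𝓝 x0 := Metric.ball_mem_nhds _ (by norm_num)
  filter_upwards [hball] with x hx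
  rw [Metric.mem_ball, Real.dist_eq] at hx
  by_cases hn : round x = round x0
  · simp [per, red, hn]
  · have h0 : |x0 - round x0| ≤ 1 / 2 := abs_sub_round x0
    have h1 : |x - round x| ≤ 1 / 2 := abs_sub_round x
    have hk : (1 : ℝ) ≤ |(round x : ℝ) - round x0| := by
      have : (1 : ℤ) ≤ |round x - round x0| := Int.one_le_abs (sub_ne_zero.2 hn)
      exact_mod_cast this
    have e1 : g (x - round x0) = 0 := by
      apply hg
      rw [abs_le] at h0 h1
      rw [abs_lt] at hx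
      rcases le_abs'.1 hk with h | h
      · rw [le_abs]; right; linarith [h0.1, h0.2, h1.1, h1.2, hx.1, hx.2]
      · rw [le_abs]; left; linarith [h0.1, h0.2, h1.1, h1.2, hx.1, hx.2]
    have e2 : g (x - round x) = 0 := by
      apply hg
      rw [abs_le] at h0 h1
      rw [abs_lt] at hx
      rcases le_abs'.1 hk with h | h
      · rw [le_abs]; left; linarith [h0.1, h0.2, h1.1, h1.2, hx.1, hx.2]
      · rw [le_abs]; right; linarith [h0.1, h0.2, h1.1, h1.2, hx.1, hx.2]
    simp [per, red, e1, e2]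

theorem per_contDiff {g : ℝ → ℝ} (hs : ContDiff ℝ (⊤ : ℕ∞) g) (hg : ∀ v, 3 / 8 ≤ |v| → g v = 0) :
    ContDiff ℝ (⊤ : ℕ∞) (per g) := by
  rw [contDiff_iff_contDiffAt]
  intro x0
  have : ContDiffAt ℝ (⊤ : ℕ∞) (fun x => g (x - round x0)) x0 :=
    (hs.comp (contDiff_id.sub contDiff_const)).contDiffAt
  exact this.congr_of_eventuallyEq (per_eventuallyEq hg x0)

theorem iteratedDeriv_per {g : ℝ → ℝ} (hg : ∀ v, 3 / 8 ≤ |v| → g v = 0) (n : ℕ) (x : ℝ) :
    iteratedDeriv n (per g) x = iteratedDeriv n g (red x) := by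
  rw [(per_eventuallyEq hg x).iteratedDeriv_eq n, iteratedDeriv_comp_sub_const]
  rfl

theorem iteratedDeriv_per_eq {g : ℝ → ℝ} (hg : ∀ v, 3 / 8 ≤ |v| → g v = 0) (n : ℕ) :
    iteratedDeriv n (per g) = per (iteratedDeriv n g) :=
  funext fun x => iteratedDeriv_per hg n x

end Vale.Agent.Lib.P113
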