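import Vale.Agent.Lib.P113.Step
import Vale.Agent.Lib.P113.Periodize

/-!
# Time profiles: sixteen windows per unit of time
-/

namespace Vale.Agent.Lib.P113

open Set Filter Topology

theorem prof_init {j : ℕ} (hj : j ≤ 3) (t : ℝ) : prof j t = 16 * sstep' (16 * t - j) := by
  simp [prof, hj]

theorem prof_per {j : ℕ} (hj : 4 ≤ j) (t : ℝ) :
    prof j t = 16 * sstep' (16 * t - (16 * (round (t - 1 / 2) : ℝ) + j)) := by
  have : ¬ j ≤ 3 := by omega
  simp only [prof, this, if_false, per, red]
  congr 2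
  ring

theorem prof_support {j : ℕ} (h2 : 2 ≤ j) (h13 : j ≤ 13) :
    ∀ v : ℝ, 3 / 8 ≤ |v| → 16 * sstep' (16 * (v + 1 / 2) - j) = 0 := by
  intro v hv
  have a2 : (2 : ℝ) ≤ j := by exact_mod_cast h2
  have a13 : (j : ℝ) ≤ 13 := by exact_mod_cast h13
  rcases le_abs.1 hv with h | h
  · rw [sstep'_of_one_le (by linarith)]; simp
  · rw [sstep'_of_nonpos (by linarith)]; simp

theorem prof_contDiff {j : ℕ} (h2 : 2 ≤ j) (h13 : j ≤ 13) : ContDiff ℝ (⊤ : ℕ∞) (prof j) := by
  by_cases hj : j ≤ 3
  · have : prof j = fun t => 16 * sstep' (16 * t - j) := funext fun t => prof_init hj t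
    rw [this]
    exact contDiff_const.mul
      (sstep'_contDiff.comp ((contDiff_const.mul contDiff_id).sub contDiff_const))
  · have : prof j = fun t => per (fun v => 16 * sstep' (16 * (v + 1 / 2) - j)) (t - 1 / 2) := by
      funext t; simp [prof, hj]
    rw [this]
    refine (per_contDiff ?_ (prof_support h2 h13)).comp (contDiff_id.sub contDiff_const)
    exact contDiff_const.mul (sstep'_contDiff.comp
      ((contDiff_const.mul (contDiff_id.add contDiff_const)).sub contDiff_const))

theorem prof_add_one {j : ℕ} (hj : 4 ≤ j) (t : ℝ) : prof j (t + 1) = prof j t := by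
  have : ¬ j ≤ 3 := by omega
  simp only [prof, this, if_false]
  have e : t + 1 - 1 / 2 = (t - 1 / 2) + ((1 : ℤ) : ℝ) := by push_cast; ring
  rw [e, per_add_int]

/-- integer dichotomy for the support of `sstep'` -/
theorem sstep'_int_ne {x : ℝ} {m m' : ℤ} (h1 : (m : ℝ) ≤ x) (h2 : x ≤ (m : ℝ) + 1) (hne : m' ≠ m) :
    sstep' (x - m') = 0 := by
  rcases lt_or_gt_of_ne hne with h | h
  · have : (m' : ℝ) + 1 ≤ m := by exact_mod_cast h
    exact sstep'_of_one_le (by linarith)
  · have : (m : ℝ) + 1 ≤ m' := by exact_mod_cast h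
    exact sstep'_of_nonpos (by linarith)

theorem prof_window {j : ℕ} (h13 : j ≤ 13) (m : ℕ) (t : ℝ)
    (h1 : (m : ℝ) ≤ 16 * t) (h2 : 16 * t ≤ (m : ℝ) + 1) :
    prof j t = if j = m % 16 ∧ (j ≤ 3 → m < 16) then 16 * sstep' (16 * t - m) else 0 := by
  by_cases hj : j ≤ 3
  · rw [prof_init hj]
    split_ifs with hc
    · have : m = j := by omega
      rw [this]
    · have hne : (j : ℤ) ≠ (m : ℤ) := by
        intro h
        have : j = m := by exact_mod_cast h
        apply hc
        omega
      have := sstep'_int_ne (x := 16 * t) (m := (m : ℤ)) (m' := (j : ℤ)) (by exact_mod_cast h1)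
        (by exact_mod_cast h2) hne
      simp only [Int.cast_natCast] at this
      rw [this, mul_zero]
  · have hj4 : 4 ≤ j := by omega
    rw [prof_per hj4]
    split_ifs with hc
    · -- the window matches
      obtain ⟨q, hm⟩ : ∃ q : ℕ, m = 16 * q + j := ⟨m / 16, by omega⟩
      have hm' : (m : ℝ) = 16 * (q : ℝ) + j := by exact_mod_cast hm
      have hr : round (t - 1 / 2) = (q : ℤ) := by
        rw [round_eq, Int.floor_eq_iff]
        have a13 : (j : ℝ) ≤ 13 := by exact_mod_cast h13
        have a0 : (0 : ℝ) ≤ j := by positivity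
        constructor
        · push_cast; linarith
        · push_cast; linarith
      rw [hr, hm']
      push_cast
      rfl
    · have hne : 16 * round (t - 1 / 2) + (j : ℤ) ≠ (m : ℤ) := by
        intro h
        apply hc
        constructor
        · omega
        · intro h3; omega
      have := sstep'_int_ne (x := 16 * t) (m := (m : ℤ)) (m' := 16 * round (t - 1 / 2) + (j : ℤ))
        (by exact_mod_cast h1) (by exact_mod_cast h2) hne
      push_cast at this
      rw [this, mul_zero]

theorem sstep'_mul_zero {a b : ℝ} (h : 1 ≤ |a - b|) : sstep' a * sstep' b = 0 := by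
  by_cases h0 : a ≤ 0
  · rw [sstep'_of_nonpos h0, zero_mul]
  by_cases h1 : 1 ≤ a
  · rw [sstep'_of_one_le h1, zero_mul]
  have h0 := not_le.1 h0
  have h1 := not_le.1 h1
  rcases le_abs.1 h with h' | h'
  · rw [sstep'_of_nonpos (x := b) (by linarith), mul_zero]
  · rw [sstep'_of_one_le (x := b) (by linarith), mul_zero]

theorem prof_disjoint {j k : ℕ} (hjk : j ≠ k) (t : ℝ) : prof j t * prof k t = 0 := by
  have hcast : (1 : ℝ) ≤ |(k : ℝ) - j| := by
    have : (1 : ℤ) ≤ |(k : ℤ) - j| := Int.one_le_abs (sub_ne_zero.2 (by exact_mod_cast hjk.symm))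
    exact_mod_cast this
  have mixed : ∀ {j k : ℕ}, j ≤ 3 → 4 ≤ k → prof j t * prof k t = 0 := by
    intro j k hj hk
    rw [prof_init hj, prof_per hk]
    by_cases h0 : 16 * t - j ≤ 0
    · rw [sstep'_of_nonpos h0]; simp
    by_cases h1 : 1 ≤ 16 * t - j
    · rw [sstep'_of_one_le h1]; simp
    have h0 := not_le.1 h0
    have h1 := not_le.1 h1
    have a3 : (j : ℝ) ≤ 3 := by exact_mod_cast hj
    have a0 : (0 : ℝ) ≤ j := by positivity
    have a4 : (4 : ℝ) ≤ k := by exact_mod_cast hk
    have hr : round (t - 1 / 2) = 0 := by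
      rw [round_eq_zero_iff]
      constructor <;> linarith
    rw [hr, sstep'_of_nonpos (x := 16 * t - (16 * ((0 : ℤ) : ℝ) + k)) (by push_cast; linarith)]
    simp
  by_cases hj : j ≤ 3
  · by_cases hk : k ≤ 3
    · rw [prof_init hj, prof_init hk]
      have := sstep'_mul_zero (a := 16 * t - j) (b := 16 * t - k) (by
        rw [show 16 * t - (j : ℝ) - (16 * t - k) = (k : ℝ) - j by ring]; exact hcast)
      nlinarith
    · exact mixed hj (by omega)
  · by_cases hk : k ≤ 3
    · rw [mul_comm]; exact mixed hk (by omega)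
    · rw [prof_per (by omega), prof_per (by omega)]
      have := sstep'_mul_zero (a := 16 * t - (16 * (round (t - 1 / 2) : ℝ) + j))
        (b := 16 * t - (16 * (round (t - 1 / 2) : ℝ) + k)) (by
        rw [show 16 * t - (16 * (round (t - 1 / 2) : ℝ) + j) - (16 * t -
          (16 * (round (t - 1 / 2) : ℝ) + k)) = (k : ℝ) - j by ring]; exact hcast)
      nlinarith

theorem prof_zero {j : ℕ} (h2 : 2 ≤ j) (h13 : j ≤ 13) : prof j 0 = 0 := by
  rw [prof_window h13 0 0 (by simp) (by simp), if_neg]
  omega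

theorem prof_init_late {j : ℕ} (hj : j ≤ 3) {t : ℝ} (ht : 1 / 4 ≤ t) : prof j t = 0 := by
  have a3 : (j : ℝ) ≤ 3 := by exact_mod_cast hj
  rw [prof_init hj, sstep'_of_one_le (by linarith), mul_zero]

theorem deriv_prof_init_late {j : ℕ} (hj : j ≤ 3) {t : ℝ} (ht : 1 / 4 < t) :
    deriv (prof j) t = 0 := by
  have : prof j =ᶠ[𝓝 t] fun _ => 0 := by
    filter_upwards [Ioi_mem_nhds ht] with s hs
    exact prof_init_late hj (le_of_lt hs)
  rw [this.deriv_eq]
  simp

theorem deriv_prof_add_one {j : ℕ} (hj : 4 ≤ j) (t : ℝ) :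
    deriv (prof j) (t + 1) = deriv (prof j) t := by
  have : (fun s => prof j (s + 1)) = prof j := funext fun s => prof_add_one hj s
  conv_rhs => rw [← this]
  rw [deriv_comp_add_const]

end Vale.Agent.Lib.P113
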