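import Vale.Agent.Lib.P113.Traj
import Vale.Agent.Lib.P113.Phases
import Vale.Agent.Lib.P113.Profile

/-!
# The velocity field and the force attached to a machine description
-/

namespace Vale.Agent.Lib.P113

open Set

theorem kap_support : ∀ v : ℝ, 3 / 8 ≤ |v| → cutAff 8 3 8 (-2) 1 0 v = 0 := by
  intro v hv
  unfold cutAff
  rcases le_abs.1 hv with h | h
  · rw [sstep_of_one_le (by linarith), sstep_of_one_le (by linarith)]; simp
  · rw [sstep_of_nonpos (by linarith), sstep_of_nonpos (by linarith)]; simp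

theorem kap_contDiff : ContDiff ℝ (⊤ : ℕ∞) kap :=
  per_contDiff (cutAff_contDiff _ _ _ _ _ _) kap_support

theorem kap_add_int (x : ℝ) (n : ℤ) : kap (x + n) = kap x := per_add_int _ _ _

theorem kap_of_abs_le {z : ℝ} (h : |z| ≤ 1 / 4) : kap z = z := by
  rw [abs_le] at h
  unfold kap
  rw [per_of_mem _ (by linarith [h.1]) (by linarith [h.2])]
  unfold cutAff
  rw [sstep_of_one_le (by linarith [h.1]), sstep_of_nonpos (by linarith [h.2])]
  ring

/-- The velocity field. -/
noncomputable def vel (c : MC) (x0 y0 : ℝ) : ℝ → R3 → R3 := famVel JW prof (VW c x0 y0)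

theorem haltF_contDiff (c : MC) : ContDiff ℝ (⊤ : ℕ∞) (haltF c) := by
  unfold haltF
  refine contDiff_const.mul (ContDiff.sum fun a ha => ?_)
  split_ifs
  · refine fam_contDiff c.four_le_B (c.dig_list ?_) _ _
    have := c.two_m_lt_D
    have := Finset.mem_range.1 ha
    simp; omega
  · exact contDiff_const

theorem haltF_add_int (c : MC) (x : ℝ) (n : ℤ) : haltF c (x + n) = haltF c x := by
  unfold haltF cyl
  simp only [fam_add_int]

theorem cd_coord (i : Fin 3) : ContDiff ℝ (⊤ : ℕ∞) (fun x : R3 => x i) := contDiff_apply ℝ ℝ i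

theorem updF_cd {B : ℕ} (hB : 4 ≤ B) {I : Finset Idx} {pu pu' pg : Idx → List ℕ}
    (hpu : ∀ i ∈ I, Dig B (pu i)) (hpg : ∀ i ∈ I, Dig B (pg i)) (a b : Fin 3) :
    ContDiff ℝ (⊤ : ℕ∞) (fun x : R3 => updF B I pu pu' pg (x a) (x b)) := by
  unfold updF
  refine ContDiff.sum fun i hi => ContDiff.mul ?_ ?_
  · exact (fam_contDiff hB (hpu i hi) _ _).comp (cd_coord a)
  · exact (fam_contDiff hB (hpg i hi) _ _).comp (cd_coord b)

theorem GW_contDiff {c : MC} (hc : c.Valid) (x0 y0 : ℝ) (j : ℕ) :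
    ContDiff ℝ (⊤ : ℕ∞) (GW c x0 y0 j) := by
  have hB := c.four_le_B
  unfold GW
  split
  · exact contDiff_const
  · exact contDiff_const
  · exact (haltF_contDiff c).comp (cd_coord 0)
  · exact updF_cd hB (fun i hi => MC.p1u_dig hi) (fun i hi => MC.p1g_dig hi) 0 1
  · exact kap_contDiff.comp (cd_coord 2)
  · exact updF_cd hB (fun i hi => MC.p1u'_dig hi) (fun i hi => MC.p1g_dig hi) 0 1
  · exact updF_cd hB (fun i hi => MC.p1g_dig hi) (fun i hi => MC.p1u'_dig hi) 1 0
  · exact kap_contDiff.comp (cd_coord 2)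
  · exact updF_cd hB (fun i hi => (MC.table_dig hc hi).2) (fun i hi => MC.p1u'_dig hi) 1 0
  · exact updF_cd hB (fun i hi => MC.p1u'_dig hi) (fun i hi => (MC.table_dig hc hi).2) 0 1
  · exact kap_contDiff.comp (cd_coord 2)
  · exact updF_cd hB (fun i hi => (MC.table_dig hc hi).1) (fun i hi => (MC.table_dig hc hi).2) 0 1
  · exact contDiff_const

theorem GW_per (c : MC) (x0 y0 : ℝ) (j : ℕ) : Per (GW c x0 y0 j) := by
  intro x n
  unfold GW
  split <;> simp only [Pi.add_apply, updF_add_int, kap_add_int, haltF_add_int]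

theorem GW_indep (c : MC) (x0 y0 : ℝ) (j : ℕ) : IndepOf (dirW j) (GW c x0 y0 j) := by
  intro x y h
  unfold GW
  split <;> first
    | rfl
    | (rw [h 0 (by decide), h 1 (by decide)])
    | (rw [h 0 (by decide)])
    | (rw [h 2 (by decide)])

theorem mem_JW {j : ℕ} : j ∈ JW ↔ 2 ≤ j ∧ j ≤ 13 := by simp [JW]

theorem vel_sol {c : MC} (hc : c.Valid) (ν x0 y0 : ℝ) :
    GlobalSmoothSol ν (force ν c x0 y0) (vel c x0 y0) (fun _ _ => 0) := by
  have hd : ∀ j, Differentiable ℝ (GW c x0 y0 j) :=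
    fun j => (GW_contDiff hc x0 y0 j).differentiable (by simp)
  refine famSol (fun j hj => prof_contDiff (mem_JW.1 hj).1 (mem_JW.1 hj).2)
    (fun j _ => shearField_contDiff (GW_contDiff hc x0 y0 j))
    (fun j _ => shearField_per (GW_per c x0 y0 j))
    (fun j _ k _ hjk t => prof_disjoint hjk t)
    (fun j _ x => shearField_div (hd j) (GW_indep c x0 y0 j) x)
    (fun j _ x i => shearField_adv (hd j) (GW_indep c x0 y0 j) x i)
    (fun j hj => prof_zero (mem_JW.1 hj).1 (mem_JW.1 hj).2)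

theorem force_smooth {c : MC} (hc : c.Valid) (ν x0 y0 : ℝ) : SmoothForce (force ν c x0 y0) :=
  famForce_smooth (fun j hj => prof_contDiff (mem_JW.1 hj).1 (mem_JW.1 hj).2)
    (fun j _ => shearField_contDiff (GW_contDiff hc x0 y0 j))
    (fun j _ => shearField_per (GW_per c x0 y0 j))

/-- Which global windows are active. -/
def Active (m : ℕ) : Prop := 2 ≤ m % 16 ∧ m % 16 ≤ 13 ∧ (m % 16 ≤ 3 → m < 16)

instance (m : ℕ) : Decidable (Active m) := by unfold Active; infer_instance

/-- The shear profile in the global window `m`. -/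
noncomputable def gWin (c : MC) (x0 y0 : ℝ) (m : ℕ) : R3 → ℝ :=
  if Active m then GW c x0 y0 (m % 16) else fun _ => 0

/-- The shear direction in the global window `m`. -/
def dWin (m : ℕ) : Fin 3 := dirW (m % 16)

theorem gWin_indep (c : MC) (x0 y0 : ℝ) (m : ℕ) : IndepOf (dWin m) (gWin c x0 y0 m) := by
  unfold gWin dWin
  split_ifs
  · exact GW_indep c x0 y0 _
  · intro x y _; rfl

theorem vel_windowed (c : MC) (x0 y0 : ℝ) : Windowed 16 (vel c x0 y0) (gWin c x0 y0) dWin := by
  intro m t h1 h2 x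
  unfold vel famVel
  have e : ∀ j ∈ JW, prof j t • VW c x0 y0 j x
      = if j = m % 16 ∧ (j ≤ 3 → m < 16) then (16 * sstep' (16 * t - m)) • VW c x0 y0 j x else 0 := by
    intro j hj
    rw [prof_window (mem_JW.1 hj).2 m t h1 h2]
    split_ifs <;> simp
  rw [Finset.sum_congr rfl e]
  unfold gWin dWin
  by_cases hact : Active m
  · rw [if_pos hact, Finset.sum_eq_single (m % 16)]
    · rw [if_pos ⟨rfl, hact.2.2⟩]
      simp [VW, shearField, smul_smul]
    · intro j _ hne
      rw [if_neg (fun h => hne h.1)]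
    · intro h
      exact absurd (mem_JW.2 ⟨hact.1, hact.2.1⟩) h
  · rw [if_neg hact]
    simp only [mul_zero, zero_smul]
    refine Finset.sum_eq_zero fun j hj => ?_
    rw [if_neg]
    rintro ⟨h3, h4⟩
    apply hact
    have := mem_JW.1 hj
    exact ⟨h3 ▸ this.1, h3 ▸ this.2, h3 ▸ h4⟩

end Vale.Agent.Lib.P113
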