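import Vale.Agent.Lib.P113.AtomDefs
import Vale.Agent.Lib.P113.Construct
import Vale.Agent.Lib.P113.Tensor

/-!
# P113: the shear profiles as sums of products of coded one-variable factors
-/

namespace Vale.Agent.Lib.P113

open Set

theorem qval_qnat (n : ℕ) : qval (qnat n) = n := by simp [qval, qnat]

theorem qval_qint (a b : ℕ) : qval (qint a b) = (a : ℝ) - b := by simp [qval, qint]

theorem qval_qfrac (a b : ℕ) {c : ℕ} (hc : 1 ≤ c) : qval (qfrac a b c) = ((a : ℝ) - b) / c := by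
  simp only [qval, qfrac]
  rw [Nat.cast_sub hc]
  simp

theorem enc_eq_val {B : ℕ} (hB : 0 < B) (W : List ℕ) :
    enc B W = (val B W : ℝ) / (B : ℝ) ^ W.length := by
  have hB' : (B : ℝ) ≠ 0 := by positivity
  induction W with
  | nil => simp [enc, val]
  | cons d l ih =>
    simp only [enc, val, ih, List.length_cons]
    push_cast
    field_simp
    ring

theorem qval_qenc {B : ℕ} (hB : 0 < B) (W : List ℕ) : qval (qenc B W) = enc B W := by
  rw [qenc, qval_qfrac _ _ (Nat.one_le_pow _ _ hB), enc_eq_val hB]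
  simp

theorem aRaw_oneA : aRaw oneA = fun _ => 1 := by
  funext v
  simp [aRaw, oneA, cutAff, qval_qnat, sstep_of_one_le le_rfl, sstep_of_nonpos le_rfl]

theorem aFn_oneA : aFn oneA = fun _ => 1 := by
  funext v
  simp [aFn, per, aRaw_oneA]

theorem aFn_kapA : aFn kapA = kap := by
  simp [aFn, kap, aRaw, kapA, qval_qnat, qval_qint]

theorem aRaw_famA (B : ℕ) (u : List ℕ) (α β : QCode) :
    aRaw (famA B u α β) = cutAff (4 * (B : ℝ) ^ u.length) (1 - 4 * (val B u : ℝ))
      (8 * (B : ℝ) ^ u.length) (-(8 * (val B u : ℝ)) - 2) (qval α) (qval β) := by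
  simp only [aRaw, famA, qval_qnat, qval_qint]
  push_cast
  congr 1
  ring

theorem aFn_famA (B : ℕ) (u : List ℕ) (α β : QCode) :
    aFn (famA B u α β) = fam B u (qval α) (qval β) := by
  rw [aFn, aRaw_famA, fam]

theorem aFn_cylA (B : ℕ) (u : List ℕ) : aFn (cylA B u) = cyl B u := by
  rw [cylA, aFn_famA, cyl, qval_qnat, qval_qnat]
  simp

theorem aFn_repA {B : ℕ} (hB : 0 < B) (u u' : List ℕ) : aFn (repA B u u') = rep B u u' := by
  have hB' : (B : ℝ) ≠ 0 := by positivity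
  rw [repA, aFn_famA, rep, qval_qfrac _ _ (Nat.one_le_pow _ _ hB),
    qval_qfrac _ _ (Nat.one_le_pow _ _ hB)]
  push_cast
  congr 1
  field_simp

/-- Codes whose function is smooth with the expected derivatives. -/
def GoodA (a : ACode) : Prop :=
  ContDiff ℝ (⊤ : ℕ∞) (aFn a) ∧ ∀ n x, iteratedDeriv n (aFn a) x = atomD n a x

theorem good_oneA : GoodA oneA := by
  refine ⟨by rw [aFn_oneA]; exact contDiff_const, fun n x => ?_⟩
  rw [atomD, aFn_oneA, aRaw_oneA]
  simp [iteratedDeriv_const]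

theorem aRaw_contDiff (a : ACode) : ContDiff ℝ (⊤ : ℕ∞) (aRaw a) := cutAff_contDiff _ _ _ _ _ _

theorem good_of_support {a : ACode} (h : ∀ v, 3 / 8 ≤ |v| → aRaw a v = 0) : GoodA a :=
  ⟨per_contDiff (aRaw_contDiff a) h, fun n x => iteratedDeriv_per h n x⟩

theorem good_kapA : GoodA kapA := by
  refine good_of_support fun v hv => ?_
  have := kap_support v hv
  simpa [aRaw, kapA, qval_qnat, qval_qint] using this

theorem good_famA {B : ℕ} (hB : 4 ≤ B) {u : List ℕ} (hu : Dig B u) (α β : QCode) :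
    GoodA (famA B u α β) := by
  refine good_of_support fun v hv => ?_
  rw [aRaw_famA]
  exact fam_support hB hu _ _ v hv

theorem good_gA {c : MC} (hc : c.Valid) (j : ℕ) {i : Idx} (hi : i ∈ c.I) : GoodA (gA c j i) := by
  have hB := c.four_le_B
  unfold gA cylA repA
  split_ifs
  · refine good_famA hB (c.dig_list ?_) _ _
    have := c.two_m_lt_D
    have := (MC.mem_I.1 hi).1
    simp; omega
  · exact good_famA hB (MC.p1u_dig hi) _ _
  · exact good_famA hB (MC.p1u'_dig hi) _ _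
  · exact good_famA hB (MC.p1u'_dig hi) _ _
  · exact good_famA hB (MC.p1u'_dig hi) _ _
  · exact good_famA hB (MC.table_dig hc hi).1 _ _
  · exact good_oneA

theorem good_gB {c : MC} (hc : c.Valid) (j : ℕ) {i : Idx} (hi : i ∈ c.I) : GoodA (gB c j i) := by
  have hB := c.four_le_B
  unfold gB cylA repA
  split_ifs
  · exact good_famA hB (MC.p1g_dig hi) _ _
  · exact good_famA hB (MC.p1g_dig hi) _ _
  · exact good_famA hB (MC.table_dig hc hi).2 _ _
  · exact good_famA hB (MC.table_dig hc hi).2 _ _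
  · exact good_oneA

theorem good_gC (j : ℕ) : GoodA (gC j) := by
  unfold gC
  split_ifs
  · exact good_kapA
  · exact good_oneA

theorem zero_mem_I (c : MC) : ((0, 0, 0) : Idx) ∈ c.I :=
  MC.mem_I.2 ⟨by have := c.m_pos; simp; omega, c.D_pos, c.D_pos⟩

theorem sum_I_diag (c : MC) (f : Idx → ℝ) (hf : ∀ i, i ≠ (0, 0, 0) → f i = 0) :
    ∑ i ∈ c.I, f i = f (0, 0, 0) :=
  Finset.sum_eq_single_of_mem _ (zero_mem_I c) fun i _ hi => hf i hi

theorem sum_I_first (c : MC) (f : Idx → ℝ) (hf : ∀ i : Idx, ¬(i.2.1 = 0 ∧ i.2.2 = 0) → f i = 0) :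
    ∑ i ∈ c.I, f i = ∑ a ∈ Finset.range (2 * c.m), f (a, 0, 0) := by
  unfold MC.I
  rw [Finset.sum_product]
  refine Finset.sum_congr rfl fun a _ => ?_
  refine Finset.sum_eq_single_of_mem (0, 0) (by simp [c.D_pos]) fun p _ hp => hf _ ?_
  rintro ⟨h1, h2⟩
  exact hp (Prod.ext h1 h2)

theorem GW_tensor (c : MC) (x0 y0 : QCode) {j : ℕ} (h2 : 2 ≤ j) (h13 : j ≤ 13) (x : R3) :
    GW c (qval x0) (qval y0) j x = ∑ i ∈ c.I, qval (gco c x0 y0 j i) *
      (aFn (gA c j i) (x 0) * aFn (gB c j i) (x 1) * aFn (gC j) (x 2)) := by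
  have hB : 0 < c.B := by have := c.four_le_B; omega
  interval_cases j
  · rw [sum_I_diag]
    · simp [GW, gco, gA, gB, gC, aFn_oneA]
    · intro i hi
      simp [gco, hi, qval_qnat]
  · rw [sum_I_diag]
    · simp [GW, gco, gA, gB, gC, aFn_oneA]
    · intro i hi
      simp [gco, hi, qval_qnat]
  · rw [sum_I_first]
    · simp only [GW, haltF, Finset.mul_sum]
      refine Finset.sum_congr rfl fun a _ => ?_
      by_cases h : c.hlt (a / 2) = true
      · simp [gco, gA, gB, gC, aFn_oneA, aFn_cylA, h, qval_qfrac]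
      · simp [gco, gA, gB, gC, aFn_oneA, aFn_cylA, h, qval_qnat]
    · intro i hi
      have : ¬(i.2.1 = 0 ∧ i.2.2 = 0 ∧ c.hlt (i.1 / 2) = true) := fun h => hi ⟨h.1, h.2.1⟩
      simp only [gco]
      simp [this, qval_qnat]
  · simp [GW, updF, gco, gA, gB, gC, aFn_oneA, aFn_cylA, aFn_repA hB, qval_qnat]
  · rw [sum_I_diag]
    · simp [GW, gco, gA, gB, gC, aFn_oneA, aFn_kapA, qval_qnat]
    · intro i hi
      simp [gco, hi, qval_qnat]
  · simp [GW, updF, gco, gA, gB, gC, aFn_oneA, aFn_cylA, aFn_repA hB, qval_qnat]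
  · simp [GW, updF, gco, gA, gB, gC, aFn_oneA, aFn_cylA, aFn_repA hB, qval_qnat, mul_comm]
  · rw [sum_I_diag]
    · simp [GW, gco, gA, gB, gC, aFn_oneA, aFn_kapA, qval_qnat]
    · intro i hi
      simp [gco, hi, qval_qnat]
  · simp [GW, updF, gco, gA, gB, gC, aFn_oneA, aFn_cylA, aFn_repA hB, qval_qnat, mul_comm]
  · simp [GW, updF, gco, gA, gB, gC, aFn_oneA, aFn_cylA, aFn_repA hB, qval_qnat]
  · rw [sum_I_diag]
    · simp [GW, gco, gA, gB, gC, aFn_oneA, aFn_kapA, qval_qnat]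
    · intro i hi
      simp [gco, hi, qval_qnat]
  · simp [GW, updF, gco, gA, gB, gC, aFn_oneA, aFn_cylA, aFn_repA hB, qval_qnat]

end Vale.Agent.Lib.P113
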