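import Vale.Agent.Lib.P113.Table

/-!
# The two-stack machine simulates the Turing machine
-/

namespace Vale.Agent.Lib.P113

open Turing

namespace Machine

variable (M : Machine)

theorem code_k : M.mc.k = M.nSym + 1 := rfl
theorem code_m : M.mc.m = M.nSt + 1 := rfl

theorem code_hlt (q : M.St) : M.mc.hlt q.val = M.halting q := by
  show (List.ofFn M.halting).getD q.val false = _
  rw [List.getD_eq_getElem _ _ (by rw [List.length_ofFn]; exact q.isLt), List.getElem_ofFn]

theorem code_tr (q : M.St) (s : M.Sym) : M.mc.tr q.val s.val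
    = (((M.δ q s).1 : ℕ), ((M.δ q s).2.1 : ℕ), decide ((M.δ q s).2.2 = Dir.right)) := by
  show ((List.ofFn fun q => List.ofFn fun s =>
      (((M.δ q s).1 : ℕ), ((M.δ q s).2.1 : ℕ), decide ((M.δ q s).2.2 = Dir.right))).getD
        q.val []).getD s.val (0, 0, false) = _
  rw [List.getD_eq_getElem (l := List.ofFn fun q => List.ofFn fun s =>
      (((M.δ q s).1 : ℕ), ((M.δ q s).2.1 : ℕ), decide ((M.δ q s).2.2 = Dir.right))) _
      (by rw [List.length_ofFn]; exact q.isLt), List.getElem_ofFn,
    List.getD_eq_getElem _ _ (by rw [List.length_ofFn]; exact s.isLt), List.getElem_ofFn]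

theorem code_valid : M.mc.Valid := by
  intro q s hq hs
  have := M.code_tr ⟨q, hq⟩ ⟨s, hs⟩
  simp only at this
  rw [this]
  exact ⟨(M.δ _ _).1.isLt, (M.δ _ _).2.1.isLt⟩

/-- Erase the junk digits. -/
def er (l : List ℕ) : List M.Sym :=
  l.filterMap fun d => if h : d < M.nSym + 1 then some ⟨d, h⟩ else none

/-- The blank-padded stack of tape symbols. -/
def lam (l : List ℕ) : ListBlank M.Sym := ListBlank.mk (M.er l)

theorem lam_junk {d : ℕ} (h : M.nSym + 1 ≤ d) (l : List ℕ) : M.lam (d :: l) = M.lam l := by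
  have : ¬ d < M.nSym + 1 := by omega
  unfold lam er
  rw [List.filterMap_cons_none (by rw [dif_neg this])]

theorem lam_real {d : ℕ} (h : d < M.nSym + 1) (l : List ℕ) :
    M.lam (d :: l) = (M.lam l).cons ⟨d, h⟩ := by
  unfold lam er
  rw [List.filterMap_cons_some (b := ⟨d, h⟩) (by rw [dif_pos h]), ListBlank.cons_mk]

theorem lam_nil_cons : (M.lam []).cons (0 : M.Sym) = M.lam [] := by
  simp only [lam, er, List.filterMap_nil, ListBlank.cons_mk]
  exact Quotient.sound' (Or.inr ⟨1, rfl⟩)

theorem lam_head_tail (l : List ℕ) : M.lam (l.headD 0 :: l.tail) = M.lam l := by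
  cases l with
  | nil =>
    simp only [List.headD_nil, List.tail_nil]
    rw [M.lam_real (Nat.succ_pos _)]
    exact M.lam_nil_cons
  | cons d l => rfl

theorem lam_tail_of_junk {l : List ℕ} (h : M.nSym + 1 ≤ l.headD 0) : M.lam l.tail = M.lam l := by
  rw [← M.lam_head_tail l, M.lam_junk h]

theorem lam_eq_cons {l : List ℕ} (h : l.headD 0 < M.nSym + 1) :
    M.lam l = (M.lam l.tail).cons ⟨l.headD 0, h⟩ := by
  rw [← M.lam_head_tail l, M.lam_real h]

theorem lam_head {l : List ℕ} (h : l.headD 0 < M.nSym + 1) : (M.lam l).head = ⟨l.headD 0, h⟩ := by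
  rw [M.lam_eq_cons h, ListBlank.head_cons]

theorem lam_tail {l : List ℕ} (h : l.headD 0 < M.nSym + 1) : (M.lam l).tail = M.lam l.tail := by
  rw [M.lam_eq_cons h, ListBlank.tail_cons]

/-- The simulation relation. -/
def Rel (p : List ℕ × List ℕ) (cfg : M.Cfg) : Prop :=
  ∃ (σ : ℕ) (L : List ℕ), σ < 2 ∧ p.1 = (2 * cfg.1.val + σ) :: L ∧
    cfg.2 = if σ = 0 then Tape.mk' (M.lam L) (M.lam p.2)
      else (Tape.mk' (M.lam L) (M.lam p.2)).move Dir.left

/-- The number of silent steps that may still happen. -/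
def mu (p : List ℕ × List ℕ) : ℕ := if p.1.headD 0 % 2 = 0 then p.2.length else p.1.length

theorem mu_cons (a : ℕ) (L R : List ℕ) :
    mu (a :: L, R) = if a % 2 = 0 then R.length else L.length + 1 := rfl

theorem step_eq (q : M.St) (T : Tape M.Sym) {s : M.Sym} (hs : T.head = s) {q' : M.St} {s' : M.Sym}
    {d : Dir} (hδ : M.δ q s = (q', s', d)) : M.step (q, T) = (q', (T.write s').move d) := by
  simp only [step, hs, hδ]

theorem sim_step {p : List ℕ × List ℕ} {cfg : M.Cfg} (h : M.Rel p cfg) :
    (M.Rel (M.mc.step2 p) cfg ∧ mu (M.mc.step2 p) < mu p) ∨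
      M.Rel (M.mc.step2 p) (M.step cfg) := by
  obtain ⟨X, R⟩ := p
  obtain ⟨q, T⟩ := cfg
  obtain ⟨σ, L, hσ, hX, hT⟩ := h
  simp only at hX hT
  subst hX
  have hdiv : (2 * q.val + σ) / 2 = q.val := by omega
  have hstep : M.mc.step2 ((2 * q.val + σ) :: L, R)
      = ((M.mc.table (2 * q.val + σ, L.headD 0, R.headD 0)).1 ++ L.tail,
         (M.mc.table (2 * q.val + σ, L.headD 0, R.headD 0)).2 ++ R.tail) := rfl
  rw [hstep]
  unfold MC.table
  simp only [hdiv, code_k]
  interval_cases σ
  · -- reading from the right stack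
    rw [if_pos rfl] at hT
    rw [if_pos (by omega)]
    by_cases hj : M.nSym + 1 ≤ R.headD 0
    · left
      rw [if_pos hj]
      refine ⟨⟨0, R.headD 0 :: L.headD 0 :: L.tail, by omega, rfl, ?_⟩, ?_⟩
      · simp only [if_pos, List.nil_append]
        rw [hT, M.lam_junk hj, M.lam_head_tail, M.lam_tail_of_junk hj]
      · have hne : R ≠ [] := by
          rintro rfl
          simp at hj
        show mu ((2 * q.val + 0) :: R.headD 0 :: L.headD 0 :: L.tail, R.tail)
          < mu ((2 * q.val + 0) :: L, R)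
        rw [mu_cons, mu_cons, if_pos (by omega), if_pos (by omega), List.length_tail]
        have := List.length_pos_iff.2 hne
        omega
    · right
      rw [if_neg hj]
      have hs : R.headD 0 < M.nSym + 1 := not_le.1 hj
      have htr := M.code_tr q ⟨R.headD 0, hs⟩
      simp only at htr
      have hhead : T.head = ⟨R.headD 0, hs⟩ := by rw [hT, Tape.mk'_head, M.lam_head hs]
      rcases hδ : M.δ q ⟨R.headD 0, hs⟩ with ⟨q', s', d⟩
      rw [hδ] at htr
      rw [M.step_eq q T hhead hδ]
      simp only [htr, decide_eq_true_eq]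
      cases d
      · rw [if_neg (by simp)]
        refine ⟨1, L.headD 0 :: L.tail, by omega, rfl, ?_⟩
        simp only [List.cons_append, List.nil_append]
        rw [if_neg (by omega), hT, Tape.write_mk', M.lam_real s'.isLt,
          M.lam_junk (M.mc.le_junk _ _), M.lam_head_tail, M.lam_tail hs]
      · rw [if_pos rfl]
        refine ⟨0, s'.val :: M.mc.junk (2 * q.val + 0) (R.headD 0) :: L.headD 0 :: L.tail,
          by omega, rfl, ?_⟩
        simp only [if_pos, List.nil_append]
        rw [hT, Tape.write_mk', Tape.move_right_mk', ListBlank.head_cons, ListBlank.tail_cons,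
          M.lam_real s'.isLt, M.lam_junk (M.mc.le_junk _ _), M.lam_head_tail, M.lam_tail hs]
  · -- reading from the left stack
    rw [if_neg (by omega)] at hT
    rw [if_neg (by omega)]
    by_cases hj : M.nSym + 1 ≤ L.headD 0
    · left
      rw [if_pos hj]
      refine ⟨⟨1, L.tail, by omega, rfl, ?_⟩, ?_⟩
      · simp only [List.cons_append, List.nil_append]
        rw [if_neg (by omega), hT, M.lam_junk hj, M.lam_head_tail, M.lam_tail_of_junk hj]
      · have hne : L ≠ [] := by
          rintro rfl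
          simp at hj
        show mu ((2 * q.val + 1) :: L.tail, L.headD 0 :: R.headD 0 :: R.tail)
          < mu ((2 * q.val + 1) :: L, R)
        rw [mu_cons, mu_cons, if_neg (by omega), if_neg (by omega), List.length_tail]
        have := List.length_pos_iff.2 hne
        omega
    · right
      rw [if_neg hj]
      have hs : L.headD 0 < M.nSym + 1 := not_le.1 hj
      have htr := M.code_tr q ⟨L.headD 0, hs⟩
      simp only at htr
      rw [Tape.move_left_mk', M.lam_head hs, M.lam_tail hs] at hT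
      have hhead : T.head = ⟨L.headD 0, hs⟩ := by rw [hT, Tape.mk'_head, ListBlank.head_cons]
      rcases hδ : M.δ q ⟨L.headD 0, hs⟩ with ⟨q', s', d⟩
      rw [hδ] at htr
      rw [M.step_eq q T hhead hδ]
      simp only [htr, decide_eq_true_eq]
      cases d
      · rw [if_neg (by simp)]
        refine ⟨1, L.tail, by omega, rfl, ?_⟩
        simp only [List.cons_append, List.nil_append]
        rw [if_neg (by omega), hT, Tape.write_mk', ListBlank.tail_cons, M.lam_real s'.isLt,
          M.lam_junk (M.mc.le_junk _ _), M.lam_head_tail]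
      · rw [if_pos rfl]
        refine ⟨0, s'.val :: M.mc.junk (2 * q.val + 1) (L.headD 0) :: L.tail, by omega, rfl, ?_⟩
        simp only [if_pos, List.cons_append, List.nil_append]
        rw [hT, Tape.write_mk', Tape.move_right_mk', ListBlank.head_cons, ListBlank.tail_cons,
          ListBlank.tail_cons, M.lam_real s'.isLt, M.lam_junk (M.mc.le_junk _ _),
          M.lam_head_tail]

theorem er_map (w : List M.Sym) : M.er (w.map fun s : M.Sym => s.val) = w := by
  induction w with
  | nil => rfl
  | cons s w ih =>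
    unfold er at ih ⊢
    rw [List.map_cons, List.filterMap_cons_some (b := s) (by rw [dif_pos s.isLt]), ih]

theorem rel_init (w : List M.Sym) : M.Rel ([0], w.map fun s : M.Sym => s.val) (M.init w) := by
  refine ⟨0, [], by omega, rfl, ?_⟩
  rw [if_pos rfl]
  simp only [lam, er_map]
  rfl

theorem rel_hlt {p : List ℕ × List ℕ} {cfg : M.Cfg} (h : M.Rel p cfg) :
    M.mc.hlt (p.1.headD 0 / 2) = M.halting cfg.1 := by
  obtain ⟨σ, L, hσ, hX, -⟩ := h
  rw [hX, List.headD_cons, show (2 * cfg.1.val + σ) / 2 = cfg.1.val by omega, code_hlt]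

theorem sim_fwd (n : ℕ) : ∀ {p : List ℕ × List ℕ} {cfg : M.Cfg}, M.Rel p cfg →
    ∃ j, M.Rel (M.mc.step2^[n] p) (M.step^[j] cfg) := by
  induction n with
  | zero => intro p cfg h; exact ⟨0, h⟩
  | succ n ih =>
    intro p cfg h
    rw [Function.iterate_succ_apply]
    rcases M.sim_step h with ⟨h1, -⟩ | h1
    · exact ih h1
    · obtain ⟨j, hj⟩ := ih h1
      exact ⟨j + 1, by rwa [Function.iterate_succ_apply]⟩

theorem sim_one : ∀ (k : ℕ) {p : List ℕ × List ℕ} {cfg : M.Cfg}, mu p ≤ k → M.Rel p cfg →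
    ∃ n, M.Rel (M.mc.step2^[n] p) (M.step cfg) := by
  intro k
  induction k with
  | zero =>
    intro p cfg hk h
    rcases M.sim_step h with ⟨-, h2⟩ | h1
    · omega
    · exact ⟨1, h1⟩
  | succ k ih =>
    intro p cfg hk h
    rcases M.sim_step h with ⟨h1, h2⟩ | h1
    · obtain ⟨n, hn⟩ := ih (by omega) h1
      exact ⟨n + 1, by rwa [Function.iterate_succ_apply]⟩
    · exact ⟨1, h1⟩

theorem sim_bwd (j : ℕ) : ∀ {p : List ℕ × List ℕ} {cfg : M.Cfg}, M.Rel p cfg →
    ∃ n, M.Rel (M.mc.step2^[n] p) (M.step^[j] cfg) := by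
  induction j with
  | zero => intro p cfg h; exact ⟨0, h⟩
  | succ j ih =>
    intro p cfg h
    obtain ⟨n1, h1⟩ := M.sim_one (mu p) le_rfl h
    obtain ⟨n2, h2⟩ := ih h1
    refine ⟨n2 + n1, ?_⟩
    rw [Function.iterate_add_apply, Function.iterate_succ_apply]
    exact h2

theorem halts_iff (w : List M.Sym) : M.Halts w ↔
    ∃ n, M.mc.hlt ((M.mc.step2^[n] ([0], w.map fun s : M.Sym => s.val)).1.headD 0 / 2) = true := by
  constructor
  · rintro ⟨j, hj⟩
    obtain ⟨n, hn⟩ := M.sim_bwd j (M.rel_init w)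
    exact ⟨n, by rw [M.rel_hlt hn]; exact hj⟩
  · rintro ⟨n, hn⟩
    obtain ⟨j, hj⟩ := M.sim_fwd n (M.rel_init w)
    exact ⟨j, by rw [← M.rel_hlt hj]; exact hn⟩

theorem init_WF (w : List M.Sym) : M.mc.WF ([0], w.map fun s : M.Sym => s.val) := by
  refine ⟨?_, ?_, ?_⟩
  · apply M.mc.dig_list
    intro d hd
    simp only [List.mem_singleton] at hd
    rw [hd]; exact M.mc.D_pos
  · apply M.mc.dig_list
    intro d hd
    simp only [List.mem_map] at hd
    obtain ⟨s, -, rfl⟩ := hd
    exact lt_of_lt_of_le s.isLt M.mc.k_le_D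
  · simp only [List.headD_cons]
    have := M.mc.m_pos
    omega

end Machine

end Vale.Agent.Lib.P113
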