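import Mathlib

/-!
# P113: forced Navier-Stokes flows from rest on the flat torus, basic definitions

Objects on the flat torus `(ℝ/ℤ)^3` are modelled as `ℤ^3`-periodic objects on `ℝ^3`.
-/

namespace Vale.Agent.Lib.P113

open Set

/-- Points of `ℝ^3`. -/
abbrev R3 : Type := Fin 3 → ℝ

/-- The `j`-th coordinate unit vector. -/
def ee (j : Fin 3) : R3 := Pi.single j 1

/-- `ℤ^3`-periodicity of a function on `ℝ^3` (so that it descends to the torus). -/
def Per {α : Type*} (g : R3 → α) : Prop :=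
  ∀ (x : R3) (k : Fin 3 → ℤ), g (x + fun i => (k i : ℝ)) = g x

/-- Spatial partial derivative in direction `j`. -/
noncomputable def dX {F : Type*} [NormedAddCommGroup F] [NormedSpace ℝ F]
    (j : Fin 3) (g : R3 → F) (x : R3) : F := fderiv ℝ g x (ee j)

/-- `(u, p)` is a classical solution on `[0, T] × 𝕋^3` of the forced incompressible
Navier-Stokes system with viscosity `ν`, force `f` and zero initial velocity. -/
structure ClassicalSol (ν T : ℝ) (f u : ℝ → R3 → R3) (p : ℝ → R3 → ℝ) : Prop where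
  per_u : ∀ t ∈ Icc (0 : ℝ) T, Per (u t)
  per_p : ∀ t ∈ Icc (0 : ℝ) T, Per (p t)
  cont_u : ContinuousOn (fun z : ℝ × R3 => u z.1 z.2) (Icc (0 : ℝ) T ×ˢ univ)
  diff_t : ∀ t ∈ Icc (0 : ℝ) T, ∀ x, DifferentiableWithinAt ℝ (fun s => u s x) (Icc (0 : ℝ) T) t
  cont_ut : ContinuousOn
    (fun z : ℝ × R3 => derivWithin (fun s => u s z.2) (Icc (0 : ℝ) T) z.1) (Icc (0 : ℝ) T ×ˢ univ)
  smooth_u : ∀ t ∈ Icc (0 : ℝ) T, ContDiff ℝ 2 (u t)
  cont_du : ContinuousOn (fun z : ℝ × R3 => fderiv ℝ (u z.1) z.2) (Icc (0 : ℝ) T ×ˢ univ)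
  cont_ddu : ContinuousOn
    (fun z : ℝ × R3 => fderiv ℝ (fderiv ℝ (u z.1)) z.2) (Icc (0 : ℝ) T ×ˢ univ)
  cont_p : ContinuousOn (fun z : ℝ × R3 => p z.1 z.2) (Icc (0 : ℝ) T ×ˢ univ)
  smooth_p : ∀ t ∈ Icc (0 : ℝ) T, ContDiff ℝ 1 (p t)
  cont_dp : ContinuousOn (fun z : ℝ × R3 => fderiv ℝ (p z.1) z.2) (Icc (0 : ℝ) T ×ˢ univ)
  momentum : ∀ t ∈ Icc (0 : ℝ) T, ∀ x i,
    derivWithin (fun s => u s x) (Icc (0 : ℝ) T) t i + ∑ j, u t x j * dX j (u t) x i
      = - dX i (p t) x + ν * ∑ j, dX j (dX j (u t)) x i + f t x i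
  div_free : ∀ t ∈ Icc (0 : ℝ) T, ∀ x, ∑ j, dX j (u t) x j = 0
  init : ∀ x, u 0 x = 0
  mean_p : ∀ t ∈ Icc (0 : ℝ) T, ∫ x in Icc (0 : R3) 1, p t x = 0

/-- A global smooth solution: jointly smooth, and a classical solution on every `[0, T]`. -/
structure GlobalSmoothSol (ν : ℝ) (f u : ℝ → R3 → R3) (p : ℝ → R3 → ℝ) : Prop where
  smooth_u : ContDiff ℝ (⊤ : ℕ∞) (fun z : ℝ × R3 => u z.1 z.2)
  smooth_p : ContDiff ℝ (⊤ : ℕ∞) (fun z : ℝ × R3 => p z.1 z.2)
  classical : ∀ T : ℝ, 0 < T → ClassicalSol ν T f u p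

/-- `(u, p)` is the only classical solution on each `[0, T]`. -/
def UniqueClassical (ν : ℝ) (f u : ℝ → R3 → R3) (p : ℝ → R3 → ℝ) : Prop :=
  ∀ T : ℝ, 0 < T → ∀ (v : ℝ → R3 → R3) (π : ℝ → R3 → ℝ), ClassicalSol ν T f v π →
    ∀ t ∈ Icc (0 : ℝ) T, v t = u t ∧ π t = p t

/-- `X` is the particle trajectory of the velocity field `u` starting from `a`
(lifted from the torus to `ℝ^3`). -/
def IsTrajectory (u : ℝ → R3 → R3) (a : R3) (X : ℝ → R3) : Prop :=
  X 0 = a ∧ ∀ t : ℝ, 0 ≤ t → HasDerivWithinAt X (u t (X t)) (Ici 0) t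

/-- A deterministic one-tape Turing machine: alphabet `Fin (nSym+1)` with blank `0`,
states `Fin (nSt+1)` with start state `0`, a set of halting states, and a transition table
(new state, written symbol, head move). -/
structure Machine where
  nSym : ℕ
  nSt : ℕ
  halting : Fin (nSt + 1) → Bool
  δ : Fin (nSt + 1) → Fin (nSym + 1) → Fin (nSt + 1) × Fin (nSym + 1) × Turing.Dir

namespace Machine

/-- Tape symbols. -/
abbrev Sym (M : Machine) : Type := Fin (M.nSym + 1)

/-- Control states. -/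
abbrev St (M : Machine) : Type := Fin (M.nSt + 1)

/-- Configurations: a state and a two-sided tape with a head (Mathlib's `Turing.Tape`). -/
abbrev Cfg (M : Machine) : Type := M.St × Turing.Tape M.Sym

/-- One step of the machine. -/
def step (M : Machine) (c : M.Cfg) : M.Cfg :=
  ((M.δ c.1 c.2.head).1, (c.2.write (M.δ c.1 c.2.head).2.1).move (M.δ c.1 c.2.head).2.2)

/-- The initial configuration on input `w`: head on the first cell of `w`, rest blank. -/
def init (M : Machine) (w : List M.Sym) : M.Cfg := (0, Turing.Tape.mk₁ w)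

/-- `M` halts on `w`: a halting state is reached after finitely many steps, possibly none. -/
def Halts (M : Machine) (w : List M.Sym) : Prop :=
  ∃ n : ℕ, M.halting ((M.step^[n] (M.init w)).1) = true

/-- The description of a machine as plain finite data. -/
def code (M : Machine) : ℕ × ℕ × List Bool × List (List (ℕ × ℕ × Bool)) :=
  (M.nSym, M.nSt, List.ofFn M.halting,
    List.ofFn fun q => List.ofFn fun s =>
      (((M.δ q s).1 : ℕ), ((M.δ q s).2.1 : ℕ), decide ((M.δ q s).2.2 = Turing.Dir.right)))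

end Machine

/-- Codes of rational numbers: `(a, b, c)` stands for `(a - b) / (c + 1)`. -/
abbrev QCode : Type := ℕ × ℕ × ℕ

/-- The rational number (as a real) denoted by a code. -/
noncomputable def qval (a : QCode) : ℝ := ((a.1 : ℝ) - (a.2.1 : ℝ)) / ((a.2.2 : ℝ) + 1)

/-- A real number is computable: a computable sequence of rationals converges to it with
the explicit rate `1/(k+1)`. -/
def ComputableReal (r : ℝ) : Prop :=
  ∃ g : ℕ → QCode, Computable g ∧ ∀ k : ℕ, |qval (g k) - r| ≤ 1 / ((k : ℝ) + 1)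

/-- Time derivative of a scalar function on space-time. -/
noncomputable def dT (g : ℝ → R3 → ℝ) : ℝ → R3 → ℝ := fun t x => deriv (fun s => g s x) t

/-- Spatial partial derivative of a scalar function on space-time. -/
noncomputable def dS (j : Fin 3) (g : ℝ → R3 → ℝ) : ℝ → R3 → ℝ := fun t x => dX j (g t) x

/-- Mixed partial derivatives: `none` is the time direction, `some j` the `j`-th space direction. -/
noncomputable def mixedDeriv : List (Option (Fin 3)) → (ℝ → R3 → ℝ) → ℝ → R3 → ℝ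
  | [], g => g
  | none :: l, g => dT (mixedDeriv l g)
  | some j :: l, g => dS j (mixedDeriv l g)

/-- A query to a program for a force: component, mixed derivative, rational time `a/(c+1) ≥ 0`,
rational point of space, and accuracy parameter `k` (accuracy `1/(k+1)`). -/
abbrev Query : Type :=
  Fin 3 × List (Option (Fin 3)) × (ℕ × ℕ) × (QCode × QCode × QCode) × ℕ

/-- The program `c` returns each mixed derivative of `f` at rational points to any prescribed
accuracy. -/
def IsProgramFor (c : Nat.Partrec.Code) (f : ℝ → R3 → R3) : Prop :=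
  ∀ Q : Query, ∃ r : QCode, c.eval (Encodable.encode Q) = Part.some (Encodable.encode r) ∧
    |qval r - mixedDeriv Q.2.1 (fun t x => f t x Q.1) ((Q.2.2.1.1 : ℝ) / ((Q.2.2.1.2 : ℝ) + 1))
      ![qval Q.2.2.2.1.1, qval Q.2.2.2.1.2.1, qval Q.2.2.2.1.2.2]| ≤ 1 / ((Q.2.2.2.2 : ℝ) + 1)

/-- A smooth force on `[0,∞) × 𝕋^3` (restriction of a smooth periodic function on `ℝ × ℝ^3`). -/
def SmoothForce (f : ℝ → R3 → R3) : Prop :=
  ContDiff ℝ (⊤ : ℕ∞) (fun z : ℝ × R3 => f z.1 z.2) ∧ ∀ t, Per (f t)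

/-- Inputs of a compiler: the description of a machine and the input word. -/
abbrev CompilerInput : Type := (ℕ × ℕ × List Bool × List (List (ℕ × ℕ × Bool))) × List ℕ

/-- `comp` is a force compiler for the family `F` with switching time `T0`: it is an algorithm,
outputs a program for the smooth force `F M w`, and for `t ≥ T0` the force is periodic in time
and depends on `M` only. -/
structure IsForceCompiler (comp : CompilerInput → Nat.Partrec.Code)
    (F : (M : Machine) → List M.Sym → ℝ → R3 → R3) (T0 : ℝ) : Prop where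
  computable : Computable comp
  smooth : ∀ M w, SmoothForce (F M w)
  program : ∀ M w, IsProgramFor (comp (M.code, w.map (fun s : M.Sym => s.val))) (F M w)
  periodic : ∀ M, ∃ P : ℝ, 0 < P ∧ ∀ w, ∀ t, T0 ≤ t → F M w (t + P) = F M w t
  machine_only : ∀ M w w', ∀ t, T0 ≤ t → F M w t = F M w' t

/-- The statement of question Q1 for the viscosity `ν`. -/
def HaltingDetection (ν : ℝ) : Prop :=
  ∃ (a : R3) (O : Set R3) (comp : CompilerInput → Nat.Partrec.Code)
    (F : (M : Machine) → List M.Sym → ℝ → R3 → R3) (T0 : ℝ),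
    IsOpen O ∧ (∀ (x : R3) (k : Fin 3 → ℤ), (x + fun i => (k i : ℝ)) ∈ O ↔ x ∈ O) ∧
    IsForceCompiler comp F T0 ∧
    ∀ (M : Machine) (w : List M.Sym), ∃ (u : ℝ → R3 → R3) (p : ℝ → R3 → ℝ) (X : ℝ → R3),
      GlobalSmoothSol ν (F M w) u p ∧ UniqueClassical ν (F M w) u p ∧
      IsTrajectory u a X ∧ (∀ X', IsTrajectory u a X' → ∀ t, 0 ≤ t → X' t = X t) ∧
      ((∃ t, 0 ≤ t ∧ X t ∈ O) ↔ M.Halts w)

end Vale.Agent.Lib.P113
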