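import Mathlib
import Vale.Agent.Lib.P113.Defs

/-!
# Computable functions: automation by `fun_prop`, and exact arithmetic on codes of rationals
-/

namespace Vale.Agent.Lib.P113

attribute [fun_prop] Computable

section cp

variable {α β γ σ : Type*} [Primcodable α] [Primcodable β] [Primcodable γ] [Primcodable σ]

@[fun_prop] theorem cp_id : Computable (fun x : α => x) := Computable.id

@[fun_prop] theorem cp_const (b : β) : Computable (fun _ : α => b) := Computable.const b

@[fun_prop] theorem cp_comp {f : β → γ} {g : α → β} (hf : Computable f) (hg : Computable g) :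
    Computable (fun x => f (g x)) := hf.comp hg

@[fun_prop] theorem cp_pair {f : α → β} {g : α → γ} (hf : Computable f) (hg : Computable g) :
    Computable (fun x => (f x, g x)) := hf.pair hg

@[fun_prop] theorem cp_fst {f : α → β × γ} (hf : Computable f) : Computable (fun x => (f x).1) :=
  Computable.fst.comp hf

@[fun_prop] theorem cp_snd {f : α → β × γ} (hf : Computable f) : Computable (fun x => (f x).2) :=
  Computable.snd.comp hf

@[fun_prop] theorem cp_add {f g : α → ℕ} (hf : Computable f) (hg : Computable g) :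
    Computable (fun x => f x + g x) := Primrec.nat_add.to_comp.comp hf hg

@[fun_prop] theorem cp_mul {f g : α → ℕ} (hf : Computable f) (hg : Computable g) :
    Computable (fun x => f x * g x) := Primrec.nat_mul.to_comp.comp hf hg

@[fun_prop] theorem cp_sub {f g : α → ℕ} (hf : Computable f) (hg : Computable g) :
    Computable (fun x => f x - g x) := Primrec.nat_sub.to_comp.comp hf hg

@[fun_prop] theorem cp_div {f g : α → ℕ} (hf : Computable f) (hg : Computable g) :
    Computable (fun x => f x / g x) := Primrec.nat_div.to_comp.comp hf hg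

@[fun_prop] theorem cp_mod {f g : α → ℕ} (hf : Computable f) (hg : Computable g) :
    Computable (fun x => f x % g x) := Primrec.nat_mod.to_comp.comp hf hg

@[fun_prop] theorem cp_succ {f : α → ℕ} (hf : Computable f) : Computable (fun x => Nat.succ (f x)) :=
  Computable.succ.comp hf

@[fun_prop] theorem cp_le {f g : α → ℕ} (hf : Computable f) (hg : Computable g) :
    Computable (fun x => decide (f x ≤ g x)) := Primrec.nat_le.decide.to_comp.comp hf hg

@[fun_prop] theorem cp_lt {f g : α → ℕ} (hf : Computable f) (hg : Computable g) :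
    Computable (fun x => decide (f x < g x)) := Primrec.nat_lt.decide.to_comp.comp hf hg

@[fun_prop] theorem cp_eq [DecidableEq β] {f g : α → β} (hf : Computable f) (hg : Computable g) :
    Computable (fun x => decide (f x = g x)) := Primrec.eq.decide.to_comp.comp hf hg

@[fun_prop] theorem cp_not {f : α → Bool} (hf : Computable f) : Computable (fun x => !(f x)) :=
  Primrec.not.to_comp.comp hf

@[fun_prop] theorem cp_and {f g : α → Bool} (hf : Computable f) (hg : Computable g) :
    Computable (fun x => (f x && g x)) := Primrec.and.to_comp.comp hf hg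

@[fun_prop] theorem cp_or {f g : α → Bool} (hf : Computable f) (hg : Computable g) :
    Computable (fun x => (f x || g x)) := Primrec.or.to_comp.comp hf hg

@[fun_prop] theorem cp_cond {c : α → Bool} {f g : α → σ} (hc : Computable c) (hf : Computable f)
    (hg : Computable g) : Computable (fun x => cond (c x) (f x) (g x)) := Computable.cond hc hf hg

theorem cp_ite {c : α → Prop} [DecidablePred c] {f g : α → σ}
    (hc : Computable fun x => decide (c x)) (hf : Computable f) (hg : Computable g) :
    Computable (fun x => if c x then f x else g x) :=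
  (Computable.cond hc hf hg).of_eq fun x => by by_cases h : c x <;> simp [h]

theorem cp_bite {c : α → Bool} {f g : α → σ}
    (hc : Computable c) (hf : Computable f) (hg : Computable g) :
    Computable (fun x => if c x = true then f x else g x) :=
  (Computable.cond hc hf hg).of_eq fun x => by cases h : c x <;> simp

/-- primitive recursion, in uncurried form -/
theorem cp_nat_rec {f : α → ℕ} {g : α → σ} {h : α → ℕ → σ → σ} (hf : Computable f)
    (hg : Computable g) (hh : Computable fun p : α × ℕ × σ => h p.1 p.2.1 p.2.2) :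
    Computable (fun a => Nat.rec (motive := fun _ => σ) (g a) (h a) (f a)) :=
  Computable.nat_rec (h := fun a p => h a p.1 p.2) hf hg (Computable₂.mk hh)

@[fun_prop] theorem cp_pow {f g : α → ℕ} (hf : Computable f) (hg : Computable g) :
    Computable (fun x => f x ^ g x) :=
  (Primrec₂.unpaired'.1 Nat.Primrec.pow).to_comp.comp hf hg

@[fun_prop] theorem cp_factorial {f : α → ℕ} (hf : Computable f) :
    Computable (fun x => Nat.factorial (f x)) := by
  have : Computable (fun a : α => Nat.rec (motive := fun _ => ℕ) 1 (fun n r => (n + 1) * r) (f a)) :=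
    cp_nat_rec hf (by fun_prop) (by fun_prop)
  refine this.of_eq fun a => ?_
  induction f a with
  | zero => rfl
  | succ n ih => simp only [Nat.factorial_succ]; rw [← ih]

@[fun_prop] theorem cp_list_length {f : α → List β} (hf : Computable f) :
    Computable (fun x => (f x).length) := Computable.list_length.comp hf

@[fun_prop] theorem cp_list_cons {f : α → β} {g : α → List β} (hf : Computable f)
    (hg : Computable g) : Computable (fun x => f x :: g x) := Computable.list_cons.comp hf hg

@[fun_prop] theorem cp_list_append {f g : α → List β} (hf : Computable f)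
    (hg : Computable g) : Computable (fun x => f x ++ g x) := Computable.list_append.comp hf hg

@[fun_prop] theorem cp_list_tail {f : α → List β} (hf : Computable f) :
    Computable (fun x => (f x).tail) := Primrec.list_tail.to_comp.comp hf

@[fun_prop] theorem cp_list_getD {f : α → List β} {g : α → ℕ} (d : β) (hf : Computable f)
    (hg : Computable g) : Computable (fun x => (f x).getD (g x) d) :=
  (Primrec.list_getD d).to_comp.comp hf hg

@[fun_prop] theorem cp_list_headD {f : α → List β} (d : β) (hf : Computable f) :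
    Computable (fun x => (f x).headD d) :=
  (cp_list_getD d hf (cp_const 0)).of_eq fun x => by cases f x <;> simp

@[fun_prop] theorem cp_list_drop {f : α → ℕ} {g : α → List β} (hf : Computable f)
    (hg : Computable g) : Computable (fun x => (g x).drop (f x)) :=
  Primrec.list_drop.to_comp.comp hf hg

@[fun_prop] theorem cp_fin_val {n : ℕ} {f : α → Fin n} (hf : Computable f) :
    Computable (fun x => ((f x : Fin n) : ℕ)) := Primrec.fin_val.to_comp.comp hf

end cp

/-! ### Exact arithmetic on codes of rational numbers -/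

section q

variable {α : Type*} [Primcodable α]

theorem den_cast (a b : ℕ) : (((a + 1) * (b + 1) - 1 : ℕ) : ℝ) + 1 = ((a : ℝ) + 1) * ((b : ℝ) + 1) := by
  have h : 1 ≤ (a + 1) * (b + 1) := Nat.succ_le_of_lt (Nat.mul_pos (Nat.succ_pos _) (Nat.succ_pos _))
  push_cast [Nat.cast_sub h]
  ring

/-- sum -/
def qadd (a b : QCode) : QCode :=
  (a.1 * (b.2.2 + 1) + b.1 * (a.2.2 + 1), a.2.1 * (b.2.2 + 1) + b.2.1 * (a.2.2 + 1),
    (a.2.2 + 1) * (b.2.2 + 1) - 1)

theorem qval_qadd (a b : QCode) : qval (qadd a b) = qval a + qval b := by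
  obtain ⟨a1, a2, a3⟩ := a
  obtain ⟨b1, b2, b3⟩ := b
  simp only [qval, qadd]
  rw [den_cast]
  push_cast
  field_simp
  ring

@[fun_prop] theorem cp_qadd {f g : α → QCode} (hf : Computable f) (hg : Computable g) :
    Computable (fun x => qadd (f x) (g x)) := by
  unfold qadd
  fun_prop

/-- opposite -/
def qneg (a : QCode) : QCode := (a.2.1, a.1, a.2.2)

theorem qval_qneg (a : QCode) : qval (qneg a) = - qval a := by
  simp only [qval, qneg]
  ring

@[fun_prop] theorem cp_qneg {f : α → QCode} (hf : Computable f) :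
    Computable (fun x => qneg (f x)) := by
  unfold qneg
  fun_prop

/-- difference -/
def qsub (a b : QCode) : QCode := qadd a (qneg b)

theorem qval_qsub (a b : QCode) : qval (qsub a b) = qval a - qval b := by
  rw [qsub, qval_qadd, qval_qneg]
  ring

@[fun_prop] theorem cp_qsub {f g : α → QCode} (hf : Computable f) (hg : Computable g) :
    Computable (fun x => qsub (f x) (g x)) := by
  unfold qsub
  fun_prop

/-- product -/
def qmul (a b : QCode) : QCode :=
  (a.1 * b.1 + a.2.1 * b.2.1, a.1 * b.2.1 + a.2.1 * b.1, (a.2.2 + 1) * (b.2.2 + 1) - 1)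

theorem qval_qmul (a b : QCode) : qval (qmul a b) = qval a * qval b := by
  obtain ⟨a1, a2, a3⟩ := a
  obtain ⟨b1, b2, b3⟩ := b
  simp only [qval, qmul]
  rw [den_cast]
  push_cast
  field_simp
  ring

@[fun_prop] theorem cp_qmul {f g : α → QCode} (hf : Computable f) (hg : Computable g) :
    Computable (fun x => qmul (f x) (g x)) := by
  unfold qmul
  fun_prop

/-- natural numbers -/
def qofNat (n : ℕ) : QCode := (n, 0, 0)

theorem qval_qofNat (n : ℕ) : qval (qofNat n) = n := by
  simp [qval, qofNat]

@[fun_prop] theorem cp_qofNat {f : α → ℕ} (hf : Computable f) :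
    Computable (fun x => qofNat (f x)) := by
  unfold qofNat
  fun_prop

/-- powers -/
def qpow (a : QCode) (n : ℕ) : QCode :=
  Nat.rec (motive := fun _ => QCode) (qofNat 1) (fun _ r => qmul r a) n

theorem qval_qpow (a : QCode) (n : ℕ) : qval (qpow a n) = qval a ^ n := by
  induction n with
  | zero => simp [qpow, qval_qofNat]
  | succ n ih =>
    have : qpow a (n + 1) = qmul (qpow a n) a := rfl
    rw [this, qval_qmul, ih, pow_succ]

@[fun_prop] theorem cp_qpow {f : α → QCode} {g : α → ℕ} (hf : Computable f) (hg : Computable g) :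
    Computable (fun x => qpow (f x) (g x)) := by
  unfold qpow
  exact cp_nat_rec (h := fun x _ r => qmul r (f x)) hg (by fun_prop) (by fun_prop)

/-- absolute value -/
def qabs (a : QCode) : QCode := ((a.1 - a.2.1) + (a.2.1 - a.1), 0, a.2.2)

theorem qval_qabs (a : QCode) : qval (qabs a) = |qval a| := by
  obtain ⟨a1, a2, a3⟩ := a
  simp only [qval, qabs]
  have h3 : (0 : ℝ) < (a3 : ℝ) + 1 := by positivity
  rw [abs_div, abs_of_pos h3]
  congr 1
  rcases le_total a1 a2 with h | h
  · have h' : (a1 : ℝ) ≤ a2 := by exact_mod_cast h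
    rw [Nat.sub_eq_zero_of_le h, abs_of_nonpos (by linarith)]
    push_cast [Nat.cast_sub h]
    ring
  · have h' : (a2 : ℝ) ≤ a1 := by exact_mod_cast h
    rw [Nat.sub_eq_zero_of_le h, abs_of_nonneg (by linarith)]
    push_cast [Nat.cast_sub h]
    ring

@[fun_prop] theorem cp_qabs {f : α → QCode} (hf : Computable f) :
    Computable (fun x => qabs (f x)) := by
  unfold qabs
  fun_prop

/-- inverse (of zero: zero) -/
def qinv (a : QCode) : QCode :=
  cond (decide (a.2.1 < a.1)) (a.2.2 + 1, 0, a.1 - a.2.1 - 1)
    (cond (decide (a.1 < a.2.1)) (0, a.2.2 + 1, a.2.1 - a.1 - 1) (0, 0, 0))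

theorem qval_qinv (a : QCode) : qval (qinv a) = (qval a)⁻¹ := by
  obtain ⟨a1, a2, a3⟩ := a
  simp only [qval, qinv]
  rcases lt_trichotomy a1 a2 with h | h | h
  · have h1 : ¬ a2 < a1 := by omega
    have h2 : 1 ≤ a2 - a1 := by omega
    have h' : (a1 : ℝ) < a2 := by exact_mod_cast h
    simp only [h1, h, decide_false, decide_true, cond_false, cond_true]
    push_cast [Nat.cast_sub h2, Nat.cast_sub h.le]
    have e1 : (a1 : ℝ) - a2 ≠ 0 := by linarith
    have e2 : (a2 : ℝ) - a1 ≠ 0 := by linarith
    rw [inv_div, show ((a2 : ℝ) - a1 - 1 + 1) = a2 - a1 by ring, div_eq_div_iff e2 e1]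
    ring
  · subst h
    simp
  · have h2 : 1 ≤ a1 - a2 := by omega
    have h' : (a2 : ℝ) < a1 := by exact_mod_cast h
    simp only [h, decide_true, cond_true]
    push_cast [Nat.cast_sub h2, Nat.cast_sub h.le]
    rw [inv_div, show ((a1 : ℝ) - a2 - 1 + 1) = a1 - a2 by ring]
    ring

@[fun_prop] theorem cp_qinv {f : α → QCode} (hf : Computable f) :
    Computable (fun x => qinv (f x)) := by
  unfold qinv
  fun_prop

/-- quotient -/
def qdiv (a b : QCode) : QCode := qmul a (qinv b)

theorem qval_qdiv (a b : QCode) : qval (qdiv a b) = qval a / qval b := by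
  rw [qdiv, qval_qmul, qval_qinv, div_eq_mul_inv]

@[fun_prop] theorem cp_qdiv {f g : α → QCode} (hf : Computable f) (hg : Computable g) :
    Computable (fun x => qdiv (f x) (g x)) := by
  unfold qdiv
  fun_prop

/-- comparison -/
def qle (a b : QCode) : Bool :=
  decide (a.1 * (b.2.2 + 1) + b.2.1 * (a.2.2 + 1) ≤ b.1 * (a.2.2 + 1) + a.2.1 * (b.2.2 + 1))

theorem qle_iff (a b : QCode) : qle a b = true ↔ qval a ≤ qval b := by
  obtain ⟨a1, a2, a3⟩ := a
  obtain ⟨b1, b2, b3⟩ := b
  simp only [qval, qle, decide_eq_true_eq]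
  have h3 : (0 : ℝ) < (a3 : ℝ) + 1 := by positivity
  have h4 : (0 : ℝ) < (b3 : ℝ) + 1 := by positivity
  rw [div_le_div_iff₀ h3 h4]
  constructor
  · intro h
    have : ((a1 * (b3 + 1) + b2 * (a3 + 1) : ℕ) : ℝ) ≤ ((b1 * (a3 + 1) + a2 * (b3 + 1) : ℕ) : ℝ) := by
      exact_mod_cast h
    push_cast at this
    linarith
  · intro h
    have : ((a1 * (b3 + 1) + b2 * (a3 + 1) : ℕ) : ℝ) ≤ ((b1 * (a3 + 1) + a2 * (b3 + 1) : ℕ) : ℝ) := by
      push_cast
      linarith
    exact_mod_cast this

@[fun_prop] theorem cp_qle {f g : α → QCode} (hf : Computable f) (hg : Computable g) :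
    Computable (fun x => qle (f x) (g x)) := by
  unfold qle
  fun_prop

/-- strict comparison -/
def qlt (a b : QCode) : Bool := !(qle b a)

theorem qlt_iff (a b : QCode) : qlt a b = true ↔ qval a < qval b := by
  rw [qlt, Bool.not_eq_true', ← not_le, ← qle_iff]
  simp

@[fun_prop] theorem cp_qlt {f g : α → QCode} (hf : Computable f) (hg : Computable g) :
    Computable (fun x => qlt (f x) (g x)) := by
  unfold qlt
  fun_prop

/-- a natural number bounding the absolute value -/
def qbd (a : QCode) : ℕ := a.1 + a.2.1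

theorem abs_qval_le (a : QCode) : |qval a| ≤ qbd a := by
  obtain ⟨a1, a2, a3⟩ := a
  simp only [qval, qbd]
  have h3 : (0 : ℝ) < (a3 : ℝ) + 1 := by positivity
  rw [abs_div, abs_of_pos h3, div_le_iff₀ h3]
  have h1 : |(a1 : ℝ) - a2| ≤ (a1 : ℝ) + a2 := by
    rw [abs_le]
    constructor <;> linarith [Nat.cast_nonneg (α := ℝ) a1, Nat.cast_nonneg (α := ℝ) a2]
  push_cast
  nlinarith [Nat.cast_nonneg (α := ℝ) a1, Nat.cast_nonneg (α := ℝ) a2, Nat.cast_nonneg (α := ℝ) a3]

@[fun_prop] theorem cp_qbd {f : α → QCode} (hf : Computable f) :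
    Computable (fun x => qbd (f x)) := by
  unfold qbd
  fun_prop

/-- the nearest integer -/
def qround (a : QCode) : QCode :=
  cond (decide (2 * a.2.1 ≤ 2 * a.1 + (a.2.2 + 1)))
    ((2 * a.1 + (a.2.2 + 1) - 2 * a.2.1) / (2 * (a.2.2 + 1)), 0, 0)
    (0, (2 * a.2.1 - (2 * a.1 + (a.2.2 + 1)) + (2 * (a.2.2 + 1) - 1)) / (2 * (a.2.2 + 1)), 0)

theorem round_of {x : ℝ} {z : ℤ} (h1 : (z : ℝ) ≤ x + 1 / 2) (h2 : x + 1 / 2 < z + 1) :
    round x = z := by
  rw [round_eq, Int.floor_eq_iff]
  exact ⟨h1, h2⟩

theorem qval_qround (a : QCode) : qval (qround a) = (round (qval a) : ℝ) := by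
  obtain ⟨p, n, c⟩ := a
  simp only [qval, qround]
  have hd : (0 : ℝ) < (c : ℝ) + 1 := by positivity
  by_cases h : 2 * n ≤ 2 * p + (c + 1)
  · simp only [h, decide_true, cond_true]
    have e1 := Nat.div_add_mod (2 * p + (c + 1) - 2 * n) (2 * (c + 1))
    have e2 := Nat.mod_lt (2 * p + (c + 1) - 2 * n) (show 0 < 2 * (c + 1) by omega)
    set k := (2 * p + (c + 1) - 2 * n) / (2 * (c + 1))
    set r := (2 * p + (c + 1) - 2 * n) % (2 * (c + 1))
    have e3 : 2 * (c + 1) * k + r + 2 * n = 2 * p + (c + 1) := by omega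
    have e3' : 2 * ((c : ℝ) + 1) * k + r + 2 * n = 2 * p + (c + 1) := by exact_mod_cast e3
    have e2' : (r : ℝ) < 2 * ((c : ℝ) + 1) := by exact_mod_cast e2
    have hr0 : (0 : ℝ) ≤ r := Nat.cast_nonneg _
    have : round (((p : ℝ) - n) / ((c : ℝ) + 1)) = (k : ℤ) := by
      apply round_of
      · rw [← sub_le_iff_le_add, le_div_iff₀ hd]
        push_cast
        nlinarith
      · rw [← lt_sub_iff_add_lt, div_lt_iff₀ hd]
        push_cast
        nlinarith
    rw [this]
    simp
  · simp only [h, decide_false, cond_false]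
    have e1 := Nat.div_add_mod (2 * n - (2 * p + (c + 1)) + (2 * (c + 1) - 1)) (2 * (c + 1))
    have e2 := Nat.mod_lt (2 * n - (2 * p + (c + 1)) + (2 * (c + 1) - 1))
      (show 0 < 2 * (c + 1) by omega)
    set k := (2 * n - (2 * p + (c + 1)) + (2 * (c + 1) - 1)) / (2 * (c + 1))
    set r := (2 * n - (2 * p + (c + 1)) + (2 * (c + 1) - 1)) % (2 * (c + 1))
    have e3 : 2 * (c + 1) * k + r + (2 * p + (c + 1)) + 1 = 2 * n + 2 * (c + 1) := by omega
    have e3' : 2 * ((c : ℝ) + 1) * k + r + (2 * p + (c + 1)) + 1 = 2 * n + 2 * (c + 1) := by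
      exact_mod_cast e3
    have e2' : (r : ℝ) + 1 ≤ 2 * ((c : ℝ) + 1) := by exact_mod_cast e2
    have hr0 : (0 : ℝ) ≤ r := Nat.cast_nonneg _
    have : round (((p : ℝ) - n) / ((c : ℝ) + 1)) = -(k : ℤ) := by
      apply round_of
      · rw [← sub_le_iff_le_add, le_div_iff₀ hd]
        push_cast
        nlinarith
      · rw [← lt_sub_iff_add_lt, div_lt_iff₀ hd]
        push_cast
        nlinarith
    rw [this]
    simp

@[fun_prop] theorem cp_qround {f : α → QCode} (hf : Computable f) :
    Computable (fun x => qround (f x)) := by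
  unfold qround
  fun_prop

/-- reduction modulo one to `[-1/2, 1/2)` -/
def qred (a : QCode) : QCode := qsub a (qround a)

theorem qval_qred (a : QCode) : qval (qred a) = qval a - round (qval a) := by
  rw [qred, qval_qsub, qval_qround]

@[fun_prop] theorem cp_qred {f : α → QCode} (hf : Computable f) :
    Computable (fun x => qred (f x)) := by
  unfold qred
  fun_prop

end q

end Vale.Agent.Lib.P113
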