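import Mathlib
import Vale.Agent.Lib.P113.Defs
import Vale.Agent.Lib.P113.CompPrim

/-!
# Uniformly computable real-valued families
-/

namespace Vale.Agent.Lib.P113

open Finset

/-- `F` is a computable family of real numbers: a computable function returns, for each index `x`
and each `k`, the code of a rational number within `1/(k+1)` of `F x`. -/
def CompFun {α : Type*} [Primcodable α] (F : α → ℝ) : Prop :=
  ∃ A : α → ℕ → QCode, Computable₂ A ∧ ∀ x k, |qval (A x k) - F x| ≤ 1 / ((k : ℝ) + 1)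

namespace CompFun

variable {α β : Type*} [Primcodable α] [Primcodable β] {F G : α → ℝ}

theorem congr (hF : CompFun F) (h : ∀ x, F x = G x) : CompFun G := by
  have : F = G := funext h
  rwa [← this]

theorem of_qval {f : α → QCode} (hf : Computable f) : CompFun (fun x => qval (f x)) :=
  ⟨fun x _ => f x, Computable₂.mk (by fun_prop), fun x k => by
    simp only [sub_self, abs_zero]; positivity⟩

theorem of_nat {f : α → ℕ} (hf : Computable f) : CompFun (fun x => (f x : ℝ)) :=
  (of_qval (f := fun x => qofNat (f x)) (by fun_prop)).congr fun x => qval_qofNat _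

theorem const_q (q : QCode) : CompFun (fun _ : α => qval q) := of_qval (by fun_prop)

theorem zero : CompFun (fun _ : α => (0 : ℝ)) :=
  (of_nat (f := fun _ => 0) (by fun_prop)).congr fun _ => by simp

theorem one : CompFun (fun _ : α => (1 : ℝ)) :=
  (of_nat (f := fun _ => 1) (by fun_prop)).congr fun _ => by simp

theorem const {r : ℝ} (hr : ComputableReal r) : CompFun (fun _ : α => r) := by
  obtain ⟨g, hg, h⟩ := hr
  exact ⟨fun _ k => g k, Computable₂.mk (by fun_prop), fun _ k => h k⟩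

theorem computableReal {r : ℝ} (h : CompFun (fun _ : Unit => r)) : ComputableReal r := by
  obtain ⟨A, hA, h⟩ := h
  have hA' : Computable (fun p : Unit × ℕ => A p.1 p.2) := hA
  exact ⟨fun k => A () k, hA'.comp (f := fun p : Unit × ℕ => A p.1 p.2)
    (g := fun k : ℕ => (((), k) : Unit × ℕ)) (by fun_prop), fun k => h () k⟩

theorem comp {F : β → ℝ} (hF : CompFun F) {g : α → β} (hg : Computable g) :
    CompFun (fun x => F (g x)) := by
  obtain ⟨A, hA, h⟩ := hF
  have hA' : Computable (fun p : β × ℕ => A p.1 p.2) := hA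
  refine ⟨fun x k => A (g x) k, Computable₂.mk ?_, fun x k => h (g x) k⟩
  exact hA'.comp (g := fun p : α × ℕ => (g p.1, p.2)) (by fun_prop)

theorem neg (hF : CompFun F) : CompFun (fun x => - F x) := by
  obtain ⟨A, hA, h⟩ := hF
  have hA' : Computable (fun p : α × ℕ => A p.1 p.2) := hA
  refine ⟨fun x k => qneg (A x k), Computable₂.mk (by fun_prop), fun x k => ?_⟩
  rw [qval_qneg, show -qval (A x k) - -F x = -(qval (A x k) - F x) by ring, abs_neg]
  exact h x k

theorem half_add (k : ℕ) : 1 / (((2 * k + 1 : ℕ) : ℝ) + 1) + 1 / (((2 * k + 1 : ℕ) : ℝ) + 1)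
    = 1 / ((k : ℝ) + 1) := by
  push_cast
  field_simp
  ring

theorem add (hF : CompFun F) (hG : CompFun G) : CompFun (fun x => F x + G x) := by
  obtain ⟨A, hA, h⟩ := hF
  obtain ⟨A', hA', h'⟩ := hG
  have hA1 : Computable (fun p : α × ℕ => A p.1 p.2) := hA
  have hA2 : Computable (fun p : α × ℕ => A' p.1 p.2) := hA'
  refine ⟨fun x k => qadd (A x (2 * k + 1)) (A' x (2 * k + 1)), Computable₂.mk ?_, fun x k => ?_⟩
  · have e1 : Computable (fun p : α × ℕ => A p.1 (2 * p.2 + 1)) :=
      hA1.comp (g := fun p : α × ℕ => (p.1, 2 * p.2 + 1)) (by fun_prop)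
    have e2 : Computable (fun p : α × ℕ => A' p.1 (2 * p.2 + 1)) :=
      hA2.comp (g := fun p : α × ℕ => (p.1, 2 * p.2 + 1)) (by fun_prop)
    fun_prop
  · rw [qval_qadd, ← half_add k]
    have := abs_add_le (qval (A x (2 * k + 1)) - F x) (qval (A' x (2 * k + 1)) - G x)
    rw [show qval (A x (2 * k + 1)) + qval (A' x (2 * k + 1)) - (F x + G x)
      = (qval (A x (2 * k + 1)) - F x) + (qval (A' x (2 * k + 1)) - G x) by ring]
    exact this.trans (add_le_add (h x _) (h' x _))

theorem sub (hF : CompFun F) (hG : CompFun G) : CompFun (fun x => F x - G x) :=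
  (hF.add hG.neg).congr fun x => by ring

theorem ite {c : α → Bool} (hc : Computable c) (hF : CompFun F) (hG : CompFun G) :
    CompFun (fun x => if c x = true then F x else G x) := by
  obtain ⟨A, hA, h⟩ := hF
  obtain ⟨A', hA', h'⟩ := hG
  have hA1 : Computable (fun p : α × ℕ => A p.1 p.2) := hA
  have hA2 : Computable (fun p : α × ℕ => A' p.1 p.2) := hA'
  refine ⟨fun x k => cond (c x) (A x k) (A' x k), Computable₂.mk (by fun_prop), fun x k => ?_⟩
  cases hcx : c x
  · simpa [hcx] using h' x k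
  · simpa [hcx] using h x k

theorem of_limit {F : α × ℕ → ℝ} (hF : CompFun F) {G : α → ℝ}
    (hlim : ∀ x n, |F (x, n) - G x| ≤ 1 / ((n : ℝ) + 1)) : CompFun G := by
  obtain ⟨A, hA, h⟩ := hF
  have hA1 : Computable (fun p : (α × ℕ) × ℕ => A p.1 p.2) := hA
  refine ⟨fun x k => A (x, 2 * k + 1) (2 * k + 1), Computable₂.mk ?_, fun x k => ?_⟩
  · exact hA1.comp (g := fun p : α × ℕ => ((p.1, 2 * p.2 + 1), 2 * p.2 + 1)) (by fun_prop)
  · rw [← half_add k]
    have := abs_add_le (qval (A (x, 2 * k + 1) (2 * k + 1)) - F (x, 2 * k + 1))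
      (F (x, 2 * k + 1) - G x)
    rw [show qval (A (x, 2 * k + 1) (2 * k + 1)) - G x
      = (qval (A (x, 2 * k + 1) (2 * k + 1)) - F (x, 2 * k + 1)) + (F (x, 2 * k + 1) - G x) by ring]
    exact this.trans (add_le_add (h _ _) (hlim x _))

/-- A computable natural bound for a computable family. -/
theorem exists_bound (hF : CompFun F) : ∃ b : α → ℕ, Computable b ∧ ∀ x, |F x| ≤ b x := by
  obtain ⟨A, hA, h⟩ := hF
  have hA1 : Computable (fun p : α × ℕ => A p.1 p.2) := hA
  refine ⟨fun x => qbd (A x 0) + 1, ?_, fun x => ?_⟩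
  · have : Computable (fun x : α => A x 0) := hA1.comp (g := fun x : α => (x, 0)) (by fun_prop)
    fun_prop
  · have h0 := h x 0
    simp only [Nat.cast_zero, zero_add, div_one] at h0
    have h1 := abs_qval_le (A x 0)
    have h2 : |F x| ≤ |qval (A x 0)| + |qval (A x 0) - F x| := by
      have := abs_sub_abs_le_abs_sub (F x) (qval (A x 0))
      rw [abs_sub_comm] at this
      linarith
    push_cast
    linarith

theorem mul (hF : CompFun F) (hG : CompFun G) : CompFun (fun x => F x * G x) := by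
  obtain ⟨b, hb, hbF⟩ := hF.exists_bound
  obtain ⟨b', hb', hbG⟩ := hG.exists_bound
  obtain ⟨A, hA, h⟩ := hF
  obtain ⟨A', hA', h'⟩ := hG
  have hA1 : Computable (fun p : α × ℕ => A p.1 p.2) := hA
  have hA2 : Computable (fun p : α × ℕ => A' p.1 p.2) := hA'
  refine ⟨fun x k => qmul (A x ((k + 1) * (b x + b' x + 1))) (A' x ((k + 1) * (b x + b' x + 1))),
    Computable₂.mk ?_, fun x k => ?_⟩
  · have e1 : Computable (fun p : α × ℕ => A p.1 ((p.2 + 1) * (b p.1 + b' p.1 + 1))) :=
      hA1.comp (g := fun p : α × ℕ => (p.1, (p.2 + 1) * (b p.1 + b' p.1 + 1))) (by fun_prop)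
    have e2 : Computable (fun p : α × ℕ => A' p.1 ((p.2 + 1) * (b p.1 + b' p.1 + 1))) :=
      hA2.comp (g := fun p : α × ℕ => (p.1, (p.2 + 1) * (b p.1 + b' p.1 + 1))) (by fun_prop)
    fun_prop
  · set K := (k + 1) * (b x + b' x + 1) with hK
    rw [qval_qmul]
    have h1 := h x K
    have h2 := h' x K
    set ε : ℝ := 1 / ((K : ℝ) + 1) with hε
    have hε0 : 0 ≤ ε := by positivity
    have hε1 : ε ≤ 1 := by
      rw [hε, div_le_one (by positivity)]
      linarith [Nat.cast_nonneg (α := ℝ) K]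
    have ha : |qval (A x K)| ≤ b x + 1 := by
      have := abs_sub_abs_le_abs_sub (qval (A x K)) (F x)
      linarith [hbF x]
    have e : qval (A x K) * qval (A' x K) - F x * G x
        = qval (A x K) * (qval (A' x K) - G x) + (qval (A x K) - F x) * G x := by ring
    rw [e]
    have h3 : |qval (A x K) * (qval (A' x K) - G x) + (qval (A x K) - F x) * G x|
        ≤ ((b x : ℝ) + 1) * ε + ε * b' x := by
      refine (abs_add_le _ _).trans (add_le_add ?_ ?_)
      · rw [abs_mul]
        exact mul_le_mul ha h2 (abs_nonneg _) (by positivity)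
      · rw [abs_mul]
        exact mul_le_mul h1 (hbG x) (abs_nonneg _) hε0
    refine h3.trans ?_
    have hKr : (K : ℝ) = ((k : ℝ) + 1) * ((b x : ℝ) + b' x + 1) := by
      rw [hK]; push_cast; ring
    rw [hε, hKr]
    have hk : (0 : ℝ) < (k : ℝ) + 1 := by positivity
    have hbb : (0 : ℝ) < (b x : ℝ) + b' x + 1 := by positivity
    rw [show ((b x : ℝ) + 1) * (1 / (((k : ℝ) + 1) * ((b x : ℝ) + b' x + 1) + 1))
        + 1 / (((k : ℝ) + 1) * ((b x : ℝ) + b' x + 1) + 1) * b' x
        = ((b x : ℝ) + b' x + 1) / (((k : ℝ) + 1) * ((b x : ℝ) + b' x + 1) + 1) by ring]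
    rw [div_le_div_iff₀ (by positivity) hk]
    nlinarith

/-- sums of codes -/
def qsum (f : ℕ → QCode) (n : ℕ) : QCode :=
  Nat.rec (motive := fun _ => QCode) (qofNat 0) (fun i r => qadd r (f i)) n

theorem qval_qsum (f : ℕ → QCode) (n : ℕ) : qval (qsum f n) = ∑ i ∈ range n, qval (f i) := by
  induction n with
  | zero => simp [qsum, qval_qofNat]
  | succ n ih =>
    have : qsum f (n + 1) = qadd (qsum f n) (f n) := rfl
    rw [this, qval_qadd, ih, sum_range_succ]

theorem sum_range {F : α × ℕ → ℝ} (hF : CompFun F) {N : α → ℕ} (hN : Computable N) :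
    CompFun (fun x => ∑ i ∈ range (N x), F (x, i)) := by
  obtain ⟨A, hA, h⟩ := hF
  have hA1 : Computable (fun p : (α × ℕ) × ℕ => A p.1 p.2) := hA
  refine ⟨fun x k => qsum (fun i => A (x, i) ((k + 1) * N x)) (N x), Computable₂.mk ?_,
    fun x k => ?_⟩
  · unfold qsum
    refine cp_nat_rec (α := α × ℕ) (f := fun p => N p.1) (g := fun _ => qofNat 0)
      (h := fun p i r => qadd r (A (p.1, i) ((p.2 + 1) * N p.1))) (by fun_prop) (by fun_prop) ?_
    have e1 : Computable (fun p : (α × ℕ) × ℕ × QCode => A (p.1.1, p.2.1) ((p.1.2 + 1) * N p.1.1)) :=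
      hA1.comp (g := fun p : (α × ℕ) × ℕ × QCode => ((p.1.1, p.2.1), (p.1.2 + 1) * N p.1.1))
        (by fun_prop)
    fun_prop
  · rw [qval_qsum, ← sum_sub_distrib]
    refine (abs_sum_le_sum_abs _ _).trans ?_
    have : ∑ i ∈ range (N x), |qval (A (x, i) ((k + 1) * N x)) - F (x, i)|
        ≤ ∑ _i ∈ range (N x), 1 / ((((k + 1) * N x : ℕ) : ℝ) + 1) :=
      sum_le_sum fun i _ => h _ _
    refine this.trans ?_
    rw [sum_const, card_range, nsmul_eq_mul]
    push_cast
    have hk : (0 : ℝ) < (k : ℝ) + 1 := by positivity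
    rw [mul_one_div, div_le_div_iff₀ (by positivity) hk]
    nlinarith [Nat.cast_nonneg (α := ℝ) (N x)]

/-- inverse of a family bounded below by a positive constant -/
theorem inv_of_lower_bound (hF : CompFun F) (m : ℕ) (hm : ∀ x, 1 / ((m : ℝ) + 1) ≤ F x) :
    CompFun (fun x => (F x)⁻¹) := by
  obtain ⟨A, hA, h⟩ := hF
  have hA1 : Computable (fun p : α × ℕ => A p.1 p.2) := hA
  refine ⟨fun x k => qinv (A x (2 * (m + 1) * (m + 1) * (k + 1))), Computable₂.mk ?_,
    fun x k => ?_⟩
  · have e1 : Computable (fun p : α × ℕ => A p.1 (2 * (m + 1) * (m + 1) * (p.2 + 1))) :=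
      hA1.comp (g := fun p : α × ℕ => (p.1, 2 * (m + 1) * (m + 1) * (p.2 + 1))) (by fun_prop)
    fun_prop
  · set K := 2 * (m + 1) * (m + 1) * (k + 1) with hK
    rw [qval_qinv]
    have h1 := h x K
    have hKr : (K : ℝ) = 2 * ((m : ℝ) + 1) * ((m : ℝ) + 1) * ((k : ℝ) + 1) := by
      rw [hK]; push_cast; ring
    have hm0 : (0 : ℝ) < (m : ℝ) + 1 := by positivity
    have hk0 : (0 : ℝ) < (k : ℝ) + 1 := by positivity
    have hk1 : (1 : ℝ) ≤ (k : ℝ) + 1 := by linarith [Nat.cast_nonneg (α := ℝ) k]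
    have hm1 : (1 : ℝ) ≤ (m : ℝ) + 1 := by linarith [Nat.cast_nonneg (α := ℝ) m]
    set δ : ℝ := 1 / ((m : ℝ) + 1) with hδ
    have hδ0 : 0 < δ := by positivity
    have hFx : δ ≤ F x := hm x
    -- the error is at most `δ^2 / (2 (k+1))`
    have hε : |qval (A x K) - F x| ≤ δ * δ / (2 * ((k : ℝ) + 1)) := by
      refine h1.trans ?_
      rw [hKr, hδ, div_mul_div_comm, div_div, one_mul]
      apply one_div_le_one_div_of_le (by positivity)
      nlinarith
    have hε2 : δ * δ / (2 * ((k : ℝ) + 1)) ≤ δ / 2 := by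
      rw [div_le_div_iff₀ (by positivity) (by norm_num)]
      have : δ ≤ 1 := by rw [hδ, div_le_one hm0]; exact hm1
      nlinarith
    have ha : δ / 2 ≤ qval (A x K) := by
      have := (abs_le.1 (hε.trans hε2)).1
      linarith
    have ha0 : 0 < qval (A x K) := by linarith
    have hF0 : 0 < F x := by linarith
    rw [inv_sub_inv ha0.ne' hF0.ne', abs_div, abs_sub_comm, abs_of_pos (mul_pos ha0 hF0),
      div_le_div_iff₀ (mul_pos ha0 hF0) hk0]
    have h2 : δ / 2 * δ ≤ qval (A x K) * F x := mul_le_mul ha hFx hδ0.le ha0.le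
    have h3 : |qval (A x K) - F x| * ((k : ℝ) + 1) ≤ δ * δ / 2 := by
      have := mul_le_mul_of_nonneg_right hε hk0.le
      refine this.trans (le_of_eq ?_)
      field_simp
    linarith

end CompFun

end Vale.Agent.Lib.P113
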