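import Mathlib
import Vale.Agent.Lib.P113.Defs
import Vale.Agent.Lib.P113.CompFun

/-!
# Computability of `exp (-r)` and of all derivatives of `expNegInvGlue` at rational points
-/

namespace Vale.Agent.Lib.P113

open Finset Filter Topology Set

/-- `(1 - r/N)^N` approximates `exp (-r)` with error at most `r^2/N`. -/
theorem exp_neg_approx_pow {r : ℝ} (hr : 0 ≤ r) {N : ℕ} (hN : 0 < N) (hrN : r ≤ N) :
    |(1 - r / N) ^ N - Real.exp (-r)| ≤ r ^ 2 / N := by
  have hN' : (0 : ℝ) < N := by exact_mod_cast hN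
  set y : ℝ := r / N with hy
  have hy0 : 0 ≤ y := by positivity
  have hy1 : y ≤ 1 := by rw [hy, div_le_one hN']; exact hrN
  have hNy : (N : ℝ) * y = r := by rw [hy]; field_simp
  have up : (1 - y) ^ N ≤ Real.exp (-r) := by
    have h1 : 1 - y ≤ Real.exp (-y) := Real.one_sub_le_exp_neg y
    have h2 := pow_le_pow_left₀ (by linarith : 0 ≤ 1 - y) h1 N
    rwa [← Real.exp_nat_mul, mul_neg, hNy] at h2
  have low : Real.exp (-r) * (1 - r ^ 2 / N) ≤ (1 - y) ^ N := by
    have h1 : 1 + (N : ℝ) * (-(y ^ 2)) ≤ (1 + -(y ^ 2)) ^ N :=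
      one_add_mul_le_pow (by nlinarith) N
    have h2 : 1 + -(y ^ 2) ≤ (1 - y) * Real.exp y := by
      have : 1 + y ≤ Real.exp y := by linarith [Real.add_one_le_exp y]
      nlinarith
    have h3 : (1 + -(y ^ 2)) ^ N ≤ ((1 - y) * Real.exp y) ^ N :=
      pow_le_pow_left₀ (by nlinarith) h2 N
    rw [mul_pow, ← Real.exp_nat_mul, hNy] at h3
    have h4 : 1 - r ^ 2 / N = 1 + (N : ℝ) * (-(y ^ 2)) := by
      rw [hy]; field_simp; ring
    rw [h4]
    have h5 : 1 + (N : ℝ) * (-(y ^ 2)) ≤ (1 - y) ^ N * Real.exp r := h1.trans h3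
    have h6 := mul_le_mul_of_nonneg_left h5 (Real.exp_pos (-r)).le
    refine h6.trans (le_of_eq ?_)
    rw [mul_comm, mul_assoc, ← Real.exp_add]
    simp
  have he1 : Real.exp (-r) ≤ 1 := Real.exp_le_one_iff.2 (by linarith)
  have he0 : 0 < Real.exp (-r) := Real.exp_pos _
  have hq : 0 ≤ r ^ 2 / N := by positivity
  rw [abs_le]
  constructor
  · nlinarith
  · linarith

/-- `exp (-|q|)` is computable on rational codes. -/
theorem compFun_exp_neg_abs : CompFun (fun q : QCode => Real.exp (-|qval q|)) := by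
  have hF : CompFun (fun p : QCode × ℕ => qval (qpow (qsub (qofNat 1) (qdiv (qabs p.1)
      (qofNat ((p.2 + 1) * (qbd p.1 * qbd p.1) + qbd p.1 + 1))))
      ((p.2 + 1) * (qbd p.1 * qbd p.1) + qbd p.1 + 1))) := CompFun.of_qval (by fun_prop)
  refine hF.of_limit fun q n => ?_
  set b := qbd q with hb
  set N := (n + 1) * (b * b) + b + 1 with hN
  rw [qval_qpow, qval_qsub, qval_qdiv, qval_qabs, qval_qofNat, qval_qofNat]
  have hr : |qval q| ≤ b := abs_qval_le q
  have hNr : (N : ℝ) = ((n : ℝ) + 1) * ((b : ℝ) * b) + b + 1 := by rw [hN]; push_cast; ring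
  have hb0 : (0 : ℝ) ≤ b := Nat.cast_nonneg _
  have hn0 : (0 : ℝ) < (n : ℝ) + 1 := by positivity
  have h1 := exp_neg_approx_pow (abs_nonneg (qval q)) (N := N) (by omega) (by
    rw [hNr]; nlinarith [mul_nonneg hn0.le (mul_nonneg hb0 hb0)])
  push_cast at h1 ⊢
  refine h1.trans ?_
  have hN0 : (0 : ℝ) < N := by rw [hNr]; positivity
  rw [div_le_div_iff₀ hN0 hn0, hNr]
  have : |qval q| ^ 2 ≤ (b : ℝ) * b := by nlinarith [abs_nonneg (qval q)]
  nlinarith

/-- `expNegInvGlue` is computable on rational codes. -/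
theorem compFun_glue : CompFun (fun q : QCode => expNegInvGlue (qval q)) := by
  have h := CompFun.ite (c := fun q : QCode => qle q (qofNat 0)) (by fun_prop) CompFun.zero
    (compFun_exp_neg_abs.comp (g := fun q : QCode => qinv q) (by fun_prop))
  refine h.congr fun q => ?_
  by_cases hq : qval q ≤ 0
  · have : qle q (qofNat 0) = true := by rw [qle_iff, qval_qofNat]; simpa using hq
    rw [if_pos this, expNegInvGlue.zero_of_nonpos hq]
  · have : ¬ qle q (qofNat 0) = true := by rw [qle_iff, qval_qofNat]; simpa using hq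
    rw [if_neg this, qval_qinv, expNegInvGlue, if_neg hq, abs_of_pos (inv_pos.2 (not_le.1 hq))]

/-! ### The derivatives of `expNegInvGlue` -/

/-- The rational functions `r_n` with `g^(n) = r_n g` on `(0,∞)`, as pairs `(r_n, r_(n-1))`. -/
noncomputable def rr (x : ℝ) : ℕ → ℝ × ℝ
  | 0 => (1, 0)
  | n + 1 => (((1 - 2 * n * x) * (rr x n).1 - n * (n - 1) * (rr x n).2) / x ^ 2, (rr x n).1)

theorem rr_hasDerivAt (n : ℕ) : ∀ x : ℝ, 0 < x →
    HasDerivAt (fun y => (rr y n).1) ((rr x (n + 1)).1 - (rr x n).1 / x ^ 2) x ∧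
    HasDerivAt (fun y => (n : ℝ) * (n - 1) * (rr y n).2)
      ((n : ℝ) * (n - 1) * ((rr x n).1 - (rr x n).2 / x ^ 2)) x := by
  induction n with
  | zero =>
    intro x hx
    constructor
    · simp only [rr]
      refine (hasDerivAt_const x (1 : ℝ)).congr_deriv ?_
      simp
    · simp only [rr]
      refine (hasDerivAt_const x ((0 : ℕ) * (((0 : ℕ) : ℝ) - 1) * (0 : ℝ))).congr_deriv ?_
      simp
  | succ n ih =>
    intro x hx
    obtain ⟨h1, h2⟩ := ih x hx
    constructor
    · have hlin : HasDerivAt (fun y : ℝ => 1 - 2 * (n : ℝ) * y) (-(2 * (n : ℝ))) x := by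
        simpa using ((hasDerivAt_id x).const_mul (2 * (n : ℝ))).const_sub 1
      have hnum := (hlin.mul h1).sub h2
      have hden : HasDerivAt (fun y : ℝ => y ^ 2) (2 * x) x := by
        simpa using hasDerivAt_pow 2 x
      have hq := hnum.div hden (pow_ne_zero 2 hx.ne')
      have hfun : (fun y => (rr y (n + 1)).1)
          = fun y => ((fun y : ℝ => 1 - 2 * (n : ℝ) * y) * (fun y => (rr y n).1)
            - fun y => (n : ℝ) * (n - 1) * (rr y n).2) y / y ^ 2 := by
        funext y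
        simp [rr]
      rw [hfun]
      refine hq.congr_deriv ?_
      simp only [rr, Pi.sub_apply, Pi.mul_apply]
      push_cast
      field_simp
      ring
    · exact h1.const_mul (((n + 1 : ℕ) : ℝ) * (((n + 1 : ℕ) : ℝ) - 1))

theorem glue_hasDerivAt (x : ℝ) : HasDerivAt expNegInvGlue (expNegInvGlue x / x ^ 2) x := by
  have := expNegInvGlue.hasDerivAt_polynomial_eval_inv_mul 1 x
  simp only [Polynomial.eval_one, one_mul] at this
  refine this.congr_deriv ?_
  simp
  ring

theorem iteratedDeriv_glue_pos (n : ℕ) : ∀ x : ℝ, 0 < x →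
    iteratedDeriv n expNegInvGlue x = (rr x n).1 * expNegInvGlue x := by
  induction n with
  | zero => intro x _; simp [rr]
  | succ n ih =>
    intro x hx
    rw [iteratedDeriv_succ]
    have : iteratedDeriv n expNegInvGlue =ᶠ[𝓝 x] fun y => (rr y n).1 * expNegInvGlue y := by
      filter_upwards [Ioi_mem_nhds hx] with y hy using ih y hy
    have hd : HasDerivAt (fun y => (rr y n).1 * expNegInvGlue y) _ x :=
      (rr_hasDerivAt n x hx).1.mul (glue_hasDerivAt x)
    rw [this.deriv_eq, hd.deriv]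
    ring

theorem iteratedDeriv_glue_poly (n : ℕ) : ∃ p : Polynomial ℝ,
    iteratedDeriv n expNegInvGlue = fun x => p.eval x⁻¹ * expNegInvGlue x := by
  induction n with
  | zero => exact ⟨1, by simp⟩
  | succ n ih =>
    obtain ⟨p, hp⟩ := ih
    refine ⟨Polynomial.X ^ 2 * (p - Polynomial.derivative p), ?_⟩
    rw [iteratedDeriv_succ, hp]
    funext x
    exact (expNegInvGlue.hasDerivAt_polynomial_eval_inv_mul p x).deriv

theorem iteratedDeriv_glue_nonpos (n : ℕ) {x : ℝ} (hx : x ≤ 0) :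
    iteratedDeriv n expNegInvGlue x = 0 := by
  obtain ⟨p, hp⟩ := iteratedDeriv_glue_poly n
  rw [hp]
  simp [expNegInvGlue.zero_of_nonpos hx]

/-- The recursion on codes. -/
def qrr (q : QCode) (n : ℕ) : QCode × QCode :=
  Nat.rec (motive := fun _ => QCode × QCode) (qofNat 1, qofNat 0)
    (fun n r => (qdiv (qsub (qmul (qsub (qofNat 1) (qmul (qofNat (2 * n)) q)) r.1)
      (qmul (qofNat (n * (n - 1))) r.2)) (qmul q q), r.1)) n

theorem qval_qrr (q : QCode) (n : ℕ) :
    qval (qrr q n).1 = (rr (qval q) n).1 ∧ qval (qrr q n).2 = (rr (qval q) n).2 := by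
  induction n with
  | zero => simp [qrr, rr, qval_qofNat]
  | succ n ih =>
    have e : qrr q (n + 1) = (qdiv (qsub (qmul (qsub (qofNat 1) (qmul (qofNat (2 * n)) q)) (qrr q n).1)
      (qmul (qofNat (n * (n - 1))) (qrr q n).2)) (qmul q q), (qrr q n).1) := rfl
    rw [e]
    refine ⟨?_, ih.1⟩
    simp only [rr, qval_qdiv, qval_qsub, qval_qmul, qval_qofNat, ih.1, ih.2]
    have : ((n * (n - 1) : ℕ) : ℝ) = (n : ℝ) * (n - 1) := by
      cases n with
      | zero => simp
      | succ m => push_cast; simp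
    rw [this]
    push_cast
    ring

theorem cp_qrr : Computable (fun p : ℕ × QCode => qrr p.2 p.1) := by
  unfold qrr
  exact cp_nat_rec (α := ℕ × QCode) (f := fun p => p.1) (g := fun _ => (qofNat 1, qofNat 0))
    (h := fun p n r => (qdiv (qsub (qmul (qsub (qofNat 1) (qmul (qofNat (2 * n)) p.2)) r.1)
      (qmul (qofNat (n * (n - 1))) r.2)) (qmul p.2 p.2), r.1)) (by fun_prop) (by fun_prop)
      (by fun_prop)

/-- All derivatives of `expNegInvGlue` are computable at rational points. -/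
theorem compFun_iteratedDeriv_glue :
    CompFun (fun p : ℕ × QCode => iteratedDeriv p.1 expNegInvGlue (qval p.2)) := by
  have h1 : CompFun (fun p : ℕ × QCode => qval (qrr p.2 p.1).1) :=
    CompFun.of_qval (cp_fst cp_qrr)
  have h2 : CompFun (fun p : ℕ × QCode => expNegInvGlue (qval p.2)) :=
    compFun_glue.comp (g := fun p : ℕ × QCode => p.2) (by fun_prop)
  refine (h1.mul h2).congr fun p => ?_
  rw [(qval_qrr p.2 p.1).1]
  by_cases hq : qval p.2 ≤ 0
  · rw [iteratedDeriv_glue_nonpos _ hq, expNegInvGlue.zero_of_nonpos hq, mul_zero]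
  · rw [iteratedDeriv_glue_pos _ _ (not_le.1 hq)]

end Vale.Agent.Lib.P113
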