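import Vale.Agent.Lib.P113.ForceDefs

/-!
# A smooth step function with explicit derivatives
-/

namespace Vale.Agent.Lib.P113

open Set MeasureTheory intervalIntegral

theorem bump_contDiff : ContDiff ℝ (⊤ : ℕ∞) bump :=
  expNegInvGlue.contDiff.mul (expNegInvGlue.contDiff.comp (contDiff_const.sub contDiff_id))

theorem bump_continuous : Continuous bump := bump_contDiff.continuous

theorem bump_nonneg (x : ℝ) : 0 ≤ bump x :=
  mul_nonneg (expNegInvGlue.nonneg _) (expNegInvGlue.nonneg _)

theorem bump_of_nonpos {x : ℝ} (h : x ≤ 0) : bump x = 0 := by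
  simp [bump, expNegInvGlue.zero_of_nonpos h]

theorem bump_of_one_le {x : ℝ} (h : 1 ≤ x) : bump x = 0 := by
  simp [bump, expNegInvGlue.zero_of_nonpos (sub_nonpos.2 h)]

theorem bump_pos {x : ℝ} (h0 : 0 < x) (h1 : x < 1) : 0 < bump x :=
  mul_pos (expNegInvGlue.pos_of_pos h0) (expNegInvGlue.pos_of_pos (sub_pos.2 h1))

theorem bumpMass_pos : 0 < bumpMass := by
  unfold bumpMass
  refine intervalIntegral_pos_of_pos_on (bump_continuous.intervalIntegrable _ _) ?_ one_pos
  intro x hx
  exact bump_pos hx.1 hx.2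

theorem hasDerivAt_sstep (x : ℝ) : HasDerivAt sstep (bump x / bumpMass) x := by
  unfold sstep
  exact (integral_hasDerivAt_right (bump_continuous.intervalIntegrable _ _)
    bump_continuous.aestronglyMeasurable.stronglyMeasurableAtFilter
    bump_continuous.continuousAt).div_const _

theorem deriv_sstep : deriv sstep = fun x => bump x / bumpMass :=
  funext fun x => (hasDerivAt_sstep x).deriv

theorem sstep_contDiff : ContDiff ℝ (⊤ : ℕ∞) sstep := by
  rw [show ((⊤ : ℕ∞) : WithTop ℕ∞) = (⊤ : ℕ∞) + 1 from rfl, contDiff_succ_iff_deriv]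
  refine ⟨fun x => (hasDerivAt_sstep x).differentiableAt, by simp, ?_⟩
  rw [deriv_sstep]
  exact bump_contDiff.div_const _

theorem sstep_of_nonpos {x : ℝ} (h : x ≤ 0) : sstep x = 0 := by
  unfold sstep
  have : ∫ y in (0 : ℝ)..x, bump y = 0 := by
    rw [integral_symm, neg_eq_zero]
    apply integral_zero_ae
    refine Filter.Eventually.of_forall fun y hy => ?_
    rw [uIoc_of_le h] at hy
    exact bump_of_nonpos hy.2
  simp [this]

theorem sstep_of_one_le {x : ℝ} (h : 1 ≤ x) : sstep x = 1 := by
  unfold sstep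
  have h1 : ∫ y in (1 : ℝ)..x, bump y = 0 := by
    apply integral_zero_ae
    refine Filter.Eventually.of_forall fun y hy => ?_
    rw [uIoc_of_le h] at hy
    exact bump_of_one_le hy.1.le
  have h2 : ∫ y in (0 : ℝ)..x, bump y = bumpMass := by
    rw [← integral_add_adjacent_intervals (bump_continuous.intervalIntegrable 0 1)
      (bump_continuous.intervalIntegrable 1 x), h1, add_zero, bumpMass]
  rw [h2, div_self bumpMass_pos.ne']

theorem sstep_monotone : Monotone sstep :=
  monotone_of_deriv_nonneg (fun x => (hasDerivAt_sstep x).differentiableAt) (fun x => by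
    rw [deriv_sstep]; exact div_nonneg (bump_nonneg x) bumpMass_pos.le)

theorem sstep_nonneg (x : ℝ) : 0 ≤ sstep x := by
  rcases le_total x 0 with h | h
  · rw [sstep_of_nonpos h]
  · rw [← sstep_of_nonpos le_rfl]; exact sstep_monotone h

theorem sstep_le_one (x : ℝ) : sstep x ≤ 1 := by
  rcases le_total 1 x with h | h
  · rw [sstep_of_one_le h]
  · rw [← sstep_of_one_le le_rfl]; exact sstep_monotone h

theorem sstep'_contDiff : ContDiff ℝ (⊤ : ℕ∞) sstep' := bump_contDiff.div_const _

theorem sstep'_of_nonpos {x : ℝ} (h : x ≤ 0) : sstep' x = 0 := by simp [sstep', bump_of_nonpos h]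

theorem sstep'_of_one_le {x : ℝ} (h : 1 ≤ x) : sstep' x = 0 := by simp [sstep', bump_of_one_le h]

theorem hasDerivAt_sstep' (x : ℝ) : HasDerivAt sstep (sstep' x) x := hasDerivAt_sstep x

end Vale.Agent.Lib.P113
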