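import Mathlib
import Vale.Agent.Lib.P113.Defs
import Vale.Agent.Lib.P113.Step
import Vale.Agent.Lib.P113.CompExp

/-!
# Computability of all derivatives of the smooth step at rational points
-/

namespace Vale.Agent.Lib.P113

open Finset Filter Topology MeasureTheory intervalIntegral

/-! ### Derivatives of the bump -/

theorem iteratedDeriv_bump_leibniz (n : ℕ) (x : ℝ) :
    iteratedDeriv n bump x = ∑ i ∈ range (n + 1), (n.choose i : ℝ) *
      iteratedDeriv i expNegInvGlue x * ((-1) ^ (n - i) * iteratedDeriv (n - i) expNegInvGlue (1 - x)) := by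
  have h1 : ContDiffAt ℝ n expNegInvGlue x := expNegInvGlue.contDiff.contDiffAt
  have h2 : ContDiffAt ℝ n (fun y : ℝ => expNegInvGlue (1 - y)) x :=
    (expNegInvGlue.contDiff.comp (contDiff_const.sub contDiff_id)).contDiffAt
  have : bump = fun y => expNegInvGlue y * (fun y : ℝ => expNegInvGlue (1 - y)) y := rfl
  rw [this, iteratedDeriv_fun_mul h1 h2]
  refine sum_congr rfl fun i _ => ?_
  rw [iteratedDeriv_comp_const_sub]
  simp

theorem compFun_iteratedDeriv_bump :
    CompFun (fun p : ℕ × QCode => iteratedDeriv p.1 bump (qval p.2)) := by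
  have hD := compFun_iteratedDeriv_glue
  have t1 : CompFun (fun z : (ℕ × QCode) × ℕ =>
      ((z.1.1.factorial / (z.2.factorial * (z.1.1 - z.2).factorial) : ℕ) : ℝ)) :=
    CompFun.of_nat (by fun_prop)
  have t2 : CompFun (fun z : (ℕ × QCode) × ℕ => iteratedDeriv z.2 expNegInvGlue (qval z.1.2)) :=
    hD.comp (g := fun z : (ℕ × QCode) × ℕ => (z.2, z.1.2)) (by fun_prop)
  have t3 : CompFun (fun z : (ℕ × QCode) × ℕ => qval (qpow (qneg (qofNat 1)) (z.1.1 - z.2))) :=
    CompFun.of_qval (by fun_prop)
  have t4 : CompFun (fun z : (ℕ × QCode) × ℕ =>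
      iteratedDeriv (z.1.1 - z.2) expNegInvGlue (qval (qsub (qofNat 1) z.1.2))) :=
    hD.comp (g := fun z : (ℕ × QCode) × ℕ => (z.1.1 - z.2, qsub (qofNat 1) z.1.2)) (by fun_prop)
  have hs := ((t1.mul t2).mul (t3.mul t4)).sum_range (N := fun p : ℕ × QCode => p.1 + 1)
    (by fun_prop)
  refine hs.congr fun p => ?_
  rw [iteratedDeriv_bump_leibniz]
  refine sum_congr rfl fun i hi => ?_
  have hi' : i ≤ p.1 := Nat.lt_succ_iff.1 (mem_range.1 hi)
  simp only [qval_qpow, qval_qneg, qval_qofNat, qval_qsub, Nat.cast_one]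
  rw [Nat.choose_eq_factorial_div_factorial hi']

theorem compFun_bump : CompFun (fun q : QCode => bump (qval q)) :=
  (compFun_iteratedDeriv_bump.comp (g := fun q : QCode => (0, q)) (by fun_prop)).congr
    fun q => by simp

/-! ### Riemann sums -/

theorem riemann_error {f : ℝ → ℝ} {L : ℝ} (hf : ∀ x y, |f x - f y| ≤ L * |x - y|)
    (hc : Continuous f) (x : ℝ) {N : ℕ} (hN : 0 < N) :
    |(∫ t in (0 : ℝ)..x, f t) - ∑ i ∈ range N, x / N * f (i * x / N)| ≤ L * x ^ 2 / N := by
  have hN' : (0 : ℝ) < N := by exact_mod_cast hN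
  set a : ℕ → ℝ := fun i => i * x / N with ha
  have h0 : a 0 = 0 := by simp [ha]
  have h1 : a N = x := by simp only [ha]; field_simp
  have hstep : ∀ i, a (i + 1) - a i = x / N := by
    intro i; simp only [ha]; push_cast; ring
  have hsum := sum_integral_adjacent_intervals (μ := volume) (f := f) (a := a) (n := N)
    (fun k _ => hc.intervalIntegrable _ _)
  rw [h0, h1] at hsum
  rw [← hsum, ← sum_sub_distrib]
  have hterm : ∀ i ∈ range N, |(∫ t in a i..a (i + 1), f t) - x / N * f (i * x / N)|
      ≤ L * |x / N| * |x / N| := by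
    intro i _
    have e : (∫ t in a i..a (i + 1), f t) - x / N * f (i * x / N)
        = ∫ t in a i..a (i + 1), (f t - f (a i)) := by
      rw [intervalIntegral.integral_sub (hc.intervalIntegrable _ _) (intervalIntegrable_const),
        intervalIntegral.integral_const, hstep, smul_eq_mul]
    rw [e, ← hstep i, ← Real.norm_eq_abs]
    refine norm_integral_le_of_norm_le_const fun t ht => ?_
    rw [Real.norm_eq_abs]
    refine (hf t (a i)).trans ?_
    have hL : 0 ≤ L := by
      have := hf 0 1
      have h2 := abs_nonneg (f 0 - f 1)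
      norm_num at this
      linarith
    exact mul_le_mul_of_nonneg_left
      (Set.abs_sub_left_of_mem_uIcc (Set.uIoc_subset_uIcc ht)) hL
  refine (abs_sum_le_sum_abs _ _).trans ((sum_le_sum hterm).trans (le_of_eq ?_))
  rw [sum_const, card_range, nsmul_eq_mul, mul_assoc, abs_mul_abs_self]
  field_simp

theorem exists_bump_lipschitz : ∃ L : ℕ, ∀ x y, |bump x - bump y| ≤ L * |x - y| := by
  have hcd : Continuous (deriv bump) := bump_contDiff.continuous_deriv (by simp)
  obtain ⟨C, hC⟩ := (isCompact_Icc (a := (0 : ℝ)) (b := 1)).exists_bound_of_continuousOn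
    hcd.continuousOn
  obtain ⟨L, hL⟩ := exists_nat_ge C
  have hb : ∀ x, ‖deriv bump x‖ ≤ L := by
    intro x
    by_cases hx : x ∈ Set.Icc (0 : ℝ) 1
    · exact (hC x hx).trans hL
    · have : bump =ᶠ[𝓝 x] fun _ => 0 := by
        rw [Set.mem_Icc, not_and_or, not_le, not_le] at hx
        rcases hx with h | h
        · filter_upwards [Iio_mem_nhds h] with y hy using bump_of_nonpos (le_of_lt hy)
        · filter_upwards [Ioi_mem_nhds h] with y hy using bump_of_one_le (le_of_lt hy)
      rw [this.deriv_eq]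
      simp
  refine ⟨L, fun x y => ?_⟩
  have := Convex.norm_image_sub_le_of_norm_deriv_le (f := bump) (C := L) (s := Set.univ)
    (x := y) (y := x) (fun z _ => (bump_contDiff.differentiable (by simp)) z) (fun z _ => hb z)
    convex_univ (Set.mem_univ _) (Set.mem_univ _)
  simpa [Real.norm_eq_abs] using this

/-- The primitive of the bump is computable at rational points. -/
theorem compFun_integral_bump : CompFun (fun q : QCode => ∫ t in (0 : ℝ)..qval q, bump t) := by
  obtain ⟨L, hL⟩ := exists_bump_lipschitz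
  have t1 : CompFun (fun z : (QCode × ℕ) × ℕ => qval (qdiv z.1.1
      (qofNat ((z.1.2 + 1) * (L * (qbd z.1.1 * qbd z.1.1)) + 1)))) := CompFun.of_qval (by fun_prop)
  have t2 : CompFun (fun z : (QCode × ℕ) × ℕ => bump (qval (qdiv (qmul (qofNat z.2) z.1.1)
      (qofNat ((z.1.2 + 1) * (L * (qbd z.1.1 * qbd z.1.1)) + 1))))) :=
    compFun_bump.comp (g := fun z : (QCode × ℕ) × ℕ => qdiv (qmul (qofNat z.2) z.1.1)
      (qofNat ((z.1.2 + 1) * (L * (qbd z.1.1 * qbd z.1.1)) + 1))) (by fun_prop)
  have hs := (t1.mul t2).sum_range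
    (N := fun p : QCode × ℕ => (p.2 + 1) * (L * (qbd p.1 * qbd p.1)) + 1) (by fun_prop)
  refine hs.of_limit fun q n => ?_
  set b := qbd q with hb
  set N := (n + 1) * (L * (b * b)) + 1 with hN
  simp only [qval_qdiv, qval_qmul, qval_qofNat]
  rw [abs_sub_comm]
  refine (riemann_error hL bump_continuous (qval q) (N := N) (by omega)).trans ?_
  have hr : |qval q| ≤ b := abs_qval_le q
  have hNr : (N : ℝ) = ((n : ℝ) + 1) * ((L : ℝ) * ((b : ℝ) * b)) + 1 := by rw [hN]; push_cast; ring
  have hb0 : (0 : ℝ) ≤ b := Nat.cast_nonneg _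
  have hL0 : (0 : ℝ) ≤ L := Nat.cast_nonneg _
  have hn0 : (0 : ℝ) < (n : ℝ) + 1 := by positivity
  have hN0 : (0 : ℝ) < N := by rw [hNr]; positivity
  rw [div_le_div_iff₀ hN0 hn0, hNr]
  have h2 : qval q ^ 2 ≤ (b : ℝ) * b := by
    rw [← sq_abs]; nlinarith [abs_nonneg (qval q)]
  have h3 : (L : ℝ) * qval q ^ 2 ≤ L * ((b : ℝ) * b) := mul_le_mul_of_nonneg_left h2 hL0
  nlinarith

theorem compFun_bumpMass {α : Type*} [Primcodable α] : CompFun (fun _ : α => bumpMass) :=
  (compFun_integral_bump.comp (g := fun _ : α => qofNat 1) (by fun_prop)).congr fun _ => by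
    rw [qval_qofNat, bumpMass]; simp

theorem compFun_bumpMass_inv {α : Type*} [Primcodable α] : CompFun (fun _ : α => bumpMass⁻¹) := by
  obtain ⟨m, hm⟩ := exists_nat_one_div_lt bumpMass_pos
  exact compFun_bumpMass.inv_of_lower_bound m fun _ => hm.le

theorem iteratedDeriv_succ_sstep_bump (n : ℕ) (x : ℝ) :
    iteratedDeriv (n + 1) sstep x = iteratedDeriv n bump x / bumpMass := by
  rw [iteratedDeriv_succ', deriv_sstep, iteratedDeriv_div_const]

/-- All derivatives of the smooth step are computable at rational points. -/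
theorem compFun_sstep : CompFun (fun p : ℕ × QCode => iteratedDeriv p.1 sstep (qval p.2)) := by
  have h0 : CompFun (fun p : ℕ × QCode => (∫ t in (0 : ℝ)..qval p.2, bump t) * bumpMass⁻¹) :=
    (compFun_integral_bump.comp (g := fun p : ℕ × QCode => p.2) (by fun_prop)).mul
      compFun_bumpMass_inv
  have h1 : CompFun (fun p : ℕ × QCode => iteratedDeriv (p.1 - 1) bump (qval p.2) * bumpMass⁻¹) :=
    (compFun_iteratedDeriv_bump.comp (g := fun p : ℕ × QCode => (p.1 - 1, p.2)) (by fun_prop)).mul
      compFun_bumpMass_inv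
  refine (CompFun.ite (c := fun p : ℕ × QCode => decide (p.1 = 0)) (by fun_prop) h0 h1).congr ?_
  rintro ⟨n, q⟩
  cases n with
  | zero => simp [sstep, div_eq_mul_inv]
  | succ n => simp [iteratedDeriv_succ_sstep_bump, div_eq_mul_inv]

/-- All derivatives of the derivative of the smooth step are computable at rational points. -/
theorem compFun_sstep' : CompFun (fun p : ℕ × QCode => iteratedDeriv p.1 sstep' (qval p.2)) := by
  refine (compFun_iteratedDeriv_bump.mul compFun_bumpMass_inv).congr fun p => ?_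
  have : sstep' = fun x => bump x / bumpMass := rfl
  rw [this, iteratedDeriv_div_const, div_eq_mul_inv]

end Vale.Agent.Lib.P113
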