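import Vale.Agent.Lib.P113.Step
import Vale.Agent.Lib.P113.Periodize

/-!
# Base-`B` encodings of stacks and smooth cylinder functions
-/

namespace Vale.Agent.Lib.P113

open Set

/-- `u` is an initial segment of the digit stream `X 0 0 0 …`. -/
def Pfx : List ℕ → List ℕ → Prop
  | [], _ => True
  | d :: u, X => d = X.headD 0 ∧ Pfx u X.tail

instance : ∀ u X, Decidable (Pfx u X)
  | [], _ => isTrue trivial
  | d :: u, X => by
    unfold Pfx
    haveI := instDecidablePfx u X.tail
    infer_instance

/-- All digits are small compared with the base. -/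
def Dig (B : ℕ) (l : List ℕ) : Prop := ∀ d ∈ l, 4 * d + 4 ≤ B

theorem Dig.tail {B : ℕ} {l : List ℕ} (h : Dig B l) : Dig B l.tail :=
  fun d hd => h d (List.mem_of_mem_tail hd)

theorem Dig.drop {B : ℕ} {l : List ℕ} (h : Dig B l) (n : ℕ) : Dig B (l.drop n) :=
  fun d hd => h d (List.mem_of_mem_drop hd)

theorem Dig.append {B : ℕ} {l l' : List ℕ} (h : Dig B l) (h' : Dig B l') : Dig B (l ++ l') := by
  intro d hd
  rcases List.mem_append.1 hd with h1 | h1
  · exact h d h1
  · exact h' d h1

theorem Dig.cons {B d : ℕ} {l : List ℕ} (hd : 4 * d + 4 ≤ B) (h : Dig B l) : Dig B (d :: l) := by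
  intro e he
  rcases List.mem_cons.1 he with h1 | h1
  · subst h1; exact hd
  · exact h e h1

theorem Dig.nil {B : ℕ} : Dig B [] := fun _ h => by simp at h

theorem Dig.headD {B : ℕ} {l : List ℕ} (hB : 4 ≤ B) (h : Dig B l) : 4 * l.headD 0 + 4 ≤ B := by
  cases l with
  | nil => simpa using hB
  | cons d l => exact h d (by simp)

theorem enc_head_tail (B : ℕ) (X : List ℕ) : enc B X = ((X.headD 0 : ℝ) + enc B X.tail) / B := by
  cases X <;> simp [enc]

theorem enc_nonneg (B : ℕ) (X : List ℕ) : 0 ≤ enc B X := by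
  induction X with
  | nil => simp [enc]
  | cons d l ih => unfold enc; positivity

theorem enc_le {B : ℕ} {X : List ℕ} (h : Dig B X) : enc B X ≤ 1 / 4 := by
  induction X with
  | nil => simp [enc]
  | cons d l ih =>
    have hd : 4 * d + 4 ≤ B := h d (by simp)
    have hl := ih (fun e he => h e (by simp [he]))
    have hB : (0 : ℝ) < B := by exact_mod_cast (by omega : 0 < B)
    have hd' : (4 : ℝ) * d + 4 ≤ B := by exact_mod_cast hd
    unfold enc
    rw [div_le_iff₀ hB]
    linarith

theorem val_le {B : ℕ} {u : List ℕ} (h : Dig B u) : 4 * val B u + 1 ≤ B ^ u.length := by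
  induction u with
  | nil => simp [val]
  | cons d l ih =>
    have hd : 4 * d + 4 ≤ B := h d (by simp)
    have hl := ih (fun e he => h e (by simp [he]))
    simp only [val, List.length_cons, pow_succ]
    nlinarith [Nat.zero_le (B ^ l.length)]

theorem enc_append (B : ℕ) (hB : 0 < B) (u T : List ℕ) :
    enc B (u ++ T) = ((val B u : ℝ) + enc B T) / (B : ℝ) ^ u.length := by
  have hB' : (B : ℝ) ≠ 0 := by exact_mod_cast hB.ne'
  induction u with
  | nil => simp [val]
  | cons d l ih =>
    simp only [List.cons_append, enc, ih, val, List.length_cons]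
    push_cast
    field_simp
    ring

/-- The position of `enc X` relative to the cylinder of `u`. -/
theorem cyl_position {B : ℕ} (hB : 4 ≤ B) (u : List ℕ) (hu : Dig B u) :
    ∀ X : List ℕ, Dig B X →
      (Pfx u X → (B : ℝ) ^ u.length * enc B X - val B u = enc B (X.drop u.length)) ∧
      (¬ Pfx u X → (B : ℝ) ^ u.length * enc B X - val B u ≤ -(1 / 4) ∨
        3 / 8 ≤ (B : ℝ) ^ u.length * enc B X - val B u) := by
  have hB' : (B : ℝ) ≠ 0 := by exact_mod_cast (by omega : B ≠ 0)
  induction u with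
  | nil =>
    intro X _
    simp [Pfx, val]
  | cons d l ih =>
    intro X hX
    have hl : Dig B l := fun e he => hu e (by simp [he])
    obtain ⟨ih1, ih2⟩ := ih hl X.tail hX.tail
    have key : (B : ℝ) ^ (d :: l).length * enc B X - val B (d :: l)
        = (B : ℝ) ^ l.length * ((X.headD 0 : ℝ) - d)
          + ((B : ℝ) ^ l.length * enc B X.tail - val B l) := by
      rw [enc_head_tail B X]
      simp only [List.length_cons, val]
      push_cast
      field_simp
      ring
    have hpow : (1 : ℝ) ≤ (B : ℝ) ^ l.length :=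
      one_le_pow₀ (by exact_mod_cast (by omega : 1 ≤ B))
    have hv : (4 : ℝ) * val B l + 1 ≤ (B : ℝ) ^ l.length := by exact_mod_cast val_le hl
    have he0 := enc_nonneg B X.tail
    have he1 := enc_le hX.tail
    have hv0 : (0 : ℝ) ≤ val B l := by positivity
    constructor
    · rintro ⟨h1, h2⟩
      rw [key, ← h1, sub_self, mul_zero, zero_add, ih1 h2]
      simp
    · intro hn
      rw [key]
      by_cases h1 : d = X.headD 0
      · have h2 : ¬ Pfx l X.tail := fun h2 => hn ⟨h1, h2⟩
        rw [← h1, sub_self, mul_zero, zero_add]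
        exact ih2 h2
      · rcases lt_or_gt_of_ne h1 with h | h
        · right
          have : (d : ℝ) + 1 ≤ (X.headD 0 : ℝ) := by exact_mod_cast h
          nlinarith
        · left
          have : (X.headD 0 : ℝ) + 1 ≤ (d : ℝ) := by exact_mod_cast h
          nlinarith

theorem cutAff_contDiff (p1 q1 p2 q2 α β : ℝ) : ContDiff ℝ (⊤ : ℕ∞) (cutAff p1 q1 p2 q2 α β) := by
  unfold cutAff
  have h1 : ContDiff ℝ (⊤ : ℕ∞) (fun v : ℝ => sstep (p1 * v + q1)) :=
    sstep_contDiff.comp ((contDiff_const.mul contDiff_id).add contDiff_const)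
  have h2 : ContDiff ℝ (⊤ : ℕ∞) (fun v : ℝ => sstep (p2 * v + q2)) :=
    sstep_contDiff.comp ((contDiff_const.mul contDiff_id).add contDiff_const)
  exact (h1.sub h2).mul ((contDiff_const.mul contDiff_id).add contDiff_const)

theorem fam_support {B : ℕ} (hB : 4 ≤ B) {u : List ℕ} (hu : Dig B u) (α β : ℝ) :
    ∀ v : ℝ, 3 / 8 ≤ |v| → cutAff (4 * (B : ℝ) ^ u.length) (1 - 4 * (val B u : ℝ))
      (8 * (B : ℝ) ^ u.length) (-(8 * (val B u : ℝ)) - 2) α β v = 0 := by
  intro v hv
  have hpow : (1 : ℝ) ≤ (B : ℝ) ^ u.length :=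
    one_le_pow₀ (by exact_mod_cast (by omega : 1 ≤ B))
  have hval : (4 : ℝ) * val B u + 1 ≤ (B : ℝ) ^ u.length := by exact_mod_cast val_le hu
  have hv0 : (0 : ℝ) ≤ val B u := by positivity
  unfold cutAff
  rcases le_abs.1 hv with h | h
  · rw [sstep_of_one_le (by nlinarith), sstep_of_one_le (by nlinarith)]
    simp
  · rw [sstep_of_nonpos (by nlinarith), sstep_of_nonpos (by nlinarith)]
    simp

theorem fam_contDiff {B : ℕ} (hB : 4 ≤ B) {u : List ℕ} (hu : Dig B u) (α β : ℝ) :
    ContDiff ℝ (⊤ : ℕ∞) (fam B u α β) :=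
  per_contDiff (cutAff_contDiff _ _ _ _ _ _) (fam_support hB hu α β)

theorem fam_add_int (B : ℕ) (u : List ℕ) (α β x : ℝ) (n : ℤ) :
    fam B u α β (x + n) = fam B u α β x := per_add_int _ _ _

theorem fam_enc {B : ℕ} (hB : 4 ≤ B) {u X : List ℕ} (hu : Dig B u) (hX : Dig B X) (α β : ℝ) :
    fam B u α β (enc B X) = if Pfx u X then α * enc B X + β else 0 := by
  have h0 := enc_nonneg B X
  have h1 := enc_le hX
  unfold fam
  rw [per_of_mem _ (by linarith) (by linarith)]
  obtain ⟨c1, c2⟩ := cyl_position hB u hu X hX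
  unfold cutAff
  split_ifs with hp
  · have e := c1 hp
    have e0 := enc_nonneg B (X.drop u.length)
    have e1 := enc_le (hX.drop u.length)
    rw [sstep_of_one_le (by linarith), sstep_of_nonpos (by linarith)]
    simp
  · rcases c2 hp with h | h
    · rw [sstep_of_nonpos (by linarith), sstep_of_nonpos (by linarith)]
      simp
    · rw [sstep_of_one_le (by linarith), sstep_of_one_le (by linarith)]
      simp

theorem cyl_enc {B : ℕ} (hB : 4 ≤ B) {u X : List ℕ} (hu : Dig B u) (hX : Dig B X) :
    cyl B u (enc B X) = if Pfx u X then 1 else 0 := by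
  unfold cyl
  rw [fam_enc hB hu hX]
  simp

theorem rep_enc {B : ℕ} (hB : 4 ≤ B) {u X : List ℕ} (u' : List ℕ) (hu : Dig B u) (hX : Dig B X) :
    rep B u u' (enc B X)
      = if Pfx u X then enc B (u' ++ X.drop u.length) - enc B X else 0 := by
  unfold rep
  rw [fam_enc hB hu hX]
  split_ifs with hp
  · have e := (cyl_position hB u hu X hX).1 hp
    rw [enc_append B (by omega), ← e]
    have hB' : (B : ℝ) ≠ 0 := by exact_mod_cast (by omega : B ≠ 0)
    field_simp
    ring
  · rfl

end Vale.Agent.Lib.P113
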