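import Vale.Agent.Lib.P113.FamDeriv
import Vale.Agent.Lib.P113.CompFun

/-!
# Computability of the derivatives of the one-variable building blocks

Everything is relative to the computability of `(n, q) ↦ sstep⁽ⁿ⁾(q)`.
-/

namespace Vale.Agent.Lib.P113

/-- The hypothesis: the derivatives of `sstep` at rational points are uniformly computable. -/
def SstepComp : Prop := CompFun (fun p : ℕ × QCode => iteratedDeriv p.1 sstep (qval p.2))

theorem compFun_sD (hS : CompFun (fun p : ℕ × QCode => iteratedDeriv p.1 sstep (qval p.2))) :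
    CompFun (fun p : ℕ × QCode × QCode × QCode =>
      sD p.1 (qval p.2.1) (qval p.2.2.1) (qval p.2.2.2)) := by
  have h1 : CompFun (fun p : ℕ × QCode × QCode × QCode => qval (qpow p.2.1 p.1)) :=
    CompFun.of_qval (by fun_prop)
  have h2 : CompFun (fun p : ℕ × QCode × QCode × QCode =>
      iteratedDeriv p.1 sstep (qval (qadd (qmul p.2.1 p.2.2.2) p.2.2.1))) :=
    hS.comp (g := fun p : ℕ × QCode × QCode × QCode => (p.1, qadd (qmul p.2.1 p.2.2.2) p.2.2.1))
      (by fun_prop)
  refine (h1.mul h2).congr fun p => ?_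
  simp only [sD, qval_qpow, qval_qadd, qval_qmul]

/-- parameters of `cutAffD`: order, six parameters, point -/
theorem compFun_cutAffD
    (hS : CompFun (fun p : ℕ × QCode => iteratedDeriv p.1 sstep (qval p.2))) :
    CompFun (fun p : ℕ × ACode × QCode =>
      cutAffD p.1 (qval p.2.1.1) (qval p.2.1.2.1) (qval p.2.1.2.2.1) (qval p.2.1.2.2.2.1)
        (qval p.2.1.2.2.2.2.1) (qval p.2.1.2.2.2.2.2) (qval p.2.2)) := by
  have hD := compFun_sD hS
  have a1 : CompFun (fun p : ℕ × ACode × QCode =>
      sD p.1 (qval p.2.1.1) (qval p.2.1.2.1) (qval p.2.2)) :=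
    hD.comp (g := fun p : ℕ × ACode × QCode => (p.1, p.2.1.1, p.2.1.2.1, p.2.2)) (by fun_prop)
  have a2 : CompFun (fun p : ℕ × ACode × QCode =>
      sD p.1 (qval p.2.1.2.2.1) (qval p.2.1.2.2.2.1) (qval p.2.2)) :=
    hD.comp (g := fun p : ℕ × ACode × QCode => (p.1, p.2.1.2.2.1, p.2.1.2.2.2.1, p.2.2))
      (by fun_prop)
  have b1 : CompFun (fun p : ℕ × ACode × QCode =>
      sD (p.1 - 1) (qval p.2.1.1) (qval p.2.1.2.1) (qval p.2.2)) :=
    hD.comp (g := fun p : ℕ × ACode × QCode => (p.1 - 1, p.2.1.1, p.2.1.2.1, p.2.2)) (by fun_prop)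
  have b2 : CompFun (fun p : ℕ × ACode × QCode =>
      sD (p.1 - 1) (qval p.2.1.2.2.1) (qval p.2.1.2.2.2.1) (qval p.2.2)) :=
    hD.comp (g := fun p : ℕ × ACode × QCode => (p.1 - 1, p.2.1.2.2.1, p.2.1.2.2.2.1, p.2.2))
      (by fun_prop)
  have c1 : CompFun (fun p : ℕ × ACode × QCode =>
      qval (qadd (qmul p.2.1.2.2.2.2.1 p.2.2) p.2.1.2.2.2.2.2)) := CompFun.of_qval (by fun_prop)
  have c2 : CompFun (fun p : ℕ × ACode × QCode =>
      qval (qmul (qofNat p.1) p.2.1.2.2.2.2.1)) := CompFun.of_qval (by fun_prop)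
  refine (((a1.sub a2).mul c1).add (c2.mul (b1.sub b2))).congr fun p => ?_
  simp only [cutAffD, qval_qadd, qval_qmul, qval_qofNat]

theorem red_qval (q : QCode) : red (qval q) = qval (qred q) := by
  rw [qval_qred]; rfl

/-- **(3)** the derivatives of the coded one-variable factors are uniformly computable. -/
theorem compFun_atomD (hS : CompFun (fun p : ℕ × QCode => iteratedDeriv p.1 sstep (qval p.2))) :
    CompFun (fun p : ℕ × ACode × QCode => atomD p.1 p.2.1 (qval p.2.2)) := by
  have h := (compFun_cutAffD hS).comp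
    (g := fun p : ℕ × ACode × QCode => (p.1, p.2.1, qred p.2.2)) (by fun_prop)
  refine h.congr fun p => ?_
  rw [atomD_eq, red_qval]

/-- code of `1/2` -/
def qhalf : QCode := (1, 0, 1)

theorem qval_qhalf : qval qhalf = 1 / 2 := by
  simp only [qval, qhalf]; norm_num

/-- code of `profArg j t` -/
def qprofArg (j : ℕ) (t : QCode) : QCode :=
  cond (decide (j ≤ 3)) (qsub (qmul (qofNat 16) t) (qofNat j))
    (qsub (qmul (qofNat 16) (qadd (qred (qsub t qhalf)) qhalf)) (qofNat j))

theorem qval_qprofArg (j : ℕ) (t : QCode) : qval (qprofArg j t) = profArg j (qval t) := by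
  unfold qprofArg profArg
  by_cases hj : j ≤ 3
  · simp only [hj, decide_true, cond_true, if_true, qval_qsub, qval_qmul, qval_qofNat]
    norm_num
  · simp only [hj, decide_false, cond_false, if_false, qval_qsub, qval_qmul, qval_qofNat,
      qval_qadd, qval_qhalf, ← red_qval]
    norm_num

theorem cp_qprofArg {α : Type*} [Primcodable α] {f : α → ℕ} {g : α → QCode}
    (hf : Computable f) (hg : Computable g) : Computable (fun x => qprofArg (f x) (g x)) := by
  unfold qprofArg
  fun_prop

/-- **(4)** the derivatives of the time profiles are uniformly computable. -/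
theorem compFun_profD (hS : CompFun (fun p : ℕ × QCode => iteratedDeriv p.1 sstep (qval p.2))) :
    CompFun (fun p : ℕ × ℕ × QCode => profD p.1 p.2.1 (qval p.2.2)) := by
  have h1 : CompFun (fun p : ℕ × ℕ × QCode => qval (qpow (qofNat 16) (p.1 + 1))) :=
    CompFun.of_qval (by fun_prop)
  have h2 : CompFun (fun p : ℕ × ℕ × QCode =>
      iteratedDeriv (p.1 + 1) sstep (qval (qprofArg p.2.1 p.2.2))) :=
    hS.comp (g := fun p : ℕ × ℕ × QCode => (p.1 + 1, qprofArg p.2.1 p.2.2))
      ((by fun_prop : Computable fun p : ℕ × ℕ × QCode => p.1 + 1).pair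
        (cp_qprofArg (by fun_prop) (by fun_prop)))
  refine (h1.mul h2).congr fun p => ?_
  rw [profD_eq, qval_qpow, qval_qofNat, qval_qprofArg]
  norm_num

end Vale.Agent.Lib.P113
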