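import Mathlib
import Vale.Agent.Lib.P113.Defs

/-!
# P113, module (U): uniqueness of classical solutions of forced Navier-Stokes on the torus
-/

namespace Vale.Agent.Lib.P113

open Set MeasureTheory Filter Topology

/-- The unit box, a fundamental domain of the torus. -/
abbrev Box3 : Set R3 := Icc (0 : R3) 1

theorem per_shift {α : Type*} {g : R3 → α} (hg : Per g) (i : Fin 3) (x : R3) :
    g (x + ee i) = g x := by
  have h := hg x (Pi.single i 1)
  have he : (fun j => (((Pi.single i 1 : Fin 3 → ℤ) j : ℤ) : ℝ)) = ee i := by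
    funext j
    by_cases hj : j = i
    · subst hj; simp [ee]
    · simp [ee, Pi.single_eq_of_ne hj]
  rw [he] at h
  exact h

/-- The integral over the torus of the divergence of a periodic `C^1` vector field vanishes. -/
theorem integral_div_eq_zero (G : Fin 3 → R3 → ℝ) (hd : ∀ i, Differentiable ℝ (G i))
    (hc : Continuous (fun x => ∑ i, dX i (G i) x)) (hper : ∀ i, Per (G i)) :
    ∫ x in Box3, ∑ i, dX i (G i) x = 0 := by
  have h := integral_divergence_of_hasFDerivAt_off_countable' (0 : R3) 1 zero_le_one G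
    (fun i x => fderiv ℝ (G i) x) ∅ countable_empty (fun i => (hd i).continuous.continuousOn)
    (fun x _ i => (hd i x).hasFDerivAt) (hc.continuousOn.integrableOn_compact isCompact_Icc)
  have h' : ∫ x in Box3, ∑ i, dX i (G i) x = _ := h
  rw [h']
  apply Finset.sum_eq_zero
  intro i _
  rw [sub_eq_zero]
  congr 1
  funext x
  have h1 : i.insertNth ((1 : R3) i) x = i.insertNth ((0 : R3) i) x + ee i := by
    funext j
    by_cases hj : j = i
    · subst hj; simp [ee]
    · obtain ⟨k, rfl⟩ := Fin.exists_succAbove_eq hj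
      simp [ee]
  rw [h1, per_shift (hper i)]

/-! ### Calculus of `dX` -/

section calculus

variable {a b : R3 → ℝ} {x : R3} {j : Fin 3}

theorem dX_mul (ha : DifferentiableAt ℝ a x) (hb : DifferentiableAt ℝ b x) :
    dX j (fun y => a y * b y) x = dX j a x * b x + a x * dX j b x := by
  simp only [dX, fderiv_fun_mul ha hb]
  simp
  ring

theorem dX_add (ha : DifferentiableAt ℝ a x) (hb : DifferentiableAt ℝ b x) :
    dX j (fun y => a y + b y) x = dX j a x + dX j b x := by
  simp only [dX, fderiv_fun_add ha hb]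
  simp

theorem dX_sub (ha : DifferentiableAt ℝ a x) (hb : DifferentiableAt ℝ b x) :
    dX j (fun y => a y - b y) x = dX j a x - dX j b x := by
  simp only [dX, fderiv_fun_sub ha hb]
  simp

theorem dX_const_mul (c : ℝ) (ha : DifferentiableAt ℝ a x) :
    dX j (fun y => c * a y) x = c * dX j a x := by
  simp only [dX, fderiv_const_mul ha c]
  simp

theorem dX_fin_sum {f : Fin 3 → R3 → ℝ} (hf : ∀ i, DifferentiableAt ℝ (f i) x) :
    dX j (fun y => ∑ i, f i y) x = ∑ i, dX j (f i) x := by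
  simp only [dX, fderiv_fun_sum (fun i _ => hf i)]
  simp

theorem contDiff_dX {F : Type*} [NormedAddCommGroup F] [NormedSpace ℝ F] {n : WithTop ℕ∞}
    {f : R3 → F} (hf : ContDiff ℝ (n + 1) f) (j : Fin 3) :
    ContDiff ℝ n (dX j f) :=
  (hf.fderiv_right le_rfl).clm_apply contDiff_const

theorem per_dX {F : Type*} [NormedAddCommGroup F] [NormedSpace ℝ F] {f : R3 → F} (hf : Per f)
    (j : Fin 3) : Per (dX j f) := by
  intro x k
  have h1 : fderiv ℝ (fun y => f (y + fun i => (k i : ℝ))) x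
      = fderiv ℝ f (x + fun i => (k i : ℝ)) := fderiv_comp_add_right _
  have h2 : (fun y => f (y + fun i => (k i : ℝ))) = f := funext fun y => hf y k
  rw [h2] at h1
  simp only [dX, ← h1]

end calculus

theorem neg_mul_le_of_abs {p a s K : ℝ} (hp : |p| ≤ s) (ha : |a| ≤ K) : -(p * a) ≤ K * s := by
  have h1 : -(p * a) ≤ |p * a| := neg_le_abs _
  have h2 : |p * a| = |p| * |a| := abs_mul _ _
  have h3 : |p| * |a| ≤ s * K := mul_le_mul hp ha (abs_nonneg _) (le_trans (abs_nonneg _) hp)
  linarith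

theorem abs_mul_le_half_sq (p q : ℝ) : |p * q| ≤ (p ^ 2 + q ^ 2) / 2 := by
  rw [abs_le]
  constructor <;> nlinarith [sq_nonneg (p + q), sq_nonneg (p - q)]

/-- The spatial energy inequality. -/
theorem energy_inequality (ν K : ℝ) (hν : 0 ≤ ν) (W V : Fin 3 → R3 → ℝ) (Q : R3 → ℝ)
    (A : Fin 3 → Fin 3 → R3 → ℝ)
    (hW : ∀ i, ContDiff ℝ 2 (W i)) (hV : ∀ i, ContDiff ℝ 1 (V i)) (hQ : ContDiff ℝ 1 Q)
    (hA : ∀ i j, Continuous (A i j))
    (pW : ∀ i, Per (W i)) (pV : ∀ i, Per (V i)) (pQ : Per Q)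
    (divW : ∀ x, ∑ j, dX j (W j) x = 0) (divV : ∀ x, ∑ j, dX j (V j) x = 0)
    (hK : ∀ x ∈ Box3, ∀ i j, |A i j x| ≤ K) :
    ∫ x in Box3, ∑ i, W i x * (-(∑ j, (V j x * dX j (W i) x + W j x * A i j x)) - dX i Q x
        + ν * ∑ j, dX j (dX j (W i)) x)
      ≤ 3 * K * ∫ x in Box3, ∑ i, W i x ^ 2 := by
  have dW : ∀ i, Differentiable ℝ (W i) := fun i => (hW i).differentiable (by norm_num)
  have dV : ∀ i, Differentiable ℝ (V i) := fun i => (hV i).differentiable (by norm_num)
  have dQ : Differentiable ℝ Q := hQ.differentiable (by norm_num)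
  have cdW : ∀ i j, ContDiff ℝ 1 (dX j (W i)) := fun i j => contDiff_dX (n := 1) (hW i) j
  have ddW : ∀ i j, Differentiable ℝ (dX j (W i)) := fun i j =>
    (cdW i j).differentiable (by norm_num)
  have cW : ∀ i, Continuous (W i) := fun i => (hW i).continuous
  have cV : ∀ i, Continuous (V i) := fun i => (hV i).continuous
  have cQ : Continuous Q := hQ.continuous
  have c1W : ∀ i j, Continuous (dX j (W i)) := fun i j => (cdW i j).continuous
  have c2W : ∀ i j k, Continuous (dX k (dX j (W i))) := fun i j k =>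
    (contDiff_dX (n := 0) (cdW i j) k).continuous
  have c1V : ∀ i j, Continuous (dX j (V i)) := fun i j =>
    (contDiff_dX (n := 0) (hV i) j).continuous
  have c1Q : ∀ j, Continuous (dX j Q) := fun j => (contDiff_dX (n := 0) hQ j).continuous
  -- the flux
  let G : Fin 3 → R3 → ℝ := fun j y =>
    (-(1 / 2)) * (V j y * ∑ i, W i y * W i y) - W j y * Q y + ν * ∑ i, W i y * dX j (W i) y
  have hGd : ∀ j, Differentiable ℝ (G j) := by
    intro j
    have h1 : Differentiable ℝ (fun y => ∑ i, W i y * W i y) :=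
      Differentiable.fun_sum (fun i _ => (dW i).mul (dW i))
    have h2 : Differentiable ℝ (fun y => ∑ i, W i y * dX j (W i) y) :=
      Differentiable.fun_sum (fun i _ => (dW i).mul (ddW i j))
    exact ((((dV j).mul h1).const_mul _).sub ((dW j).mul dQ)).add (h2.const_mul _)
  have hGdX : ∀ j x, dX j (G j) x =
      (-(1 / 2)) * (dX j (V j) x * (∑ i, W i x * W i x)
        + V j x * ∑ i, (dX j (W i) x * W i x + W i x * dX j (W i) x))
      - (dX j (W j) x * Q x + W j x * dX j Q x)
      + ν * ∑ i, (dX j (W i) x * dX j (W i) x + W i x * dX j (dX j (W i)) x) := by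
    intro j x
    have h1 : DifferentiableAt ℝ (fun y => ∑ i, W i y * W i y) x :=
      (Differentiable.fun_sum (fun i _ => (dW i).mul (dW i))) x
    have h2 : DifferentiableAt ℝ (fun y => ∑ i, W i y * dX j (W i) y) x :=
      (Differentiable.fun_sum (fun i _ => (dW i).mul (ddW i j))) x
    have m1 : ∀ i, DifferentiableAt ℝ (fun y => W i y * W i y) x := fun i =>
      (dW i x).fun_mul (dW i x)
    have m2 : ∀ i, DifferentiableAt ℝ (fun y => W i y * dX j (W i) y) x := fun i =>
      (dW i x).fun_mul (ddW i j x)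
    have e1 : dX j (fun y => ∑ i, W i y * W i y) x
        = ∑ i, (dX j (W i) x * W i x + W i x * dX j (W i) x) := by
      rw [dX_fin_sum m1]
      exact Finset.sum_congr rfl (fun i _ => dX_mul (dW i x) (dW i x))
    have e2 : dX j (fun y => ∑ i, W i y * dX j (W i) y) x
        = ∑ i, (dX j (W i) x * dX j (W i) x + W i x * dX j (dX j (W i)) x) := by
      rw [dX_fin_sum m2]
      exact Finset.sum_congr rfl (fun i _ => dX_mul (dW i x) (ddW i j x))
    have m3 : DifferentiableAt ℝ (fun y => V j y * ∑ i, W i y * W i y) x := (dV j x).fun_mul h1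
    have m4 : DifferentiableAt ℝ (fun y => (-(1 / 2)) * (V j y * ∑ i, W i y * W i y)) x :=
      m3.const_mul _
    have m5 : DifferentiableAt ℝ (fun y => W j y * Q y) x := (dW j x).fun_mul (dQ x)
    have m6 : DifferentiableAt ℝ (fun y => ν * ∑ i, W i y * dX j (W i) y) x := h2.const_mul _
    have m7 : DifferentiableAt ℝ
        (fun y => (-(1 / 2)) * (V j y * ∑ i, W i y * W i y) - W j y * Q y) x := m4.fun_sub m5
    show dX j (fun y => (-(1 / 2)) * (V j y * ∑ i, W i y * W i y) - W j y * Q y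
      + ν * ∑ i, W i y * dX j (W i) y) x = _
    rw [dX_add m7 m6, dX_sub m4 m5, dX_const_mul _ m3, dX_mul (dV j x) h1, dX_mul (dW j x) (dQ x),
      dX_const_mul _ h2, e1, e2]
  have hGc : Continuous (fun x => ∑ j, dX j (G j) x) := by
    simp only [hGdX]
    fun_prop
  have hGp : ∀ j, Per (G j) := by
    intro j x k
    simp only [G, pV j x k, pQ x k, per_dX (pW _) j x k, pW _ x k]
  have hdiv := integral_div_eq_zero G hGd hGc hGp
  -- pointwise bound
  have hpt : ∀ x ∈ Box3, ∑ i, W i x * (-(∑ j, (V j x * dX j (W i) x + W j x * A i j x)) - dX i Q x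
        + ν * ∑ j, dX j (dX j (W i)) x)
      ≤ (∑ j, dX j (G j) x) + 3 * K * ∑ i, W i x ^ 2 := by
    intro x hx
    have hB : ∀ i j, -(W i x * W j x * A i j x) ≤ K * ((W i x ^ 2 + W j x ^ 2) / 2) := fun i j =>
      neg_mul_le_of_abs (abs_mul_le_half_sq _ _) (hK x hx i j)
    have hdW := divW x
    have hdV := divV x
    simp only [hGdX]
    simp only [Fin.sum_univ_three] at hdW hdV ⊢
    have hsq : 0 ≤ ν * (dX 0 (W 0) x ^ 2 + dX 0 (W 1) x ^ 2 + dX 0 (W 2) x ^ 2
        + dX 1 (W 0) x ^ 2 + dX 1 (W 1) x ^ 2 + dX 1 (W 2) x ^ 2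
        + dX 2 (W 0) x ^ 2 + dX 2 (W 1) x ^ 2 + dX 2 (W 2) x ^ 2) := by positivity
    have b00 := hB 0 0
    have b01 := hB 0 1
    have b02 := hB 0 2
    have b10 := hB 1 0
    have b11 := hB 1 1
    have b12 := hB 1 2
    have b20 := hB 2 0
    have b21 := hB 2 1
    have b22 := hB 2 2
    have key : (W 0 x * (-(V 0 x * dX 0 (W 0) x + W 0 x * A 0 0 x + (V 1 x * dX 1 (W 0) x
          + W 1 x * A 0 1 x) + (V 2 x * dX 2 (W 0) x + W 2 x * A 0 2 x)) - dX 0 Q x
          + ν * (dX 0 (dX 0 (W 0)) x + dX 1 (dX 1 (W 0)) x + dX 2 (dX 2 (W 0)) x))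
        + W 1 x * (-(V 0 x * dX 0 (W 1) x + W 0 x * A 1 0 x + (V 1 x * dX 1 (W 1) x
          + W 1 x * A 1 1 x) + (V 2 x * dX 2 (W 1) x + W 2 x * A 1 2 x)) - dX 1 Q x
          + ν * (dX 0 (dX 0 (W 1)) x + dX 1 (dX 1 (W 1)) x + dX 2 (dX 2 (W 1)) x))
        + W 2 x * (-(V 0 x * dX 0 (W 2) x + W 0 x * A 2 0 x + (V 1 x * dX 1 (W 2) x
          + W 1 x * A 2 1 x) + (V 2 x * dX 2 (W 2) x + W 2 x * A 2 2 x)) - dX 2 Q x
          + ν * (dX 0 (dX 0 (W 2)) x + dX 1 (dX 1 (W 2)) x + dX 2 (dX 2 (W 2)) x)))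
        - ((-(1 / 2) * (dX 0 (V 0) x * (W 0 x * W 0 x + W 1 x * W 1 x + W 2 x * W 2 x)
            + V 0 x * (dX 0 (W 0) x * W 0 x + W 0 x * dX 0 (W 0) x
              + (dX 0 (W 1) x * W 1 x + W 1 x * dX 0 (W 1) x)
              + (dX 0 (W 2) x * W 2 x + W 2 x * dX 0 (W 2) x)))
          - (dX 0 (W 0) x * Q x + W 0 x * dX 0 Q x)
          + ν * (dX 0 (W 0) x * dX 0 (W 0) x + W 0 x * dX 0 (dX 0 (W 0)) x
              + (dX 0 (W 1) x * dX 0 (W 1) x + W 1 x * dX 0 (dX 0 (W 1)) x)
              + (dX 0 (W 2) x * dX 0 (W 2) x + W 2 x * dX 0 (dX 0 (W 2)) x)))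
          + (-(1 / 2) * (dX 1 (V 1) x * (W 0 x * W 0 x + W 1 x * W 1 x + W 2 x * W 2 x)
            + V 1 x * (dX 1 (W 0) x * W 0 x + W 0 x * dX 1 (W 0) x
              + (dX 1 (W 1) x * W 1 x + W 1 x * dX 1 (W 1) x)
              + (dX 1 (W 2) x * W 2 x + W 2 x * dX 1 (W 2) x)))
          - (dX 1 (W 1) x * Q x + W 1 x * dX 1 Q x)
          + ν * (dX 1 (W 0) x * dX 1 (W 0) x + W 0 x * dX 1 (dX 1 (W 0)) x
              + (dX 1 (W 1) x * dX 1 (W 1) x + W 1 x * dX 1 (dX 1 (W 1)) x)
              + (dX 1 (W 2) x * dX 1 (W 2) x + W 2 x * dX 1 (dX 1 (W 2)) x)))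
          + (-(1 / 2) * (dX 2 (V 2) x * (W 0 x * W 0 x + W 1 x * W 1 x + W 2 x * W 2 x)
            + V 2 x * (dX 2 (W 0) x * W 0 x + W 0 x * dX 2 (W 0) x
              + (dX 2 (W 1) x * W 1 x + W 1 x * dX 2 (W 1) x)
              + (dX 2 (W 2) x * W 2 x + W 2 x * dX 2 (W 2) x)))
          - (dX 2 (W 2) x * Q x + W 2 x * dX 2 Q x)
          + ν * (dX 2 (W 0) x * dX 2 (W 0) x + W 0 x * dX 2 (dX 2 (W 0)) x
              + (dX 2 (W 1) x * dX 2 (W 1) x + W 1 x * dX 2 (dX 2 (W 1)) x)
              + (dX 2 (W 2) x * dX 2 (W 2) x + W 2 x * dX 2 (dX 2 (W 2)) x))))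
        = (1 / 2) * (W 0 x * W 0 x + W 1 x * W 1 x + W 2 x * W 2 x)
            * (dX 0 (V 0) x + dX 1 (V 1) x + dX 2 (V 2) x)
          + Q x * (dX 0 (W 0) x + dX 1 (W 1) x + dX 2 (W 2) x)
          - ν * (dX 0 (W 0) x ^ 2 + dX 0 (W 1) x ^ 2 + dX 0 (W 2) x ^ 2
            + dX 1 (W 0) x ^ 2 + dX 1 (W 1) x ^ 2 + dX 1 (W 2) x ^ 2
            + dX 2 (W 0) x ^ 2 + dX 2 (W 1) x ^ 2 + dX 2 (W 2) x ^ 2)
          + (-(W 0 x * W 0 x * A 0 0 x) + -(W 0 x * W 1 x * A 0 1 x) + -(W 0 x * W 2 x * A 0 2 x)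
            + -(W 1 x * W 0 x * A 1 0 x) + -(W 1 x * W 1 x * A 1 1 x) + -(W 1 x * W 2 x * A 1 2 x)
            + -(W 2 x * W 0 x * A 2 0 x) + -(W 2 x * W 1 x * A 2 1 x)
            + -(W 2 x * W 2 x * A 2 2 x)) := by ring
    rw [hdW, hdV] at key
    linarith
  have hint1 : IntegrableOn (fun x => ∑ i, W i x * (-(∑ j, (V j x * dX j (W i) x
      + W j x * A i j x)) - dX i Q x + ν * ∑ j, dX j (dX j (W i)) x)) Box3 := by
    apply Continuous.integrableOn_Icc
    fun_prop
  have hint2 : IntegrableOn (fun x => ∑ j, dX j (G j) x) Box3 := hGc.integrableOn_Icc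
  have hint3 : IntegrableOn (fun x => ∑ i, W i x ^ 2) Box3 := by
    apply Continuous.integrableOn_Icc
    fun_prop
  calc ∫ x in Box3, ∑ i, W i x * (-(∑ j, (V j x * dX j (W i) x + W j x * A i j x)) - dX i Q x
        + ν * ∑ j, dX j (dX j (W i)) x)
      ≤ ∫ x in Box3, ((∑ j, dX j (G j) x) + 3 * K * ∑ i, W i x ^ 2) :=
        setIntegral_mono_on hint1 (hint2.add (hint3.const_mul _)) measurableSet_Icc hpt
    _ = (∫ x in Box3, ∑ j, dX j (G j) x) + ∫ x in Box3, 3 * K * ∑ i, W i x ^ 2 :=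
        integral_add hint2 (hint3.const_mul _)
    _ = 3 * K * ∫ x in Box3, ∑ i, W i x ^ 2 := by
        rw [hdiv, zero_add, integral_const_mul]

theorem isCompact_Box3 : IsCompact Box3 := isCompact_Icc

/-- slices of a jointly continuous function -/
theorem continuous_slice {F : Type*} [TopologicalSpace F] {T : ℝ} {g : ℝ → R3 → F}
    (hg : ContinuousOn (fun z : ℝ × R3 => g z.1 z.2) (Icc (0 : ℝ) T ×ˢ univ)) {t : ℝ}
    (ht : t ∈ Icc (0 : ℝ) T) : Continuous (g t) := by
  have h1 : Continuous (fun x : R3 => ((t, x) : ℝ × R3)) := by fun_prop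
  have h2 := hg.comp_continuous h1 (fun x => ⟨ht, mem_univ _⟩)
  exact h2

theorem continuousWithinAt_time {F : Type*} [TopologicalSpace F] {T : ℝ} {g : ℝ → R3 → F}
    (hg : ContinuousOn (fun z : ℝ × R3 => g z.1 z.2) (Icc (0 : ℝ) T ×ˢ univ)) {t : ℝ}
    (ht : t ∈ Icc (0 : ℝ) T) (x : R3) : ContinuousWithinAt (fun s => g s x) (Icc (0 : ℝ) T) t := by
  have h1 : ContinuousOn (fun s : ℝ => ((s, x) : ℝ × R3)) (Icc (0 : ℝ) T) := by fun_prop
  have h2 : ContinuousOn (fun s => g s x) (Icc (0 : ℝ) T) :=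
    hg.comp h1 (fun s hs => ⟨hs, mem_univ _⟩)
  exact h2 t ht

theorem exists_bound_box {F : Type*} [SeminormedAddCommGroup F] {T : ℝ} {g : ℝ → R3 → F}
    (hg : ContinuousOn (fun z : ℝ × R3 => g z.1 z.2) (Icc (0 : ℝ) T ×ˢ univ)) :
    ∃ C : ℝ, ∀ t ∈ Icc (0 : ℝ) T, ∀ x ∈ Box3, ‖g t x‖ ≤ C := by
  have hK : IsCompact (Icc (0 : ℝ) T ×ˢ Box3) := isCompact_Icc.prod isCompact_Box3
  obtain ⟨C, hC⟩ := hK.exists_bound_of_continuousOn
    (hg.mono (prod_mono_right (subset_univ _)))
  exact ⟨C, fun t ht x hx => hC (t, x) ⟨ht, hx⟩⟩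

theorem continuousOn_integral_box {T : ℝ} {g : ℝ → R3 → ℝ}
    (hg : ContinuousOn (fun z : ℝ × R3 => g z.1 z.2) (Icc (0 : ℝ) T ×ˢ univ)) :
    ContinuousOn (fun t => ∫ x in Box3, g t x) (Icc (0 : ℝ) T) := by
  obtain ⟨C, hC⟩ := exists_bound_box hg
  intro t ht
  apply continuousWithinAt_of_dominated (bound := fun _ => C)
  · filter_upwards [self_mem_nhdsWithin] with s hs
    exact (continuous_slice hg hs).aestronglyMeasurable
  · filter_upwards [self_mem_nhdsWithin] with s hs
    rw [ae_restrict_iff' measurableSet_Icc]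
    exact Eventually.of_forall (fun x hx => hC s hs x hx)
  · exact integrableOn_const (by simp [Real.volume_Icc_pi]) 
  · exact Eventually.of_forall (fun x => continuousWithinAt_time hg ht x)

theorem hasDerivAt_integral_box {T : ℝ} {g g' : ℝ → R3 → ℝ}
    (hg : ContinuousOn (fun z : ℝ × R3 => g z.1 z.2) (Icc (0 : ℝ) T ×ˢ univ))
    (hg' : ContinuousOn (fun z : ℝ × R3 => g' z.1 z.2) (Icc (0 : ℝ) T ×ˢ univ))
    (hder : ∀ t ∈ Ioo (0 : ℝ) T, ∀ x, HasDerivAt (fun s => g s x) (g' t x) t)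
    {t : ℝ} (ht : t ∈ Ioo (0 : ℝ) T) :
    HasDerivAt (fun t => ∫ x in Box3, g t x) (∫ x in Box3, g' t x) t := by
  obtain ⟨C, hC⟩ := exists_bound_box hg'
  have hmem : Ioo (0 : ℝ) T ∈ 𝓝 t := Ioo_mem_nhds ht.1 ht.2
  have h := hasDerivAt_integral_of_dominated_loc_of_deriv_le (μ := volume.restrict Box3)
    (F := g) (F' := g') (x₀ := t) (bound := fun _ => C) (s := Ioo (0 : ℝ) T) hmem
    (by
      filter_upwards [hmem] with s hs
      exact (continuous_slice hg (Ioo_subset_Icc_self hs)).aestronglyMeasurable)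
    ((continuous_slice hg (Ioo_subset_Icc_self ht)).integrableOn_Icc)
    ((continuous_slice hg' (Ioo_subset_Icc_self ht)).aestronglyMeasurable)
    (by
      rw [ae_restrict_iff' measurableSet_Icc]
      exact Eventually.of_forall (fun x hx s hs => hC s (Ioo_subset_Icc_self hs) x hx))
    (integrableOn_const (by simp [Real.volume_Icc_pi]))
    (Eventually.of_forall (fun x s hs => hder s hs x))
  exact h.2

/-- Abstract energy argument (Gronwall). -/
theorem energy_zero {T C : ℝ} (w wt : ℝ → R3 → R3)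
    (hw : ContinuousOn (fun z : ℝ × R3 => w z.1 z.2) (Icc (0 : ℝ) T ×ˢ univ))
    (hwt : ContinuousOn (fun z : ℝ × R3 => wt z.1 z.2) (Icc (0 : ℝ) T ×ˢ univ))
    (hder : ∀ t ∈ Ioo (0 : ℝ) T, ∀ x, HasDerivAt (fun s => w s x) (wt t x) t)
    (h0 : ∀ x, w 0 x = 0)
    (hineq : ∀ t ∈ Ioo (0 : ℝ) T, ∫ x in Box3, ∑ i, w t x i * wt t x i
      ≤ C * ∫ x in Box3, ∑ i, w t x i ^ 2) :
    ∀ t ∈ Icc (0 : ℝ) T, ∫ x in Box3, ∑ i, w t x i ^ 2 = 0 := by
  set E : ℝ → ℝ := fun t => ∫ x in Box3, ∑ i, w t x i ^ 2 with hE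
  have hwi : ∀ i, ContinuousOn (fun z : ℝ × R3 => w z.1 z.2 i) (Icc (0 : ℝ) T ×ˢ univ) :=
    fun i => (continuous_apply i).comp_continuousOn hw
  have hwti : ∀ i, ContinuousOn (fun z : ℝ × R3 => wt z.1 z.2 i) (Icc (0 : ℝ) T ×ˢ univ) :=
    fun i => (continuous_apply i).comp_continuousOn hwt
  have hg : ContinuousOn (fun z : ℝ × R3 => ∑ i, w z.1 z.2 i ^ 2) (Icc (0 : ℝ) T ×ˢ univ) :=
    continuousOn_finsetSum _ (fun i _ => (hwi i).pow 2)
  have hg' : ContinuousOn (fun z : ℝ × R3 => 2 * ∑ i, w z.1 z.2 i * wt z.1 z.2 i)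
      (Icc (0 : ℝ) T ×ˢ univ) :=
    continuousOn_const.mul (continuousOn_finsetSum _ (fun i _ => (hwi i).mul (hwti i)))
  have hEc : ContinuousOn E (Icc (0 : ℝ) T) :=
    continuousOn_integral_box (g := fun t x => ∑ i, w t x i ^ 2) hg
  have hEd : ∀ t ∈ Ioo (0 : ℝ) T,
      HasDerivAt E (∫ x in Box3, 2 * ∑ i, w t x i * wt t x i) t := by
    intro t ht
    apply hasDerivAt_integral_box (g := fun t x => ∑ i, w t x i ^ 2)
      (g' := fun t x => 2 * ∑ i, w t x i * wt t x i) hg hg' _ ht
    intro s hs x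
    have h1 : ∀ i, HasDerivAt (fun r => w r x i) (wt s x i) s := fun i =>
      (hasDerivAt_pi.1 (hder s hs x)) i
    have h2 : HasDerivAt (fun r => ∑ i, w r x i ^ 2) (∑ i, 2 * w s x i ^ (2 - 1) * wt s x i) s := by
      have := HasDerivAt.fun_sum (u := Finset.univ) (fun i _ => (h1 i).pow 2)
      simpa using this
    have h3 : 2 * ∑ i, w s x i * wt s x i = ∑ i, 2 * w s x i ^ (2 - 1) * wt s x i := by
      rw [Finset.mul_sum]
      apply Finset.sum_congr rfl
      intro i _
      ring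
    rw [h3]
    exact h2
  have hEnn : ∀ t, 0 ≤ E t := fun t =>
    integral_nonneg (fun x => Finset.sum_nonneg (fun i _ => sq_nonneg _))
  have hE0 : E 0 = 0 := by
    simp only [hE, h0]
    simp
  set φ : ℝ → ℝ := fun t => E t * Real.exp (-(2 * C) * t) with hφ
  have hexp : ∀ t, HasDerivAt (fun t : ℝ => Real.exp (-(2 * C) * t))
      (Real.exp (-(2 * C) * t) * (-(2 * C))) t := by
    intro t
    have := ((hasDerivAt_id t).const_mul (-(2 * C))).exp
    simpa using this
  have hφd : ∀ t ∈ Ioo (0 : ℝ) T, HasDerivAt φ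
      ((∫ x in Box3, 2 * ∑ i, w t x i * wt t x i) * Real.exp (-(2 * C) * t)
        + E t * (Real.exp (-(2 * C) * t) * (-(2 * C)))) t :=
    fun t ht => (hEd t ht).mul (hexp t)
  have hanti : AntitoneOn φ (Icc (0 : ℝ) T) := by
    apply antitoneOn_of_deriv_nonpos (convex_Icc 0 T)
    · exact hEc.mul (Continuous.continuousOn (by fun_prop))
    · rw [interior_Icc]
      exact fun t ht => (hφd t ht).differentiableAt.differentiableWithinAt
    · rw [interior_Icc]
      intro t ht
      rw [(hφd t ht).deriv, integral_const_mul]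
      have h1 := hineq t ht
      have h2 : 0 < Real.exp (-(2 * C) * t) := Real.exp_pos _
      have h3 : (2 * ∫ x in Box3, ∑ i, w t x i * wt t x i) - 2 * C * E t ≤ 0 := by
        simp only [hE]
        linarith
      nlinarith
  intro t ht
  have h1 : φ t ≤ φ 0 := hanti (left_mem_Icc.2 (ht.1.trans ht.2)) ht ht.1
  have h2 : φ 0 = 0 := by simp [hφ, hE0]
  have h3 : 0 < Real.exp (-(2 * C) * t) := Real.exp_pos _
  have h4 : E t * Real.exp (-(2 * C) * t) ≤ 0 := by rw [← h2]; exact h1
  have h5 : E t ≤ 0 := by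
    by_contra hcon
    push Not at hcon
    have := mul_pos hcon h3
    linarith
  exact le_antisymm h5 (hEnn t)

theorem Box3_subset_closure_interior : Box3 ⊆ closure (interior Box3) := by
  have h1 : Box3 = Set.pi univ (fun _ : Fin 3 => Icc (0 : ℝ) 1) := by
    ext x
    simp [Box3, Set.mem_Icc, Pi.le_def]
  rw [h1, interior_pi_set finite_univ, closure_pi_set]
  intro x hx i hi
  rw [interior_Icc, closure_Ioo (by norm_num)]
  exact hx i hi

theorem exists_shift_mem_box (x : R3) : ∃ k : Fin 3 → ℤ, (x + fun i => (k i : ℝ)) ∈ Box3 := by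
  refine ⟨fun i => -⌊x i⌋, ?_, ?_⟩
  · intro i
    simp only [Pi.zero_apply, Pi.add_apply, Int.cast_neg]
    linarith [Int.floor_le (x i)]
  · intro i
    simp only [Pi.one_apply, Pi.add_apply, Int.cast_neg]
    linarith [Int.lt_floor_add_one (x i)]

/-- a continuous periodic field with vanishing `L^2` norm on the box vanishes -/
theorem eq_zero_of_integral_sq {g : R3 → R3} (hc : Continuous g) (hp : Per g)
    (h : ∫ x in Box3, ∑ i, g x i ^ 2 = 0) : ∀ x, g x = 0 := by
  have hcs : Continuous (fun x => ∑ i, g x i ^ 2) := by fun_prop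
  have h1 : (fun x => ∑ i, g x i ^ 2) =ᵐ[volume.restrict Box3] 0 :=
    (setIntegral_eq_zero_iff_of_nonneg_ae
      (Eventually.of_forall (fun x => Finset.sum_nonneg (fun i _ => sq_nonneg _)))
      hcs.integrableOn_Icc).1 h
  have h2 : EqOn (fun x => ∑ i, g x i ^ 2) 0 Box3 :=
    Measure.eqOn_of_ae_eq h1 hcs.continuousOn continuousOn_const Box3_subset_closure_interior
  intro x
  obtain ⟨k, hk⟩ := exists_shift_mem_box x
  have h3 := h2 hk
  simp only [Pi.zero_apply] at h3
  rw [hp x k] at h3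
  funext i
  have h4 := (Finset.sum_eq_zero_iff_of_nonneg (fun i _ => sq_nonneg (g x i))).1 h3 i
    (Finset.mem_univ i)
  simpa using h4


theorem dX_comp_apply {g : R3 → R3} {x : R3} (hg : DifferentiableAt ℝ g x) (i j : Fin 3) :
    dX j (fun y => g y i) x = dX j g x i := by
  have h := (hasFDerivAt_pi'.1 hg.hasFDerivAt i).fderiv
  simp only [dX, h]
  rfl

theorem norm_ee (j : Fin 3) : ‖ee j‖ = 1 := by
  have h := Pi.norm_single (G := fun _ : Fin 3 => ℝ) (i := j) (1 : ℝ)
  simpa [ee] using h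

/-- **Uniqueness of classical solutions** of the forced Navier-Stokes system on the torus. -/
theorem uniqueness {ν T : ℝ} (hν : 0 ≤ ν) {f u v : ℝ → R3 → R3} {p π : ℝ → R3 → ℝ}
    (hu : ClassicalSol ν T f u p) (hv : ClassicalSol ν T f v π) :
    ∀ t ∈ Icc (0 : ℝ) T, v t = u t ∧ π t = p t := by
  obtain ⟨K, hK⟩ := exists_bound_box (g := fun t x => fderiv ℝ (u t) x) hu.cont_du
  -- spatial facts at a fixed time
  have spatial : ∀ t ∈ Icc (0 : ℝ) T,
      ∫ x in Box3, ∑ i, (v t x - u t x) i *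
        (derivWithin (fun s => v s x) (Icc (0 : ℝ) T) t
          - derivWithin (fun s => u s x) (Icc (0 : ℝ) T) t) i
      ≤ 3 * K * ∫ x in Box3, ∑ i, (v t x - u t x) i ^ 2 := by
    intro t ht
    have su := hu.smooth_u t ht
    have sv := hv.smooth_u t ht
    have du : Differentiable ℝ (u t) := su.differentiable (by norm_num)
    have dv : Differentiable ℝ (v t) := sv.differentiable (by norm_num)
    have sui : ∀ i, ContDiff ℝ 2 (fun x => u t x i) := fun i => contDiff_pi.1 su i
    have svi : ∀ i, ContDiff ℝ 2 (fun x => v t x i) := fun i => contDiff_pi.1 sv i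
    have dui : ∀ i, Differentiable ℝ (fun x => u t x i) := fun i =>
      (sui i).differentiable (by norm_num)
    have dvi : ∀ i, Differentiable ℝ (fun x => v t x i) := fun i =>
      (svi i).differentiable (by norm_num)
    have ddu : ∀ j, Differentiable ℝ (dX j (u t)) := fun j =>
      (contDiff_dX (n := 1) su j).differentiable (by norm_num)
    have ddv : ∀ j, Differentiable ℝ (dX j (v t)) := fun j =>
      (contDiff_dX (n := 1) sv j).differentiable (by norm_num)
    have dp : Differentiable ℝ (p t) := (hu.smooth_p t ht).differentiable (by norm_num)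
    have dπ : Differentiable ℝ (π t) := (hv.smooth_p t ht).differentiable (by norm_num)
    let W : Fin 3 → R3 → ℝ := fun i x => v t x i - u t x i
    let V : Fin 3 → R3 → ℝ := fun i x => v t x i
    let Q : R3 → ℝ := fun x => π t x - p t x
    let A : Fin 3 → Fin 3 → R3 → ℝ := fun i j x => dX j (u t) x i
    have L1 : ∀ i j x, dX j (W i) x = dX j (v t) x i - dX j (u t) x i := by
      intro i j x
      show dX j (fun y => v t y i - u t y i) x = _
      rw [dX_sub (dvi i x) (dui i x), dX_comp_apply (dv x), dX_comp_apply (du x)]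
    have L2 : ∀ i j x, dX j (dX j (W i)) x
        = dX j (dX j (v t)) x i - dX j (dX j (u t)) x i := by
      intro i j x
      have h1 : dX j (W i) = fun y => dX j (v t) y i - dX j (u t) y i := funext (L1 i j)
      have h2 : DifferentiableAt ℝ (fun y => dX j (v t) y i) x :=
        differentiableAt_pi.1 (ddv j x) i
      have h3 : DifferentiableAt ℝ (fun y => dX j (u t) y i) x :=
        differentiableAt_pi.1 (ddu j x) i
      rw [h1, dX_sub h2 h3, dX_comp_apply (ddv j x), dX_comp_apply (ddu j x)]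
    have L3 : ∀ i x, dX i Q x = dX i (π t) x - dX i (p t) x := fun i x => dX_sub (dπ x) (dp x)
    have LV : ∀ i j x, dX j (V i) x = dX j (v t) x i := fun i j x => dX_comp_apply (dv x) i j
    have key := energy_inequality ν K hν W V Q A
      (fun i => (svi i).sub (sui i)) (fun i => (svi i).of_le (by norm_num))
      ((hv.smooth_p t ht).sub (hu.smooth_p t ht))
      (fun i j => (continuous_apply i).comp (contDiff_dX (n := 1) su j).continuous)
      (fun i x k => by
        show v t _ i - u t _ i = v t x i - u t x i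
        rw [hv.per_u t ht x k, hu.per_u t ht x k])
      (fun i x k => by
        show v t _ i = v t x i
        rw [hv.per_u t ht x k])
      (fun x k => by
        show π t _ - p t _ = π t x - p t x
        rw [hv.per_p t ht x k, hu.per_p t ht x k])
      (fun x => by
        simp only [L1]
        rw [Finset.sum_sub_distrib, hv.div_free t ht x, hu.div_free t ht x, sub_zero])
      (fun x => by
        simp only [LV]
        exact hv.div_free t ht x)
      (fun x hx i j => by
        have h1 : |dX j (u t) x i| ≤ ‖dX j (u t) x‖ := norm_le_pi_norm (dX j (u t) x) i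
        have h2 : ‖dX j (u t) x‖ ≤ ‖fderiv ℝ (u t) x‖ * ‖ee j‖ :=
          ContinuousLinearMap.le_opNorm _ _
        rw [norm_ee, mul_one] at h2
        exact h1.trans (h2.trans (hK t ht x hx)))
    have hEq : ∀ x, ∑ i, (v t x - u t x) i *
        (derivWithin (fun s => v s x) (Icc (0 : ℝ) T) t
          - derivWithin (fun s => u s x) (Icc (0 : ℝ) T) t) i
        = ∑ i, W i x * (-(∑ j, (V j x * dX j (W i) x + W j x * A i j x)) - dX i Q x
        + ν * ∑ j, dX j (dX j (W i)) x) := by
      intro x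
      apply Finset.sum_congr rfl
      intro i _
      have mv := hv.momentum t ht x i
      have mu := hu.momentum t ht x i
      simp only [L1, L2, L3, W, V, A, Pi.sub_apply, Finset.sum_sub_distrib]
      congr 1
      have e1 : ∑ j, (v t x j * (dX j (v t) x i - dX j (u t) x i)
          + (v t x j - u t x j) * dX j (u t) x i)
          = ∑ j, v t x j * dX j (v t) x i - ∑ j, u t x j * dX j (u t) x i := by
        rw [← Finset.sum_sub_distrib]
        apply Finset.sum_congr rfl
        intro j _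
        ring
      rw [e1]
      linear_combination mv - mu
    simp only [hEq]
    exact key
  -- the energy argument
  have hzero := energy_zero (T := T) (C := 3 * K) (fun t x => v t x - u t x)
    (fun t x => derivWithin (fun s => v s x) (Icc (0 : ℝ) T) t
      - derivWithin (fun s => u s x) (Icc (0 : ℝ) T) t)
    (hv.cont_u.sub hu.cont_u) (hv.cont_ut.sub hu.cont_ut)
    (fun t ht x =>
      ((hv.diff_t t (Ioo_subset_Icc_self ht) x).hasDerivWithinAt.hasDerivAt
        (Icc_mem_nhds ht.1 ht.2)).sub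
      ((hu.diff_t t (Ioo_subset_Icc_self ht) x).hasDerivWithinAt.hasDerivAt
        (Icc_mem_nhds ht.1 ht.2)))
    (fun x => by rw [hv.init, hu.init, sub_zero])
    (fun t ht => spatial t (Ioo_subset_Icc_self ht))
  have hvu : ∀ t ∈ Icc (0 : ℝ) T, v t = u t := by
    intro t ht
    have h1 := eq_zero_of_integral_sq (g := fun x => v t x - u t x)
      ((hv.smooth_u t ht).continuous.sub (hu.smooth_u t ht).continuous)
      (fun x k => by
        show v t _ - u t _ = v t x - u t x
        rw [hv.per_u t ht x k, hu.per_u t ht x k])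
      (hzero t ht)
    funext x
    exact sub_eq_zero.1 (h1 x)
  intro t ht
  refine ⟨hvu t ht, ?_⟩
  have dp : Differentiable ℝ (p t) := (hu.smooth_p t ht).differentiable (by norm_num)
  have dπ : Differentiable ℝ (π t) := (hv.smooth_p t ht).differentiable (by norm_num)
  have hgrad : ∀ x i, dX i (π t) x = dX i (p t) x := by
    intro x i
    have mv := hv.momentum t ht x i
    have mu := hu.momentum t ht x i
    have h1 : derivWithin (fun s => v s x) (Icc (0 : ℝ) T) t
        = derivWithin (fun s => u s x) (Icc (0 : ℝ) T) t :=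
      derivWithin_congr (fun s hs => by rw [hvu s hs]) (by rw [hvu t ht])
    rw [h1, hvu t ht] at mv
    linarith
  have hfd : ∀ x, fderiv ℝ (fun y => π t y - p t y) x = 0 := by
    intro x
    rw [fderiv_fun_sub (dπ x) (dp x)]
    ext y
    have h1 : ∀ L : R3 →L[ℝ] ℝ, L y = ∑ i, y i • L (ee i) := by
      intro L
      have h0 := LinearMap.pi_apply_eq_sum_univ L.toLinearMap y
      have he : ∀ i : Fin 3, (fun j => if i = j then (1 : ℝ) else 0) = ee i := by
        intro i
        funext j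
        by_cases hij : i = j
        · subst hij; simp [ee]
        · simp [ee, hij]
      simp only [he] at h0
      exact h0
    have h2 : (fderiv ℝ (π t) x) y = (fderiv ℝ (p t) x) y := by
      rw [h1, h1]
      exact Finset.sum_congr rfl (fun i _ => by rw [show fderiv ℝ (π t) x (ee i)
        = fderiv ℝ (p t) x (ee i) from hgrad x i])
    simp [h2]
  have hconst : ∀ x, π t x - p t x = π t 0 - p t 0 := fun x =>
    is_const_of_fderiv_eq_zero (dπ.fun_sub dp) hfd x 0
  have hint : ∫ x in Box3, (π t x - p t x) = 0 := by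
    rw [integral_sub (hv.smooth_p t ht).continuous.integrableOn_Icc
      (hu.smooth_p t ht).continuous.integrableOn_Icc, hv.mean_p t ht, hu.mean_p t ht, sub_zero]
  simp only [hconst] at hint
  rw [setIntegral_const] at hint
  have hvol : (volume : Measure R3).real Box3 = 1 := by
    simp [Measure.real, Real.volume_Icc_pi]
  rw [hvol, one_smul] at hint
  funext x
  have := hconst x
  linarith

end Vale.Agent.Lib.P113
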