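import Vale.Agent.Lib.P113.Orbit
import Vale.Agent.Lib.P113.Bisim
import Vale.Agent.Lib.P113.Uniqueness

/-!
# Assembly: everything except effectivity
-/

namespace Vale.Agent.Lib.P113

open Set

/-- The velocity attached to a machine and an input. -/
noncomputable def theVel (M : Machine) (w : List M.Sym) : ℝ → R3 → R3 :=
  vel M.mc (enc M.mc.B (initP M w).1) (enc M.mc.B (initP M w).2)

theorem GW_late (c : MC) (x0 y0 x0' y0' : ℝ) {j : ℕ} (hj : 4 ≤ j) :
    GW c x0 y0 j = GW c x0' y0' j := by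
  funext x
  unfold GW
  split <;> first | rfl | omega

theorem force_term_late (ν : ℝ) (c : MC) (x0 y0 : ℝ) {j : ℕ} (hj : j ≤ 3) {t : ℝ} (ht : 1 ≤ t)
    (x : R3) : deriv (prof j) t • VW c x0 y0 j x - (ν * prof j t) • lap (VW c x0 y0 j) x = 0 := by
  rw [deriv_prof_init_late hj (by linarith), prof_init_late hj (by linarith)]
  simp

theorem force_periodic (ν : ℝ) (c : MC) (x0 y0 : ℝ) {t : ℝ} (ht : 1 ≤ t) :
    force ν c x0 y0 (t + 1) = force ν c x0 y0 t := by
  funext x
  unfold force famForce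
  refine Finset.sum_congr rfl fun j _ => ?_
  by_cases hj : j ≤ 3
  · rw [force_term_late ν c x0 y0 hj ht, force_term_late ν c x0 y0 hj (by linarith)]
  · rw [deriv_prof_add_one (by omega), prof_add_one (by omega)]

theorem force_machine_only (ν : ℝ) (c : MC) (x0 y0 x0' y0' : ℝ) {t : ℝ} (ht : 1 ≤ t) :
    force ν c x0 y0 t = force ν c x0' y0' t := by
  funext x
  unfold force famForce
  refine Finset.sum_congr rfl fun j _ => ?_
  by_cases hj : j ≤ 3
  · rw [force_term_late ν c x0 y0 hj ht, force_term_late ν c x0' y0' hj ht]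
  · have : VW c x0 y0 j = VW c x0' y0' j := by
      unfold VW
      rw [GW_late c x0 y0 x0' y0' (by omega)]
    rw [this]

/-- Everything in Q1 except the effectivity of the forces. -/
theorem main_dynamics {ν : ℝ} (hν : 0 < ν) (M : Machine) (w : List M.Sym) :
    ∃ (u : ℝ → R3 → R3) (p : ℝ → R3 → ℝ) (X : ℝ → R3),
      GlobalSmoothSol ν (theForce ν M w) u p ∧ UniqueClassical ν (theForce ν M w) u p ∧
      IsTrajectory u 0 X ∧ (∀ X', IsTrajectory u 0 X' → ∀ t, 0 ≤ t → X' t = X t) ∧
      ((∃ t, 0 ≤ t ∧ X t ∈ Oset) ↔ M.Halts w) := by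
  have hc := M.code_valid
  have hsol := vel_sol hc ν (enc M.mc.B (initP M w).1) (enc M.mc.B (initP M w).2)
  have hw := vel_windowed M.mc (enc M.mc.B (initP M w).1) (enc M.mc.B (initP M w).2)
  have hind := gWin_indep M.mc (enc M.mc.B (initP M w).1) (enc M.mc.B (initP M w).2)
  have h16 : (0 : ℝ) < 16 := by norm_num
  have hX := trajX_isTrajectory (a := 0) h16 hw hind
  refine ⟨theVel M w, fun _ _ => 0, _, hsol, ?_, hX, ?_, ?_⟩
  · intro T hT v π hv
    exact uniqueness hν.le (hsol.classical T hT) hv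
  · intro X' hX' t ht
    have ht16 : 0 ≤ 16 * t := by positivity
    rw [traj_formula h16 hw hind hX' ⌊16 * t⌋₊ t (Nat.floor_le ht16) (Nat.lt_floor_add_one _).le,
      traj_formula h16 hw hind hX ⌊16 * t⌋₊ t (Nat.floor_le ht16) (Nat.lt_floor_add_one _).le]
  · rw [orbit_iff hc (M.init_WF w) hX, M.halts_iff w]
    rfl

end Vale.Agent.Lib.P113
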