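import Vale.Agent.Lib.P113.Defs

/-!
# P113: from a uniformly computable approximation to a compiler (s-m-n)
-/

namespace Vale.Agent.Lib.P113

open Nat.Partrec Encodable

/-- s-m-n in typed form: a computable function of two arguments is computed, for each value of the
first argument, by a program obtained computably from that value. -/
theorem exists_curried_code {α β γ : Type*} [Primcodable α] [Primcodable β] [Primcodable γ]
    (g : α × β → γ) (hg : Computable g) :
    ∃ comp : α → Code, Computable comp ∧
      ∀ a b, (comp a).eval (encode b) = Part.some (encode (g (a, b))) := by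
  obtain ⟨c0, hc0⟩ := Code.exists_code.1 hg
  refine ⟨fun a => Code.curry c0 (encode a), ?_, ?_⟩
  · exact (Code.primrec₂_curry.comp (Primrec.const c0) Primrec.encode).to_comp
  · intro a b
    rw [Code.eval_curry, hc0]
    have : Nat.pair (encode a) (encode b) = encode (a, b) := rfl
    rw [this]
    simp

/-- The compiler: it returns, for each input, a program which answers every query by the value of
the uniformly computable approximation at the accuracy demanded by the query. -/
theorem exists_compiler_eval (A : CompilerInput × Query → ℕ → QCode) (hA : Computable₂ A) :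
    ∃ comp : CompilerInput → Code, Computable comp ∧ ∀ inp (Q : Query),
      (comp inp).eval (encode Q) = Part.some (encode (A (inp, Q) Q.2.2.2.2)) := by
  have hg : Computable (fun x : CompilerInput × Query => A x x.2.2.2.2.2) :=
    hA.comp Computable.id (Computable.snd.comp (Computable.snd.comp (Computable.snd.comp
      (Computable.snd.comp Computable.snd))))
  exact exists_curried_code _ hg

theorem exists_compiler {F : CompilerInput → Query → ℝ} (A : CompilerInput × Query → ℕ → QCode)
    (hA : Computable₂ A) (h : ∀ x k, |qval (A x k) - F x.1 x.2| ≤ 1 / ((k : ℝ) + 1)) :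
    ∃ comp : CompilerInput → Code, Computable comp ∧ ∀ inp (Q : Query), ∃ r : QCode,
      (comp inp).eval (encode Q) = Part.some (encode r) ∧
        |qval r - F inp Q| ≤ 1 / ((Q.2.2.2.2 : ℝ) + 1) := by
  obtain ⟨comp, h1, h2⟩ := exists_compiler_eval A hA
  exact ⟨comp, h1, fun inp Q => ⟨_, h2 inp Q, h (inp, Q) _⟩⟩

/-- Version in which the approximation is only known to be correct on a set of good inputs. -/
theorem exists_compiler_on (P : CompilerInput → Prop) {F : CompilerInput → Query → ℝ}
    (A : CompilerInput × Query → ℕ → QCode) (hA : Computable₂ A)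
    (h : ∀ x k, P x.1 → |qval (A x k) - F x.1 x.2| ≤ 1 / ((k : ℝ) + 1)) :
    ∃ comp : CompilerInput → Code, Computable comp ∧ ∀ inp, P inp → ∀ Q : Query, ∃ r : QCode,
      (comp inp).eval (encode Q) = Part.some (encode r) ∧
        |qval r - F inp Q| ≤ 1 / ((Q.2.2.2.2 : ℝ) + 1) := by
  obtain ⟨comp, h1, h2⟩ := exists_compiler_eval A hA
  exact ⟨comp, h1, fun inp hP Q => ⟨_, h2 inp Q, h (inp, Q) _ hP⟩⟩

end Vale.Agent.Lib.P113
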