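import Vale.Agent.Lib.P113.ForceFormula
import Vale.Agent.Lib.P113.FamComp
import Vale.Agent.Lib.P113.AtomComp
import Vale.Agent.Lib.P113.CompStep
import Vale.Agent.Lib.P113.Smn
import Vale.Agent.Lib.P113.Main

/-!
# P113: the force family is produced by an algorithm
-/

namespace Vale.Agent.Lib.P113

open Set

/-- Index of one term of the force: compiler input, query, window, rule. -/
abbrev ZZ : Type := ((((CompilerInput × Query) × ℕ) × ℕ) × ℕ) × ℕ

def zc (z : ZZ) : MC := z.1.1.1.1.1.1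
def zW (z : ZZ) : List ℕ := z.1.1.1.1.1.2
def zQ (z : ZZ) : Query := z.1.1.1.1.2
def zj (z : ZZ) : ℕ := z.1.1.1.2 + 2
def zidx (z : ZZ) : Idx := (z.1.1.2, z.1.2, z.2)

theorem pr_zX : Primrec (fun z : ZZ => z.1.1.1.1) :=
  Primrec.fst.comp (Primrec.fst.comp (Primrec.fst.comp Primrec.fst))
theorem pr_zc : Primrec zc := Primrec.fst.comp (Primrec.fst.comp pr_zX)
theorem pr_zW : Primrec zW := Primrec.snd.comp (Primrec.fst.comp pr_zX)
theorem pr_zQ : Primrec zQ := Primrec.snd.comp pr_zX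
theorem pr_zj : Primrec zj :=
  Primrec.nat_add.comp (Primrec.snd.comp (Primrec.fst.comp (Primrec.fst.comp Primrec.fst)))
    (Primrec.const 2)
theorem pr_zidx : Primrec zidx :=
  Primrec.pair (Primrec.snd.comp (Primrec.fst.comp Primrec.fst))
    (Primrec.pair (Primrec.snd.comp Primrec.fst) Primrec.snd)

/-- The time of a query, as a code. -/
def qTime (Q : Query) : QCode := (Q.2.2.1.1, 0, Q.2.2.1.2)

theorem qval_qTime (Q : Query) : qval (qTime Q) = (Q.2.2.1.1 : ℝ) / ((Q.2.2.1.2 : ℝ) + 1) := by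
  simp [qval, qTime]

theorem pr_qTime : Primrec qTime :=
  Primrec.pair (Primrec.fst.comp (Primrec.fst.comp (Primrec.snd.comp Primrec.snd)))
    (Primrec.pair (Primrec.const 0)
      (Primrec.snd.comp (Primrec.fst.comp (Primrec.snd.comp Primrec.snd))))

/-- The point of a query. -/
noncomputable def qPoint (Q : Query) : R3 :=
  ![qval Q.2.2.2.1.1, qval Q.2.2.2.1.2.1, qval Q.2.2.2.1.2.2]

theorem pr_qP : Primrec (fun Q : Query => Q.2.2.2.1) :=
  Primrec.fst.comp (Primrec.snd.comp (Primrec.snd.comp Primrec.snd))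

/-- One term of the mixed derivative asked for by a query. -/
noncomputable def termZ (ν : ℝ) (z : ZZ) : ℝ :=
  termW ν (zc z) (qenc (zc z).B [0]) (qenc (zc z).B (zW z)) (zQ z).1 (cnt (zQ z).2.1)
    (qval (qTime (zQ z))) (qPoint (zQ z)) (zj z) (zidx z)

theorem compFun_termZ {ν : ℝ} (hν : ComputableReal ν) : CompFun (termZ ν) := by
  have hS := compFun_sstep
  have hl : Primrec (fun z : ZZ => (zQ z).2.1) := Primrec.fst.comp (Primrec.snd.comp pr_zQ)
  have hn : ∀ a : Fin 4, Primrec (fun z : ZZ => cnt (zQ z).2.1 a) :=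
    fun a => pr_cnt' hl (Primrec.const a)
  have hn' : ∀ (a : Fin 4) (k : ℕ), Primrec (fun z : ZZ => cnt (zQ z).2.1 a + k) :=
    fun a k => Primrec.nat_add.comp (hn a) (Primrec.const k)
  have ht : Primrec (fun z : ZZ => qTime (zQ z)) := pr_qTime.comp pr_zQ
  have hx0 : Primrec (fun z : ZZ => (zQ z).2.2.2.1.1) := Primrec.fst.comp (pr_qP.comp pr_zQ)
  have hx1 : Primrec (fun z : ZZ => (zQ z).2.2.2.1.2.1) :=
    Primrec.fst.comp (Primrec.snd.comp (pr_qP.comp pr_zQ))
  have hx2 : Primrec (fun z : ZZ => (zQ z).2.2.2.1.2.2) :=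
    Primrec.snd.comp (Primrec.snd.comp (pr_qP.comp pr_zQ))
  have hgA : Primrec (fun z : ZZ => gA (zc z) (zj z) (zidx z)) := pr_gA' pr_zc pr_zj pr_zidx
  have hgB : Primrec (fun z : ZZ => gB (zc z) (zj z) (zidx z)) := pr_gB' pr_zc pr_zj pr_zidx
  have hgC : Primrec (fun z : ZZ => gC (zj z)) := pr_gC' pr_zj
  have hdir : CompFun (fun z : ZZ => qval (gdir (zj z) (zQ z).1)) :=
    CompFun.of_qval (pr_gdir' pr_zj (Primrec.fst.comp pr_zQ)).to_comp
  have hco : CompFun (fun z : ZZ =>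
      qval (gco (zc z) (qenc (zc z).B [0]) (qenc (zc z).B (zW z)) (zj z) (zidx z))) :=
    CompFun.of_qval (pr_gco' pr_zc (pr_qenc' (pr_B' pr_zc) (Primrec.const [0]))
      (pr_qenc' (pr_B' pr_zc) pr_zW) pr_zj pr_zidx).to_comp
  have hP : ∀ k : ℕ, CompFun (fun z : ZZ =>
      profD (cnt (zQ z).2.1 0 + k) (zj z) (qval (qTime (zQ z)))) := fun k =>
    (compFun_profD hS).comp (g := fun z : ZZ => (cnt (zQ z).2.1 0 + k, zj z, qTime (zQ z)))
      ((hn' 0 k).pair (pr_zj.pair ht)).to_comp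
  have hA : ∀ k : ℕ, CompFun (fun z : ZZ =>
      atomD (cnt (zQ z).2.1 1 + k) (gA (zc z) (zj z) (zidx z)) (qval (zQ z).2.2.2.1.1)) := fun k =>
    (compFun_atomD hS).comp
      (g := fun z : ZZ => (cnt (zQ z).2.1 1 + k, gA (zc z) (zj z) (zidx z), (zQ z).2.2.2.1.1))
      ((hn' 1 k).pair (hgA.pair hx0)).to_comp
  have hB : ∀ k : ℕ, CompFun (fun z : ZZ =>
      atomD (cnt (zQ z).2.1 2 + k) (gB (zc z) (zj z) (zidx z)) (qval (zQ z).2.2.2.1.2.1)) := fun k =>
    (compFun_atomD hS).comp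
      (g := fun z : ZZ => (cnt (zQ z).2.1 2 + k, gB (zc z) (zj z) (zidx z), (zQ z).2.2.2.1.2.1))
      ((hn' 2 k).pair (hgB.pair hx1)).to_comp
  have hC : ∀ k : ℕ, CompFun (fun z : ZZ =>
      atomD (cnt (zQ z).2.1 3 + k) (gC (zj z)) (qval (zQ z).2.2.2.1.2.2)) := fun k =>
    (compFun_atomD hS).comp
      (g := fun z : ZZ => (cnt (zQ z).2.1 3 + k, gC (zj z), (zQ z).2.2.2.1.2.2))
      ((hn' 3 k).pair (hgC.pair hx2)).to_comp
  have hν' : CompFun (fun _ : ZZ => ν) := CompFun.const hν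
  have main := (hdir.mul hco).mul
    (((((hP 1).mul (hA 0)).mul (hB 0)).mul (hC 0)).sub
      (hν'.mul ((hP 0).mul
        (((((hA 2).mul (hB 0)).mul (hC 0)).add (((hA 0).mul (hB 2)).mul (hC 0))).add
          (((hA 0).mul (hB 0)).mul (hC 2))))))
  refine main.congr fun z => ?_
  simp [termZ, termW, qPoint]

/-- The value asked for by a query, as an explicit finite sum. -/
noncomputable def valZ (ν : ℝ) (X : CompilerInput × Query) : ℝ :=
  ∑ j ∈ Finset.range 12, ∑ a ∈ Finset.range (2 * MC.m X.1.1), ∑ b ∈ Finset.range (MC.D X.1.1),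
    ∑ d ∈ Finset.range (MC.D X.1.1), termZ ν ((((X, j), a), b), d)

theorem compFun_valZ {ν : ℝ} (hν : ComputableReal ν) : CompFun (valZ ν) := by
  have h3 := (compFun_termZ hν).sum_range
    (N := fun z : (((CompilerInput × Query) × ℕ) × ℕ) × ℕ => MC.D z.1.1.1.1.1)
    (pr_D' (Primrec.fst.comp (Primrec.fst.comp (Primrec.fst.comp
      (Primrec.fst.comp Primrec.fst))))).to_comp
  have h2 := h3.sum_range
    (N := fun z : ((CompilerInput × Query) × ℕ) × ℕ => MC.D z.1.1.1.1)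
    (pr_D' (Primrec.fst.comp (Primrec.fst.comp (Primrec.fst.comp Primrec.fst)))).to_comp
  have h1 := h2.sum_range
    (N := fun z : (CompilerInput × Query) × ℕ => 2 * MC.m z.1.1.1)
    (Primrec.nat_mul.comp (Primrec.const 2)
      (pr_m' (Primrec.fst.comp (Primrec.fst.comp Primrec.fst)))).to_comp
  exact h1.sum_range (N := fun _ : CompilerInput × Query => 12) (Computable.const 12)

theorem JW_eq : JW = Finset.Ico 2 14 := by
  ext j
  simp [JW]
  omega

theorem valZ_eq {ν : ℝ} {c : MC} (hc : c.Valid) (W : List ℕ) (Q : Query) :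
    valZ ν ((c, W), Q) = mixedDeriv Q.2.1 (fun t x => force ν c (enc c.B [0]) (enc c.B W) t x Q.1)
      ((Q.2.2.1.1 : ℝ) / ((Q.2.2.1.2 : ℝ) + 1))
      ![qval Q.2.2.2.1.1, qval Q.2.2.2.1.2.1, qval Q.2.2.2.1.2.2] := by
  have hB : 0 < c.B := by have := c.four_le_B; omega
  rw [← qval_qenc hB, ← qval_qenc hB,
    force_mixed (fun j h2 h13 n t => iteratedDeriv_prof h2 h13 n t) hc, JW_eq,
    Finset.sum_Ico_eq_sum_range]
  unfold valZ MC.I
  refine Finset.sum_congr rfl fun j _ => ?_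
  rw [Finset.sum_product]
  refine Finset.sum_congr rfl fun a _ => ?_
  rw [Finset.sum_product]
  refine Finset.sum_congr rfl fun b _ => Finset.sum_congr rfl fun d _ => ?_
  simp only [termZ, zc, zW, zQ, zj, zidx, qval_qTime, qPoint, add_comm j 2]

/-- The forces `theForce ν M w` are the outputs of an algorithm. -/
theorem exists_force_compiler {ν : ℝ} (hν : ComputableReal ν) :
    ∃ comp : CompilerInput → Nat.Partrec.Code, Computable comp ∧
      ∀ (M : Machine) (w : List M.Sym),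
        IsProgramFor (comp (M.code, w.map fun s : M.Sym => s.val)) (theForce ν M w) := by
  obtain ⟨A, hA, h⟩ := compFun_valZ hν
  obtain ⟨comp, h1, h2⟩ := exists_compiler (F := fun inp Q => valZ ν (inp, Q)) A hA h
  refine ⟨comp, h1, fun M w Q => ?_⟩
  obtain ⟨r, hr1, hr2⟩ := h2 (M.code, w.map fun s : M.Sym => s.val) Q
  refine ⟨r, hr1, ?_⟩
  have e := valZ_eq (ν := ν) M.code_valid (w.map fun s : M.Sym => s.val) Q
  rw [e] at hr2
  exact hr2

/-- Question Q1 for every computable viscosity. -/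
theorem haltingDetection {ν : ℝ} (h0 : 0 < ν) (hν : ComputableReal ν) : HaltingDetection ν := by
  obtain ⟨comp, h1, h2⟩ := exists_force_compiler hν
  exact ⟨0, Oset, comp, theForce ν, 1, Oset_open, Oset_per,
    ⟨h1, fun M _ => force_smooth M.code_valid ν _ _, h2,
      fun _ => ⟨1, one_pos, fun _ _ ht => force_periodic ν _ _ _ ht⟩,
      fun _ _ _ _ ht => force_machine_only ν _ _ _ _ _ ht⟩,
    fun M w => main_dynamics h0 M w⟩

end Vale.Agent.Lib.P113
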