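import Mathlib
import Vale.Agent.Lib.P113.Defs

/-!
# P113: rational approximation of `exp (-r)` with an explicit rate
-/

namespace Vale.Agent.Lib.P113

/-- `(1 - r/N)^N` approximates `exp (-r)` within `r^2/N`, for `0 ≤ r ≤ N`. -/
theorem exp_neg_approx {r : ℝ} (hr : 0 ≤ r) {N : ℕ} (hN0 : 0 < N) (hN : r ≤ N) :
    |Real.exp (-r) - (1 - r / N) ^ N| ≤ r ^ 2 / N := by
  have hNpos : (0 : ℝ) < N := by exact_mod_cast hN0
  obtain ⟨y, hy⟩ : ∃ y : ℝ, y = r / N := ⟨_, rfl⟩
  rw [← hy]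
  have hy0 : 0 ≤ y := by rw [hy]; exact div_nonneg hr hNpos.le
  have hy1 : y ≤ 1 := by rw [hy, div_le_one hNpos]; exact hN
  have hNy : (N : ℝ) * y = r := by rw [hy]; field_simp
  have hexp : Real.exp (-r) = Real.exp (-y) ^ N := by
    rw [← Real.exp_nat_mul, ← hNy]; ring_nf
  have h1 : (1 - y) ^ N ≤ Real.exp (-y) ^ N := by
    apply pow_le_pow_left₀ (by linarith)
    have := Real.add_one_le_exp (-y)
    linarith
  have hy2 : y ^ 2 ≤ 1 := by nlinarith
  have h2 : (1 - y ^ 2) * Real.exp (-y) ≤ 1 - y := by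
    have h3 : Real.exp (-y) * (1 + y) ≤ 1 := by
      have h3a := Real.add_one_le_exp y
      have h4 : Real.exp (-y) * Real.exp y = 1 := by rw [← Real.exp_add]; simp
      nlinarith [Real.exp_pos (-y)]
    have h3b : (1 - y) * (Real.exp (-y) * (1 + y)) ≤ (1 - y) * 1 :=
      mul_le_mul_of_nonneg_left h3 (by linarith)
    nlinarith
  have h5 : ((1 - y ^ 2) * Real.exp (-y)) ^ N ≤ (1 - y) ^ N := by
    apply pow_le_pow_left₀ _ h2
    apply mul_nonneg _ (Real.exp_pos _).le
    linarith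
  have h6 : 1 - N * y ^ 2 ≤ (1 - y ^ 2) ^ N := by
    have h6a := one_add_mul_le_pow (a := -y ^ 2) (by linarith) N
    have h6b : (1 + -y ^ 2) = 1 - y ^ 2 := by ring
    rw [h6b] at h6a
    linarith
  have h7 : (N : ℝ) * y ^ 2 = r ^ 2 / N := by rw [hy]; field_simp
  have hE0 : 0 < Real.exp (-r) := Real.exp_pos _
  have hE1 : Real.exp (-r) ≤ 1 := by
    rw [Real.exp_le_one_iff]; linarith
  rw [mul_pow, ← hexp] at h5
  rw [← hexp] at h1
  have h8 : (1 - N * y ^ 2) * Real.exp (-r) ≤ (1 - y ^ 2) ^ N * Real.exp (-r) :=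
    mul_le_mul_of_nonneg_right h6 hE0.le
  have h9 : 0 ≤ (N : ℝ) * y ^ 2 := by positivity
  rw [abs_of_nonneg (by linarith), ← h7]
  nlinarith

theorem primrec_nat_pow : Primrec₂ ((· ^ ·) : ℕ → ℕ → ℕ) :=
  Primrec₂.unpaired'.1 Nat.Primrec.pow

/-- The number of factors used for accuracy `1/(k+1)` at the code `q`. -/
def glueN (q : QCode) (k : ℕ) : ℕ := (k + 1) * (q.2.2 + 1) ^ 2

/-- Rational approximation of `expNegInvGlue (qval q)` within `1/(k+1)`. -/
def glueApprox (q : QCode) (k : ℕ) : QCode :=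
  if q.1 ≤ q.2.1 then (0, 0, 0)
  else ((glueN q k * (q.1 - q.2.1) - (q.2.2 + 1)) ^ glueN q k, 0,
    (glueN q k * (q.1 - q.2.1)) ^ glueN q k - 1)

theorem primrec_glueN : Primrec₂ glueN := by
  unfold glueN
  exact Primrec.nat_mul.comp (Primrec.succ.comp Primrec.snd)
    (primrec_nat_pow.comp (Primrec.succ.comp (Primrec.snd.comp (Primrec.snd.comp Primrec.fst)))
      (Primrec.const 2))

theorem primrec_glueApprox : Primrec₂ glueApprox := by
  unfold glueApprox
  have hd : Primrec (fun p : QCode × ℕ => p.1.1 - p.1.2.1) :=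
    Primrec.nat_sub.comp (Primrec.fst.comp Primrec.fst)
      (Primrec.fst.comp (Primrec.snd.comp Primrec.fst))
  have hN : Primrec (fun p : QCode × ℕ => glueN p.1 p.2) := primrec_glueN
  have hNd : Primrec (fun p : QCode × ℕ => glueN p.1 p.2 * (p.1.1 - p.1.2.1)) :=
    Primrec.nat_mul.comp hN hd
  have hc : Primrec (fun p : QCode × ℕ => p.1.2.2 + 1) :=
    Primrec.succ.comp (Primrec.snd.comp (Primrec.snd.comp Primrec.fst))
  refine Primrec.ite (Primrec.nat_le.comp (Primrec.fst.comp Primrec.fst)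
      (Primrec.fst.comp (Primrec.snd.comp Primrec.fst))) (Primrec.const _) ?_
  refine Primrec.pair (primrec_nat_pow.comp (Primrec.nat_sub.comp hNd hc) hN)
    (Primrec.pair (Primrec.const 0) (Primrec.nat_sub.comp (primrec_nat_pow.comp hNd hN)
      (Primrec.const 1)))

theorem glueApprox_spec (q : QCode) (k : ℕ) :
    |qval (glueApprox q k) - expNegInvGlue (qval q)| ≤ 1 / ((k : ℝ) + 1) := by
  obtain ⟨a, b, c⟩ := q
  have hk : (0 : ℝ) < (k : ℝ) + 1 := by positivity
  have hc : (0 : ℝ) < (c : ℝ) + 1 := by positivity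
  by_cases hab : a ≤ b
  · have h1 : qval (a, b, c) ≤ 0 := by
      unfold qval
      apply div_nonpos_of_nonpos_of_nonneg _ hc.le
      have : (a : ℝ) ≤ b := by exact_mod_cast hab
      simpa using this
    rw [expNegInvGlue.zero_of_nonpos h1]
    simp only [glueApprox, if_pos hab]
    simp only [qval]
    simp only [Nat.cast_zero, sub_self, zero_div, abs_zero]
    positivity
  · have hab' : b < a := not_le.1 hab
    obtain ⟨d, hd⟩ : ∃ d : ℕ, d = a - b := ⟨_, rfl⟩
    have hd1 : 1 ≤ d := by omega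
    have hdR : (d : ℝ) = (a : ℝ) - b := by
      rw [hd, Nat.cast_sub hab'.le]
    have hd1R : (1 : ℝ) ≤ d := by exact_mod_cast hd1
    obtain ⟨N, hN⟩ : ∃ N : ℕ, N = glueN (a, b, c) k := ⟨_, rfl⟩
    have hNval : N = (k + 1) * (c + 1) ^ 2 := by rw [hN]; rfl
    have hNR : (N : ℝ) = ((k : ℝ) + 1) * ((c : ℝ) + 1) ^ 2 := by
      rw [hNval]; push_cast; ring
    have hN0 : 0 < N := by rw [hNval]; positivity
    have hNc : c + 1 ≤ N := by
      rw [hNval]
      nlinarith [Nat.zero_le k, Nat.zero_le c]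
    have hNd : c + 1 ≤ N * d := by nlinarith
    have hNd0 : 0 < N * d := by positivity
    have hA : glueApprox (a, b, c) k = ((N * d - (c + 1)) ^ N, 0, (N * d) ^ N - 1) := by
      simp only [glueApprox, if_neg hab]
      rw [← hN, ← hd]
    obtain ⟨r, hr⟩ : ∃ r : ℝ, r = ((c : ℝ) + 1) / d := ⟨_, rfl⟩
    have hdpos : (0 : ℝ) < d := by linarith
    have hr0 : 0 ≤ r := by rw [hr]; positivity
    have hrc : r ≤ (c : ℝ) + 1 := by
      rw [hr]; exact div_le_self hc.le hd1R
    have hrN : r ≤ N := by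
      have : ((c + 1 : ℕ) : ℝ) ≤ N := by exact_mod_cast hNc
      push_cast at this
      linarith
    have hq : qval (a, b, c) = r⁻¹ := by
      simp only [qval]
      rw [hr, ← hdR, inv_div]
    have hqpos : 0 < qval (a, b, c) := by
      simp only [qval]
      rw [← hdR]; positivity
    have hg : expNegInvGlue (qval (a, b, c)) = Real.exp (-r) := by
      unfold expNegInvGlue
      rw [if_neg (not_le.2 hqpos), hq, inv_inv]
    have hNRpos : (0 : ℝ) < N := by exact_mod_cast hN0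
    have hv : qval (glueApprox (a, b, c) k) = (1 - r / N) ^ N := by
      rw [hA]
      simp only [qval]
      have h1 : (((N * d) ^ N - 1 : ℕ) : ℝ) + 1 = ((N : ℝ) * d) ^ N := by
        have : 1 ≤ (N * d) ^ N := Nat.one_le_pow _ _ hNd0
        rw [Nat.cast_sub this]; push_cast; ring
      rw [h1]
      have h2 : (((N * d - (c + 1)) ^ N : ℕ) : ℝ) = ((N : ℝ) * d - (c + 1)) ^ N := by
        rw [Nat.cast_pow, Nat.cast_sub hNd]; push_cast; ring
      rw [h2, Nat.cast_zero, sub_zero, ← div_pow]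
      congr 1
      rw [hr]
      field_simp
    rw [hg, hv, abs_sub_comm]
    refine (exp_neg_approx hr0 hN0 hrN).trans ?_
    rw [div_le_div_iff₀ hNRpos hk, hNR]
    have : r ^ 2 ≤ ((c : ℝ) + 1) ^ 2 := by nlinarith
    nlinarith

/-- `q ↦ expNegInvGlue (qval q)` is computable on codes of rationals, in unfolded form. -/
theorem glue_computable : ∃ A : QCode → ℕ → QCode, Computable₂ A ∧
    ∀ q k, |qval (A q k) - expNegInvGlue (qval q)| ≤ 1 / ((k : ℝ) + 1) :=
  ⟨glueApprox, primrec_glueApprox.to_comp, glueApprox_spec⟩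

end Vale.Agent.Lib.P113
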