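import Vale.Agent.Lib.P113.Digits
import Vale.Agent.Lib.P113.Profile
import Vale.Agent.Lib.P113.AtomDefs

/-!
# Iterated derivatives of the one-variable building blocks

All iterated derivatives of `cutAff`, `fam`, `cyl`, `rep`, `kap`, `prof` are expressed through the
iterated derivatives of `sstep` at affine images of (the reduction modulo one of) the argument.
-/

namespace Vale.Agent.Lib.P113

open Set Filter Topology

/-- Affine chain rule for iterated derivatives. -/
theorem iteratedDeriv_comp_affine {f : ℝ → ℝ} (hf : ContDiff ℝ (⊤ : ℕ∞) f) (n : ℕ) (p q : ℝ) :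
    iteratedDeriv n (fun v => f (p * v + q)) = fun v => p ^ n * iteratedDeriv n f (p * v + q) := by
  have h1 : ContDiff ℝ n (fun z => f (z + q)) :=
    (hf.comp (contDiff_id.add contDiff_const)).of_le (by exact_mod_cast le_top)
  have h2 := iteratedDeriv_comp_const_mul h1 p
  rw [iteratedDeriv_comp_add_const] at h2
  exact h2

/-- `n`-th derivative of `v ↦ sstep (p v + q)`. -/
noncomputable def sD (n : ℕ) (p q v : ℝ) : ℝ := p ^ n * iteratedDeriv n sstep (p * v + q)

theorem iteratedDeriv_sstep_affine (n : ℕ) (p q : ℝ) :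
    iteratedDeriv n (fun v => sstep (p * v + q)) = fun v => sD n p q v :=
  iteratedDeriv_comp_affine sstep_contDiff n p q

/-- Leibniz rule for a smooth function times an affine function. -/
theorem iteratedDeriv_mul_affine {S : ℝ → ℝ} (hS : ContDiff ℝ (⊤ : ℕ∞) S) (α β : ℝ) (n : ℕ) :
    iteratedDeriv n (fun v => S v * (α * v + β)) = fun v =>
      iteratedDeriv n S v * (α * v + β) + (n : ℝ) * α * iteratedDeriv (n - 1) S v := by
  have hdiff : ∀ m : ℕ, ∀ v, HasDerivAt (iteratedDeriv m S) (iteratedDeriv (m + 1) S v) v := by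
    intro m v
    rw [iteratedDeriv_succ]
    have : Differentiable ℝ (iteratedDeriv m S) :=
      hS.differentiable_iteratedDeriv m (by exact_mod_cast WithTop.coe_lt_top _)
    exact (this v).hasDerivAt
  have haff : ∀ v : ℝ, HasDerivAt (fun v => α * v + β) α v := by
    intro v
    simpa using ((hasDerivAt_id v).const_mul α).add_const β
  induction n with
  | zero => funext v; simp
  | succ n ih =>
    rw [iteratedDeriv_succ, ih]
    funext v
    cases n with
    | zero =>
      have h := ((hdiff 0 v).mul (haff v))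
      have h' : HasDerivAt (fun v => iteratedDeriv 0 S v * (α * v + β)
          + ((0 : ℕ) : ℝ) * α * iteratedDeriv (0 - 1) S v)
          (iteratedDeriv (0 + 1) S v * (α * v + β)
            + ((0 + 1 : ℕ) : ℝ) * α * iteratedDeriv (0 + 1 - 1) S v) v := by
        have e : (fun v => iteratedDeriv 0 S v * (α * v + β)
          + ((0 : ℕ) : ℝ) * α * iteratedDeriv (0 - 1) S v)
            = fun v => iteratedDeriv 0 S v * (α * v + β) := by
          funext w; simp
        rw [e]
        refine h.congr_deriv ?_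
        simp
        ring
      exact h'.deriv
    | succ m =>
      have h := ((hdiff (m + 1) v).mul (haff v)).add
        ((hdiff m v).const_mul (((m + 1 : ℕ) : ℝ) * α))
      have h' : HasDerivAt (fun v => iteratedDeriv (m + 1) S v * (α * v + β)
          + ((m + 1 : ℕ) : ℝ) * α * iteratedDeriv (m + 1 - 1) S v)
          (iteratedDeriv (m + 1 + 1) S v * (α * v + β)
            + ((m + 1 + 1 : ℕ) : ℝ) * α * iteratedDeriv (m + 1 + 1 - 1) S v) v := by
        simp only [Nat.add_sub_cancel]
        refine h.congr_deriv ?_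
        push_cast
        ring
      exact h'.deriv

/-- The explicit `n`-th derivative of `cutAff`. -/
noncomputable def cutAffD (n : ℕ) (p1 q1 p2 q2 α β v : ℝ) : ℝ :=
  (sD n p1 q1 v - sD n p2 q2 v) * (α * v + β)
    + (n : ℝ) * α * (sD (n - 1) p1 q1 v - sD (n - 1) p2 q2 v)

theorem iteratedDeriv_plateau (n : ℕ) (p1 q1 p2 q2 : ℝ) :
    iteratedDeriv n (fun v => sstep (p1 * v + q1) - sstep (p2 * v + q2))
      = fun v => sD n p1 q1 v - sD n p2 q2 v := by
  funext v
  have h1 : ContDiffAt ℝ n (fun v : ℝ => sstep (p1 * v + q1)) v :=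
    ((sstep_contDiff.comp ((contDiff_const.mul contDiff_id).add contDiff_const)).of_le
      (by exact_mod_cast le_top)).contDiffAt
  have h2 : ContDiffAt ℝ n (fun v : ℝ => sstep (p2 * v + q2)) v :=
    ((sstep_contDiff.comp ((contDiff_const.mul contDiff_id).add contDiff_const)).of_le
      (by exact_mod_cast le_top)).contDiffAt
  have := iteratedDeriv_fun_sub h1 h2
  rw [this, iteratedDeriv_sstep_affine, iteratedDeriv_sstep_affine]

theorem iteratedDeriv_cutAff (n : ℕ) (p1 q1 p2 q2 α β v : ℝ) :
    iteratedDeriv n (cutAff p1 q1 p2 q2 α β) v = cutAffD n p1 q1 p2 q2 α β v := by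
  have hS : ContDiff ℝ (⊤ : ℕ∞) (fun v => sstep (p1 * v + q1) - sstep (p2 * v + q2)) :=
    (sstep_contDiff.comp ((contDiff_const.mul contDiff_id).add contDiff_const)).sub
      (sstep_contDiff.comp ((contDiff_const.mul contDiff_id).add contDiff_const))
  have e : cutAff p1 q1 p2 q2 α β
      = fun v => (sstep (p1 * v + q1) - sstep (p2 * v + q2)) * (α * v + β) := by
    funext w; rfl
  rw [e, iteratedDeriv_mul_affine hS α β n]
  simp only [iteratedDeriv_plateau, cutAffD]

/-- All derivatives of `fam`. -/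
theorem iteratedDeriv_fam {B : ℕ} (hB : 4 ≤ B) {u : List ℕ} (hu : Dig B u) (α β : ℝ)
    (n : ℕ) (x : ℝ) :
    iteratedDeriv n (fam B u α β) x =
      cutAffD n (4 * (B : ℝ) ^ u.length) (1 - 4 * (val B u : ℝ))
        (8 * (B : ℝ) ^ u.length) (-(8 * (val B u : ℝ)) - 2) α β (red x) := by
  unfold fam
  rw [iteratedDeriv_per (fam_support hB hu α β), iteratedDeriv_cutAff]

theorem iteratedDeriv_cyl {B : ℕ} (hB : 4 ≤ B) {u : List ℕ} (hu : Dig B u) (n : ℕ) (x : ℝ) :
    iteratedDeriv n (cyl B u) x =
      cutAffD n (4 * (B : ℝ) ^ u.length) (1 - 4 * (val B u : ℝ))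
        (8 * (B : ℝ) ^ u.length) (-(8 * (val B u : ℝ)) - 2) 0 1 (red x) :=
  iteratedDeriv_fam hB hu 0 1 n x

theorem iteratedDeriv_rep {B : ℕ} (hB : 4 ≤ B) {u : List ℕ} (hu : Dig B u) (u' : List ℕ)
    (n : ℕ) (x : ℝ) :
    iteratedDeriv n (rep B u u') x =
      cutAffD n (4 * (B : ℝ) ^ u.length) (1 - 4 * (val B u : ℝ))
        (8 * (B : ℝ) ^ u.length) (-(8 * (val B u : ℝ)) - 2)
        ((B : ℝ) ^ u.length / (B : ℝ) ^ u'.length - 1)
        (((val B u' : ℝ) - (val B u : ℝ)) / (B : ℝ) ^ u'.length) (red x) :=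
  iteratedDeriv_fam hB hu _ _ n x

theorem kap_support' : ∀ v : ℝ, 3 / 8 ≤ |v| → cutAff 8 3 8 (-2) 1 0 v = 0 := by
  intro v hv
  unfold cutAff
  rcases le_abs.1 hv with h | h
  · rw [sstep_of_one_le (by linarith), sstep_of_one_le (by linarith)]; simp
  · rw [sstep_of_nonpos (by linarith), sstep_of_nonpos (by linarith)]; simp

theorem iteratedDeriv_kap (n : ℕ) (x : ℝ) :
    iteratedDeriv n kap x = cutAffD n 8 3 8 (-2) 1 0 (red x) := by
  unfold kap
  rw [iteratedDeriv_per kap_support', iteratedDeriv_cutAff]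

theorem sstep'_eq_deriv : sstep' = deriv sstep := by
  rw [deriv_sstep]; rfl

theorem iteratedDeriv_sstep' (n : ℕ) : iteratedDeriv n sstep' = iteratedDeriv (n + 1) sstep := by
  rw [iteratedDeriv_succ', sstep'_eq_deriv]

/-- derivative of `t ↦ 16 * sstep' (16 t + q)` -/
theorem iteratedDeriv_window (n : ℕ) (q : ℝ) :
    iteratedDeriv n (fun t => 16 * sstep' (16 * t + q))
      = fun t => 16 ^ (n + 1) * iteratedDeriv (n + 1) sstep (16 * t + q) := by
  funext t
  rw [iteratedDeriv_const_mul_field, iteratedDeriv_comp_affine sstep'_contDiff,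
    iteratedDeriv_sstep']
  ring

/-- The point at which the `sstep` derivatives are evaluated for the profile `prof j`. -/
noncomputable def profArg (j : ℕ) (t : ℝ) : ℝ :=
  if j ≤ 3 then 16 * t - j else 16 * (red (t - 1 / 2) + 1 / 2) - j

/-- All derivatives of the time profiles. -/
theorem iteratedDeriv_prof' {j : ℕ} (h2 : 2 ≤ j) (h13 : j ≤ 13) (n : ℕ) (t : ℝ) :
    iteratedDeriv n (prof j) t = 16 ^ (n + 1) * iteratedDeriv (n + 1) sstep (profArg j t) := by
  by_cases hj : j ≤ 3
  · have e : prof j = fun t => 16 * sstep' (16 * t + (-(j : ℝ))) := by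
      funext s; rw [prof_init hj]; ring_nf
    rw [e, iteratedDeriv_window]
    simp only [profArg, hj, if_true]
    ring_nf
  · have e : prof j = fun t => per (fun v => 16 * sstep' (16 * (v + 1 / 2) - j)) (t - 1 / 2) := by
      funext s; simp [prof, hj]
    have e2 : (fun v : ℝ => 16 * sstep' (16 * (v + 1 / 2) - j))
        = fun v => 16 * sstep' (16 * v + (8 - (j : ℝ))) := by
      funext v; ring_nf
    rw [e, iteratedDeriv_comp_sub_const]
    show iteratedDeriv n (per fun v => 16 * sstep' (16 * (v + 1 / 2) - ↑j)) (t - 1 / 2) = _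
    rw [iteratedDeriv_per (prof_support h2 h13), e2, iteratedDeriv_window]
    simp only [profArg, hj, if_false]
    ring_nf

theorem iteratedDeriv_deriv_prof {j : ℕ} (h2 : 2 ≤ j) (h13 : j ≤ 13) (n : ℕ) (t : ℝ) :
    iteratedDeriv n (deriv (prof j)) t
      = 16 ^ (n + 2) * iteratedDeriv (n + 2) sstep (profArg j t) := by
  rw [← iteratedDeriv_succ', iteratedDeriv_prof' h2 h13]

theorem profD_eq (n j : ℕ) (t : ℝ) :
    profD n j t = 16 ^ (n + 1) * iteratedDeriv (n + 1) sstep (profArg j t) := by
  unfold profD profArg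
  split_ifs <;> rfl

/-- All derivatives of the time profiles, in the shape of `AtomDefs`. -/
theorem iteratedDeriv_prof {j : ℕ} (h2 : 2 ≤ j) (h13 : j ≤ 13) (n : ℕ) (t : ℝ) :
    iteratedDeriv n (prof j) t = profD n j t := by
  rw [iteratedDeriv_prof' h2 h13, profD_eq]

/-- The explicit formula for `atomD`. -/
theorem atomD_eq (n : ℕ) (a : ACode) (x : ℝ) :
    atomD n a x = cutAffD n (qval a.1) (qval a.2.1) (qval a.2.2.1) (qval a.2.2.2.1)
      (qval a.2.2.2.2.1) (qval a.2.2.2.2.2) (red x) := by
  unfold atomD aRaw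
  rw [iteratedDeriv_cutAff]

end Vale.Agent.Lib.P113
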