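import Vale.Agent.Lib.P113.Defs

/-!
# P113: the explicit force family (definitions only)
-/

namespace Vale.Agent.Lib.P113

/-- The standard bump `exp (-1/(x(1-x)))` on `(0,1)`, zero elsewhere. -/
noncomputable def bump (x : ℝ) : ℝ := expNegInvGlue x * expNegInvGlue (1 - x)

/-- Its total mass. -/
noncomputable def bumpMass : ℝ := ∫ x in (0 : ℝ)..1, bump x

/-- The smooth step: `0` on `(-∞,0]`, `1` on `[1,∞)`. -/
noncomputable def sstep (x : ℝ) : ℝ := (∫ y in (0 : ℝ)..x, bump y) / bumpMass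

/-- derivative of the step, as a named function -/
noncomputable def sstep' (x : ℝ) : ℝ := bump x / bumpMass

/-- Reduction of a real number modulo `1` to `[-1/2, 1/2)`. -/
noncomputable def red (x : ℝ) : ℝ := x - round x

/-- The `1`-periodic function that agrees with `g` on `[-1/2, 1/2)`. -/
noncomputable def per (g : ℝ → ℝ) (x : ℝ) : ℝ := g (red x)

/-- Integer value of a digit string in base `B` (most significant digit first). -/
def val (B : ℕ) : List ℕ → ℕ
  | [] => 0
  | d :: u => d * B ^ u.length + val B u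

/-- The real number `0.d₁d₂d₃…` in base `B`. -/
noncomputable def enc (B : ℕ) : List ℕ → ℝ
  | [] => 0
  | d :: l => ((d : ℝ) + enc B l) / B

/-- A plateau cut-off times an affine function. -/
noncomputable def cutAff (p1 q1 p2 q2 α β : ℝ) (v : ℝ) : ℝ :=
  (sstep (p1 * v + q1) - sstep (p2 * v + q2)) * (α * v + β)

/-- The periodic smooth function equal to `α x + β` on the cylinder of `u` and to `0` on the other
cylinders of the same depth. -/
noncomputable def fam (B : ℕ) (u : List ℕ) (α β : ℝ) : ℝ → ℝ :=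
  per (cutAff (4 * (B : ℝ) ^ u.length) (1 - 4 * (val B u : ℝ))
    (8 * (B : ℝ) ^ u.length) (-(8 * (val B u : ℝ)) - 2) α β)

/-- Indicator-like smooth function of the cylinder of `u`. -/
noncomputable def cyl (B : ℕ) (u : List ℕ) : ℝ → ℝ := fam B u 0 1

/-- On the cylinder of `u`: the displacement that replaces the leading digits `u` by `u'`. -/
noncomputable def rep (B : ℕ) (u u' : List ℕ) : ℝ → ℝ :=
  fam B u ((B : ℝ) ^ u.length / (B : ℝ) ^ u'.length - 1)
    (((val B u' : ℝ) - (val B u : ℝ)) / (B : ℝ) ^ u'.length)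

/-- Index type of the rewriting rules. -/
abbrev Idx : Type := ℕ × ℕ × ℕ

/-- The sum over all rules of (displacement replacing `pu` by `pu'` in the register) times
(indicator of the guard `pg` on the other register). -/
noncomputable def updF (B : ℕ) (I : Finset Idx) (pu pu' pg : Idx → List ℕ) (r o : ℝ) : ℝ :=
  ∑ i ∈ I, rep B (pu i) (pu' i) r * cyl B (pg i) o

/-- Raw machine descriptions. -/
abbrev MC : Type := ℕ × ℕ × List Bool × List (List (ℕ × ℕ × Bool))

namespace MC

/-- number of tape symbols -/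
def k (c : MC) : ℕ := c.1 + 1
/-- number of states -/
def m (c : MC) : ℕ := c.2.1 + 1
/-- halting flag -/
def hlt (c : MC) (q : ℕ) : Bool := c.2.2.1.getD q false
/-- transition table -/
def tr (c : MC) (q s : ℕ) : ℕ × ℕ × Bool := (c.2.2.2.getD q []).getD s (0, 0, false)
/-- number of digits -/
def D (c : MC) : ℕ := c.k * (2 * c.m + 1)
/-- base -/
def B (c : MC) : ℕ := 4 * c.D
/-- junk digit -/
def junk (c : MC) (a s : ℕ) : ℕ := c.k + a * c.k + s

/-- The rewriting table: for control digit `a`, top `t` of the left stack and top `cc` of the right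
stack, the strings replacing `[a, t]` and `[cc]`. -/
def table (c : MC) (i : Idx) : List ℕ × List ℕ :=
  if i.1 % 2 = 0 then
    if c.k ≤ i.2.2 then ([i.1, i.2.2, i.2.1], [])
    else if (c.tr (i.1 / 2) i.2.2).2.2 then
      ([2 * (c.tr (i.1 / 2) i.2.2).1, (c.tr (i.1 / 2) i.2.2).2.1, c.junk i.1 i.2.2, i.2.1], [])
    else
      ([2 * (c.tr (i.1 / 2) i.2.2).1 + 1, i.2.1], [(c.tr (i.1 / 2) i.2.2).2.1, c.junk i.1 i.2.2])
  else
    if c.k ≤ i.2.1 then ([i.1], [i.2.1, i.2.2])
    else if (c.tr (i.1 / 2) i.2.1).2.2 then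
      ([2 * (c.tr (i.1 / 2) i.2.1).1, (c.tr (i.1 / 2) i.2.1).2.1, c.junk i.1 i.2.1], [i.2.2])
    else
      ([2 * (c.tr (i.1 / 2) i.2.1).1 + 1], [(c.tr (i.1 / 2) i.2.1).2.1, c.junk i.1 i.2.1, i.2.2])

/-- The index set of the rules. -/
def I (c : MC) : Finset Idx :=
  Finset.range (2 * c.m) ×ˢ Finset.range c.D ×ˢ Finset.range c.D

/-- patterns of the three phases -/
def p1u (i : Idx) : List ℕ := [i.1, i.2.1]
def p1u' (i : Idx) : List ℕ := [i.1, i.2.1, i.2.2]
def p1g (i : Idx) : List ℕ := [i.2.2]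
def p2u' (c : MC) (i : Idx) : List ℕ := (c.table i).2
def p3u' (c : MC) (i : Idx) : List ℕ := (c.table i).1

end MC

/-- Time profile of window `j`: for `j ≤ 3` active only during `[j/16, (j+1)/16]`,
for `j ≥ 4` active during `[n + j/16, n + (j+1)/16]` for every integer `n`. -/
noncomputable def prof (j : ℕ) (t : ℝ) : ℝ :=
  if j ≤ 3 then 16 * sstep' (16 * t - j)
  else per (fun v => 16 * sstep' (16 * (v + 1 / 2) - j)) (t - 1 / 2)

/-- The componentwise Laplacian. -/
noncomputable def lap (W : R3 → R3) (x : R3) : R3 := ∑ k, dX k (dX k W) x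

/-- The force `∑ (ρ_j'(t) V_j(x) - ν ρ_j(t) ΔV_j(x))`. -/
noncomputable def famForce {ι : Type*} (J : Finset ι) (ρ : ι → ℝ → ℝ) (V : ι → R3 → R3) (ν : ℝ)
    (t : ℝ) (x : R3) : R3 :=
  ∑ j ∈ J, (deriv (ρ j) t • V j x - (ν * ρ j t) • lap (V j) x)

/-- The shear field `G(x) e_i`. -/
noncomputable def shearField (i : Fin 3) (G : R3 → ℝ) (x : R3) : R3 := G x • ee i

/-- Smooth periodic function equal to the identity on `[-1/4, 1/4]`. -/
noncomputable def kap : ℝ → ℝ := per (cutAff 8 3 8 (-2) 1 0)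

/-- Direction of the shear in window `j`. -/
def dirW (j : ℕ) : Fin 3 :=
  if j = 2 ∨ j = 6 ∨ j = 12 then 0 else if j = 3 ∨ j = 9 then 1 else 2

/-- The halting detector: `3/8` on the cylinders of halting control digits. -/
noncomputable def haltF (c : MC) (x : ℝ) : ℝ :=
  3 / 8 * ∑ a ∈ Finset.range (2 * c.m), if c.hlt (a / 2) = true then cyl c.B [a] x else 0

/-- The scalar shear profile of window `j`. -/
noncomputable def GW (c : MC) (x0 y0 : ℝ) (j : ℕ) (x : R3) : ℝ :=
  match j with
  | 2 => x0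
  | 3 => y0
  | 4 => haltF c (x 0)
  | 5 => updF c.B c.I MC.p1u MC.p1u' MC.p1g (x 0) (x 1)
  | 6 => kap (x 2)
  | 7 => updF c.B c.I MC.p1u' MC.p1u MC.p1g (x 0) (x 1)
  | 8 => updF c.B c.I MC.p1g c.p2u' MC.p1u' (x 1) (x 0)
  | 9 => kap (x 2)
  | 10 => updF c.B c.I c.p2u' MC.p1g MC.p1u' (x 1) (x 0)
  | 11 => updF c.B c.I MC.p1u' c.p3u' c.p2u' (x 0) (x 1)
  | 12 => kap (x 2)
  | 13 => updF c.B c.I c.p3u' MC.p1u' c.p2u' (x 0) (x 1)
  | _ => 0

/-- The windows in use. -/
def JW : Finset ℕ := Finset.Icc 2 13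

/-- The shear fields. -/
noncomputable def VW (c : MC) (x0 y0 : ℝ) (j : ℕ) : R3 → R3 := shearField (dirW j) (GW c x0 y0 j)

/-- The force. -/
noncomputable def force (ν : ℝ) (c : MC) (x0 y0 : ℝ) : ℝ → R3 → R3 :=
  famForce JW prof (VW c x0 y0) ν

/-- The detection region: the slab `5/16 < z < 7/16` modulo `1`. -/
def Oset : Set R3 := {x | ∃ n : ℤ, 5 / 16 < x 2 - n ∧ x 2 - n < 7 / 16}

/-- The description of a machine, typed as a raw machine description. -/
abbrev Machine.mc (M : Machine) : MC := M.code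

/-- The digit strings of the initial configuration. -/
def initP (M : Machine) (w : List M.Sym) : List ℕ × List ℕ := ([0], w.map fun s : M.Sym => s.val)

/-- The force attached to a viscosity, a machine and an input. -/
noncomputable def theForce (ν : ℝ) (M : Machine) (w : List M.Sym) : ℝ → R3 → R3 :=
  force ν M.mc (enc M.mc.B (initP M w).1) (enc M.mc.B (initP M w).2)

end Vale.Agent.Lib.P113
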