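import Vale.Agent.Lib.P113.Atoms

/-!
# P113: all mixed derivatives of the force as explicit finite sums
-/

namespace Vale.Agent.Lib.P113

open Set

theorem lap_shearField {d : Fin 3} {G : R3 → ℝ} (hG : ContDiff ℝ (⊤ : ℕ∞) G) (x : R3) :
    lap (shearField d G) x = (∑ k, dX k (dX k G) x) • ee d := by
  unfold lap
  rw [Finset.sum_smul]
  refine Finset.sum_congr rfl fun k _ => ?_
  have h1 : dX k (shearField d G) = shearField d (dX k G) := by
    funext y
    exact dX_shearField (hG.differentiable (by simp)) k y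
  rw [h1]
  exact dX_shearField ((cd_dX hG k).differentiable (by simp)) k x

theorem iteratedDeriv_iteratedDeriv (m n : ℕ) (f : ℝ → ℝ) :
    iteratedDeriv m (iteratedDeriv n f) = iteratedDeriv (m + n) f := by
  simp only [iteratedDeriv_eq_iterate, Function.iterate_add_apply]

section tensor

variable {ι : Type*} (S : Finset ι) (co : ι → ℝ) (a b c : ι → ℝ → ℝ)

theorem ddX_tensor (ha : ∀ i ∈ S, ContDiff ℝ (⊤ : ℕ∞) (a i)) (hb : ∀ i ∈ S, ContDiff ℝ (⊤ : ℕ∞) (b i))
    (hc : ∀ i ∈ S, ContDiff ℝ (⊤ : ℕ∞) (c i)) (k : Fin 3) (x : R3) :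
    dX k (dX k (fun x : R3 => ∑ i ∈ S, co i * (a i (x 0) * b i (x 1) * c i (x 2)))) x
      = ∑ i ∈ S, co i * T4 (fun s => iteratedDeriv (cnt [some k, some k] s)
          ((![fun _ => 1, a i, b i, c i] : Fin 4 → ℝ → ℝ) s)) 0 x := by
  have h := mixedDeriv_sum_T4 S co (φ := fun i => ![fun _ => 1, a i, b i, c i])
    (by
      intro i hi s
      fin_cases s
      · exact contDiff_const
      · exact ha i hi
      · exact hb i hi
      · exact hc i hi) [some k, some k]
  have h2 := congrFun (congrFun h 0) x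
  rw [← h2]
  have e : (fun (_ : ℝ) (x : R3) => ∑ i ∈ S, co i * (a i (x 0) * b i (x 1) * c i (x 2)))
      = fun t x => ∑ i ∈ S, co i * T4 (![fun _ => 1, a i, b i, c i]) t x := by
    funext t x
    simp [T4]
  rw [← e]
  rfl

theorem lap_tensor (ha : ∀ i ∈ S, ContDiff ℝ (⊤ : ℕ∞) (a i)) (hb : ∀ i ∈ S, ContDiff ℝ (⊤ : ℕ∞) (b i))
    (hc : ∀ i ∈ S, ContDiff ℝ (⊤ : ℕ∞) (c i)) (x : R3) :
    ∑ k, dX k (dX k (fun x : R3 => ∑ i ∈ S, co i * (a i (x 0) * b i (x 1) * c i (x 2)))) x
      = ∑ i ∈ S, co i * (iteratedDeriv 2 (a i) (x 0) * b i (x 1) * c i (x 2)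
          + a i (x 0) * iteratedDeriv 2 (b i) (x 1) * c i (x 2)
          + a i (x 0) * b i (x 1) * iteratedDeriv 2 (c i) (x 2)) := by
  simp only [ddX_tensor S co a b c ha hb hc, Fin.sum_univ_three, ← Finset.sum_add_distrib]
  refine Finset.sum_congr rfl fun i _ => ?_
  simp [T4, cnt, slot]
  ring

end tensor

/-- The four one-variable functions of the term `(j, i)`. -/
noncomputable def phiW (c : MC) (p : ℕ × Idx) : Fin 4 → ℝ → ℝ :=
  ![prof p.1, aFn (gA c p.1 p.2), aFn (gB c p.1 p.2), aFn (gC p.1)]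

/-- Derivative shifts of the four pieces of a term. -/
def shW (r a : Fin 4) : ℕ := if r = 0 then (if a = 0 then 1 else 0) else (if a = r then 2 else 0)

/-- Coefficients of the four pieces of a term. -/
noncomputable def coW (ν : ℝ) (c : MC) (x0 y0 : QCode) (i : Fin 3) (p : ℕ × Idx) (r : Fin 4) : ℝ :=
  qval (gdir p.1 i) * qval (gco c x0 y0 p.1 p.2) * (if r = 0 then 1 else -ν)

theorem ee_dirW (j : ℕ) (i : Fin 3) : ee (dirW j) i = qval (gdir j i) := by
  unfold gdir ee
  by_cases h : dirW j = i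
  · simp [h, qval_qnat]
  · have h' : i ≠ dirW j := fun e => h e.symm
    simp [h, h', qval_qnat]

theorem phiW_contDiff {c : MC} (hc : c.Valid) {p : ℕ × Idx} (hp : p ∈ JW ×ˢ c.I) (a : Fin 4) :
    ContDiff ℝ (⊤ : ℕ∞) (phiW c p a) := by
  have h1 := mem_JW.1 (Finset.mem_product.1 hp).1
  have h2 := (Finset.mem_product.1 hp).2
  unfold phiW
  fin_cases a
  · exact prof_contDiff h1.1 h1.2
  · exact (good_gA hc _ h2).1
  · exact (good_gB hc _ h2).1
  · exact (good_gC _).1

theorem force_T4 {c : MC} (hc : c.Valid) (ν : ℝ) (x0 y0 : QCode) (i : Fin 3) (t : ℝ) (x : R3) :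
    force ν c (qval x0) (qval y0) t x i
      = ∑ q ∈ (JW ×ˢ c.I) ×ˢ (Finset.univ : Finset (Fin 4)), coW ν c x0 y0 i q.1 q.2 *
          T4 (fun a => iteratedDeriv (shW q.2 a) (phiW c q.1 a)) t x := by
  rw [Finset.sum_product, Finset.sum_product]
  unfold force famForce
  rw [Finset.sum_apply]
  refine Finset.sum_congr rfl fun j hj => ?_
  have hj' := mem_JW.1 hj
  have hG : GW c (qval x0) (qval y0) j = fun x : R3 => ∑ i ∈ c.I, qval (gco c x0 y0 j i) *
      (aFn (gA c j i) (x 0) * aFn (gB c j i) (x 1) * aFn (gC j) (x 2)) :=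
    funext fun x => GW_tensor c x0 y0 hj'.1 hj'.2 x
  have hlap := lap_tensor c.I (fun i => qval (gco c x0 y0 j i)) (fun i => aFn (gA c j i))
    (fun i => aFn (gB c j i)) (fun _ => aFn (gC j)) (fun i hi => (good_gA hc j hi).1)
    (fun i hi => (good_gB hc j hi).1) (fun _ _ => (good_gC j).1) x
  simp only [VW, Pi.sub_apply, Pi.smul_apply, smul_eq_mul,
    lap_shearField (GW_contDiff hc (qval x0) (qval y0) j), shearField, ee_dirW]
  rw [hG, hlap]
  simp only [Finset.sum_mul, Finset.mul_sum]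
  rw [← Finset.sum_sub_distrib]
  refine Finset.sum_congr rfl fun idx _ => ?_
  simp [Fin.sum_univ_four, coW, shW, phiW, T4, iteratedDeriv_one]
  ring

/-- The contribution of the term `(j, idx)` to the mixed derivative with multiplicities `n`
of the component `i` of the force. -/
noncomputable def termW (ν : ℝ) (c : MC) (x0 y0 : QCode) (i : Fin 3) (n : Fin 4 → ℕ) (t : ℝ) (x : R3)
    (j : ℕ) (idx : Idx) : ℝ :=
  qval (gdir j i) * qval (gco c x0 y0 j idx) *
    (profD (n 0 + 1) j t * atomD (n 1) (gA c j idx) (x 0) * atomD (n 2) (gB c j idx) (x 1)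
        * atomD (n 3) (gC j) (x 2)
      - ν * (profD (n 0) j t *
        (atomD (n 1 + 2) (gA c j idx) (x 0) * atomD (n 2) (gB c j idx) (x 1)
            * atomD (n 3) (gC j) (x 2)
          + atomD (n 1) (gA c j idx) (x 0) * atomD (n 2 + 2) (gB c j idx) (x 1)
            * atomD (n 3) (gC j) (x 2)
          + atomD (n 1) (gA c j idx) (x 0) * atomD (n 2) (gB c j idx) (x 1)
            * atomD (n 3 + 2) (gC j) (x 2))))

theorem force_mixed (hP : ∀ j, 2 ≤ j → j ≤ 13 → ∀ n t, iteratedDeriv n (prof j) t = profD n j t)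
    {c : MC} (hc : c.Valid) (ν : ℝ) (x0 y0 : QCode) (i : Fin 3)
    (l : List (Option (Fin 3))) (t : ℝ) (x : R3) :
    mixedDeriv l (fun t x => force ν c (qval x0) (qval y0) t x i) t x
      = ∑ j ∈ JW, ∑ idx ∈ c.I, termW ν c x0 y0 i (cnt l) t x j idx := by
  have e : (fun t x => force ν c (qval x0) (qval y0) t x i)
      = fun t x => ∑ q ∈ (JW ×ˢ c.I) ×ˢ (Finset.univ : Finset (Fin 4)), coW ν c x0 y0 i q.1 q.2 *
          T4 (fun a => iteratedDeriv (shW q.2 a) (phiW c q.1 a)) t x := by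
    funext t x
    exact force_T4 hc ν x0 y0 i t x
  rw [e, mixedDeriv_sum_T4 _ _ (fun q hq a =>
    contDiff_iteratedDeriv (phiW_contDiff hc (Finset.mem_product.1 hq).1 a) _)]
  beta_reduce
  rw [Finset.sum_product, Finset.sum_product]
  refine Finset.sum_congr rfl fun j hj => Finset.sum_congr rfl fun idx hidx => ?_
  have hj' := mem_JW.1 hj
  simp only [iteratedDeriv_iteratedDeriv, Fin.sum_univ_four, T4, phiW, coW, shW, termW]
  simp [hP j hj'.1 hj'.2, (good_gA hc j hidx).2, (good_gB hc j hidx).2, (good_gC j).2]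
  ring

end Vale.Agent.Lib.P113
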