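import Vale.Agent.Lib.P113.ForceDefs

/-!
# Time-multiplexed families of self-advection-free fields solve forced Navier-Stokes
-/

namespace Vale.Agent.Lib.P113

open Set

section general

variable {ν : ℝ} {f u : ℝ → R3 → R3} {p : ℝ → R3 → ℝ}

theorem contDiff_slice_x {F : Type*} [NormedAddCommGroup F] [NormedSpace ℝ F] {g : ℝ → R3 → F}
    (hg : ContDiff ℝ (⊤ : ℕ∞) (fun z : ℝ × R3 => g z.1 z.2)) (t : ℝ) :
    ContDiff ℝ (⊤ : ℕ∞) (g t) :=
  hg.comp (contDiff_const.prodMk contDiff_id)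

theorem contDiff_slice_t {F : Type*} [NormedAddCommGroup F] [NormedSpace ℝ F] {g : ℝ → R3 → F}
    (hg : ContDiff ℝ (⊤ : ℕ∞) (fun z : ℝ × R3 => g z.1 z.2)) (x : R3) :
    ContDiff ℝ (⊤ : ℕ∞) (fun s => g s x) :=
  hg.comp (contDiff_id.prodMk contDiff_const)

theorem contDiff_fderiv_x {F : Type*} [NormedAddCommGroup F] [NormedSpace ℝ F] {g : ℝ → R3 → F}
    (hg : ContDiff ℝ (⊤ : ℕ∞) (fun z : ℝ × R3 => g z.1 z.2)) :
    ContDiff ℝ (⊤ : ℕ∞) (fun z : ℝ × R3 => fderiv ℝ (g z.1) z.2) := by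
  have h1 : ContDiff ℝ (⊤ : ℕ∞) (Function.uncurry (fun z : ℝ × R3 => g z.1)) :=
    hg.comp ((contDiff_fst.comp contDiff_fst).prodMk contDiff_snd)
  exact ContDiff.fderiv (m := (⊤ : ℕ∞)) h1 contDiff_snd (by rfl)

theorem contDiff_deriv_t {g : ℝ → R3 → R3}
    (hg : ContDiff ℝ (⊤ : ℕ∞) (fun z : ℝ × R3 => g z.1 z.2)) :
    ContDiff ℝ (⊤ : ℕ∞) (fun z : ℝ × R3 => deriv (fun s => g s z.2) z.1) := by
  have h1 : ContDiff ℝ (⊤ : ℕ∞) (Function.uncurry (fun (z : ℝ × R3) (s : ℝ) => g s z.2)) :=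
    hg.comp (contDiff_snd.prodMk (contDiff_snd.comp contDiff_fst))
  have h2 : ContDiff ℝ (⊤ : ℕ∞) (fun z : ℝ × R3 => fderiv ℝ (fun s => g s z.2) z.1) :=
    ContDiff.fderiv (m := (⊤ : ℕ∞)) h1 contDiff_fst (by rfl)
  exact h2.clm_apply contDiff_const

/-- A jointly smooth periodic pair satisfying the equations pointwise is a global smooth
solution in the sense of `GlobalSmoothSol`. -/
theorem globalSmoothSol_of_smooth
    (hu : ContDiff ℝ (⊤ : ℕ∞) (fun z : ℝ × R3 => u z.1 z.2))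
    (hp : ContDiff ℝ (⊤ : ℕ∞) (fun z : ℝ × R3 => p z.1 z.2))
    (per_u : ∀ t, Per (u t)) (per_p : ∀ t, Per (p t))
    (momentum : ∀ t x i, deriv (fun s => u s x) t i + ∑ j, u t x j * dX j (u t) x i
      = - dX i (p t) x + ν * ∑ j, dX j (dX j (u t)) x i + f t x i)
    (div_free : ∀ t x, ∑ j, dX j (u t) x j = 0)
    (init : ∀ x, u 0 x = 0)
    (mean_p : ∀ t, ∫ x in Icc (0 : R3) 1, p t x = 0) :
    GlobalSmoothSol ν f u p := by
  refine ⟨hu, hp, fun T hT => ?_⟩
  have hdw : ∀ t ∈ Icc (0 : ℝ) T, ∀ x,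
      derivWithin (fun s => u s x) (Icc (0 : ℝ) T) t = deriv (fun s => u s x) t := by
    intro t ht x
    exact ((contDiff_slice_t hu x).differentiable (by simp) t).derivWithin
      (uniqueDiffOn_Icc hT t ht)
  refine
    { per_u := fun t _ => per_u t
      per_p := fun t _ => per_p t
      cont_u := hu.continuous.continuousOn
      diff_t := fun t _ x =>
        ((contDiff_slice_t hu x).differentiable (by simp) t).differentiableWithinAt
      cont_ut := ?_
      smooth_u := fun t _ => (contDiff_slice_x hu t).of_le (by decide)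
      cont_du := (contDiff_fderiv_x hu).continuous.continuousOn
      cont_ddu := ?_
      cont_p := hp.continuous.continuousOn
      smooth_p := fun t _ => (contDiff_slice_x hp t).of_le (by decide)
      cont_dp := (contDiff_fderiv_x hp).continuous.continuousOn
      momentum := ?_
      div_free := fun t _ x => div_free t x
      init := init
      mean_p := fun t _ => mean_p t }
  · refine (contDiff_deriv_t hu).continuous.continuousOn.congr ?_
    rintro ⟨t, x⟩ ⟨ht, -⟩
    exact hdw t ht x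
  · exact (contDiff_fderiv_x (g := fun t => fderiv ℝ (u t))
      (contDiff_fderiv_x hu)).continuous.continuousOn
  · intro t ht x i
    rw [hdw t ht x]
    exact momentum t x i

end general

section family

variable {ι : Type*} (J : Finset ι) (ρ : ι → ℝ → ℝ) (V : ι → R3 → R3) (ν : ℝ)

/-- The velocity field `∑ ρ_j(t) V_j(x)`. -/
noncomputable def famVel (t : ℝ) (x : R3) : R3 := ∑ j ∈ J, ρ j t • V j x

theorem dX_sum_smul {F : Type*} [NormedAddCommGroup F] [NormedSpace ℝ F]
    (c : ι → ℝ) (W : ι → R3 → F) (hW : ∀ j ∈ J, Differentiable ℝ (W j)) (k : Fin 3) (x : R3) :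
    dX k (fun y => ∑ j ∈ J, c j • W j y) x = ∑ j ∈ J, c j • dX k (W j) x := by
  unfold dX
  have h : HasFDerivAt (fun y => ∑ j ∈ J, c j • W j y) (∑ j ∈ J, c j • fderiv ℝ (W j) x) x :=
    HasFDerivAt.fun_sum fun j hj => ((hW j hj x).hasFDerivAt).const_smul (c j)
  rw [h.fderiv]
  simp

theorem cd_dX {F : Type*} [NormedAddCommGroup F] [NormedSpace ℝ F] {W : R3 → F}
    (hW : ContDiff ℝ (⊤ : ℕ∞) W) (k : Fin 3) : ContDiff ℝ (⊤ : ℕ∞) (dX k W) := by
  unfold dX
  exact (hW.fderiv_right (m := (⊤ : ℕ∞)) (by rfl)).clm_apply contDiff_const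

theorem contDiff_lap {W : R3 → R3} (hW : ContDiff ℝ (⊤ : ℕ∞) W) : ContDiff ℝ (⊤ : ℕ∞) (lap W) := by
  unfold lap
  exact ContDiff.sum fun k _ => cd_dX (cd_dX hW k) k

theorem pr_dX {F : Type*} [NormedAddCommGroup F] [NormedSpace ℝ F] {W : R3 → F}
    (hW : Per W) (k : Fin 3) : Per (dX k W) := by
  intro x n
  unfold dX
  have : W = fun y => W (y + fun i => (n i : ℝ)) := funext fun y => (hW y n).symm
  conv_rhs => rw [this]
  rw [fderiv_comp_add_right]

theorem per_lap {W : R3 → R3} (hW : Per W) : Per (lap W) := by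
  intro x n
  unfold lap
  exact Finset.sum_congr rfl fun k _ => pr_dX (pr_dX hW k) k x n

variable {J ρ V ν}

theorem famVel_contDiff (hρ : ∀ j ∈ J, ContDiff ℝ (⊤ : ℕ∞) (ρ j))
    (hV : ∀ j ∈ J, ContDiff ℝ (⊤ : ℕ∞) (V j)) :
    ContDiff ℝ (⊤ : ℕ∞) (fun z : ℝ × R3 => famVel J ρ V z.1 z.2) := by
  unfold famVel
  exact ContDiff.sum fun j hj => ((hρ j hj).comp contDiff_fst).smul ((hV j hj).comp contDiff_snd)

theorem famForce_smooth (hρ : ∀ j ∈ J, ContDiff ℝ (⊤ : ℕ∞) (ρ j))
    (hV : ∀ j ∈ J, ContDiff ℝ (⊤ : ℕ∞) (V j)) (hper : ∀ j ∈ J, Per (V j)) :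
    SmoothForce (famForce J ρ V ν) := by
  constructor
  · unfold famForce
    refine ContDiff.sum fun j hj => ContDiff.sub ?_ ?_
    · have : ContDiff ℝ (⊤ : ℕ∞) (deriv (ρ j)) :=
        ((contDiff_succ_iff_deriv (n := (⊤ : ℕ∞))).1 (hρ j hj)).2.2
      exact (this.comp contDiff_fst).smul ((hV j hj).comp contDiff_snd)
    · exact (contDiff_const.mul ((hρ j hj).comp contDiff_fst)).smul
        ((contDiff_lap (hV j hj)).comp contDiff_snd)
  · intro t x n
    unfold famForce
    refine Finset.sum_congr rfl fun j hj => ?_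
    rw [hper j hj x n, per_lap (hper j hj) x n]

theorem famSol [DecidableEq ι] (hρ : ∀ j ∈ J, ContDiff ℝ (⊤ : ℕ∞) (ρ j))
    (hV : ∀ j ∈ J, ContDiff ℝ (⊤ : ℕ∞) (V j)) (hper : ∀ j ∈ J, Per (V j))
    (hdisj : ∀ j ∈ J, ∀ k ∈ J, j ≠ k → ∀ t, ρ j t * ρ k t = 0)
    (hdiv : ∀ j ∈ J, ∀ x, ∑ k, dX k (V j) x k = 0)
    (hadv : ∀ j ∈ J, ∀ x i, ∑ k, V j x k * dX k (V j) x i = 0)
    (h0 : ∀ j ∈ J, ρ j 0 = 0) :
    GlobalSmoothSol ν (famForce J ρ V ν) (famVel J ρ V) (fun _ _ => 0) := by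
  have hVd : ∀ j ∈ J, Differentiable ℝ (V j) := fun j hj => (hV j hj).differentiable (by simp)
  have hd1 : ∀ t k, dX k (famVel J ρ V t) = fun x => ∑ j ∈ J, ρ j t • dX k (V j) x := by
    intro t k
    funext x
    exact dX_sum_smul J (fun j => ρ j t) V hVd k x
  have hd2 : ∀ t k x, dX k (dX k (famVel J ρ V t)) x = ∑ j ∈ J, ρ j t • dX k (dX k (V j)) x := by
    intro t k x
    rw [hd1 t k]
    exact dX_sum_smul J (fun j => ρ j t) (fun j => dX k (V j))
      (fun j hj => (cd_dX (hV j hj) k).differentiable (by simp)) k x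
  have hdt : ∀ t x, deriv (fun s => famVel J ρ V s x) t = ∑ j ∈ J, deriv (ρ j) t • V j x := by
    intro t x
    have : HasDerivAt (fun s => famVel J ρ V s x) (∑ j ∈ J, deriv (ρ j) t • V j x) t := by
      unfold famVel
      exact HasDerivAt.fun_sum fun j hj =>
        (((hρ j hj).differentiable (by simp) t).hasDerivAt).smul_const (V j x)
    exact this.deriv
  refine globalSmoothSol_of_smooth (famVel_contDiff hρ hV) contDiff_const ?_ ?_ ?_ ?_ ?_ ?_
  · intro t x n
    unfold famVel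
    exact Finset.sum_congr rfl fun j hj => by rw [hper j hj x n]
  · intro t x n; rfl
  · intro t x i
    have hadv0 : ∑ k, famVel J ρ V t x k * dX k (famVel J ρ V t) x i = 0 := by
      have e : ∀ k : Fin 3, famVel J ρ V t x k * dX k (famVel J ρ V t) x i
          = ∑ j ∈ J, ∑ l ∈ J, (ρ j t * ρ l t) * (V j x k * dX k (V l) x i) := by
        intro k
        rw [hd1 t k]
        simp only [famVel, Finset.sum_apply, Pi.smul_apply, smul_eq_mul, Finset.sum_mul_sum]
        refine Finset.sum_congr rfl fun j _ => Finset.sum_congr rfl fun l _ => by ring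
      simp only [e]
      rw [Finset.sum_comm]
      refine Finset.sum_eq_zero fun j hj => ?_
      rw [Finset.sum_comm]
      refine Finset.sum_eq_zero fun l hl => ?_
      by_cases hjl : j = l
      · subst hjl
        rw [← Finset.mul_sum, hadv j hj x i, mul_zero]
      · simp [hdisj j hj l hl hjl t]
    have hp0 : dX i (fun _ : R3 => (0 : ℝ)) x = 0 := by simp [dX]
    rw [hadv0, hdt, hp0]
    simp only [hd2, famForce, lap, Finset.sum_apply, Pi.smul_apply, Pi.sub_apply, smul_eq_mul,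
      Finset.sum_sub_distrib, Finset.mul_sum]
    rw [Finset.sum_comm]
    simp only [mul_assoc]
    ring
  · intro t x
    have e : ∀ k : Fin 3, dX k (famVel J ρ V t) x k = ∑ j ∈ J, ρ j t * dX k (V j) x k := by
      intro k
      rw [hd1 t k]
      simp
    simp only [e]
    rw [Finset.sum_comm]
    refine Finset.sum_eq_zero fun j hj => ?_
    rw [← Finset.mul_sum, hdiv j hj x, mul_zero]
  · intro x
    unfold famVel
    exact Finset.sum_eq_zero fun j hj => by rw [h0 j hj, zero_smul]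
  · intro t; simp

end family

section shear

/-- `G` does not depend on the `i`-th coordinate. -/
def IndepOf (i : Fin 3) (G : R3 → ℝ) : Prop := ∀ x y : R3, (∀ k, k ≠ i → x k = y k) → G x = G y

theorem dX_of_indep {i : Fin 3} {G : R3 → ℝ} (hG : Differentiable ℝ G) (hi : IndepOf i G) (x : R3) :
    dX i G x = 0 := by
  unfold dX
  rw [← (hG x).lineDeriv_eq_fderiv, lineDeriv]
  have : (fun t : ℝ => G (x + t • ee i)) = fun _ => G x := by
    funext t
    apply hi
    intro k hk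
    simp [ee, hk]
  rw [this]
  simp

theorem dX_shearField {i : Fin 3} {G : R3 → ℝ} (hG : Differentiable ℝ G) (k : Fin 3) (x : R3) :
    dX k (shearField i G) x = dX k G x • ee i := by
  unfold dX shearField
  rw [((hG x).hasFDerivAt.smul_const (ee i)).fderiv]
  simp

theorem shearField_div {i : Fin 3} {G : R3 → ℝ} (hG : Differentiable ℝ G) (hi : IndepOf i G)
    (x : R3) : ∑ k, dX k (shearField i G) x k = 0 := by
  simp only [dX_shearField hG, Pi.smul_apply, smul_eq_mul, ee, Pi.single_apply]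
  simp [dX_of_indep hG hi]

theorem shearField_adv {i : Fin 3} {G : R3 → ℝ} (hG : Differentiable ℝ G) (hi : IndepOf i G)
    (x : R3) (l : Fin 3) : ∑ k, shearField i G x k * dX k (shearField i G) x l = 0 := by
  simp only [dX_shearField hG, shearField, Pi.smul_apply, smul_eq_mul, ee, Pi.single_apply]
  simp [dX_of_indep hG hi]

theorem shearField_contDiff {i : Fin 3} {G : R3 → ℝ} (hG : ContDiff ℝ (⊤ : ℕ∞) G) :
    ContDiff ℝ (⊤ : ℕ∞) (shearField i G) := hG.smul contDiff_const

theorem shearField_per {i : Fin 3} {G : R3 → ℝ} (hG : Per G) : Per (shearField i G) := by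
  intro x n
  simp [shearField, hG x n]

end shear

end Vale.Agent.Lib.P113
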