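import Vale.Agent.Lib.P113.Mixed
import Vale.Agent.Lib.P113.Shear

/-!
# P113: mixed derivatives of a force built from shear fields with product-form profiles
-/

namespace Vale.Agent.Lib.P113

open Finset

theorem contDiff_iteratedDeriv' {g : ℝ → ℝ} (hg : ContDiff ℝ (⊤ : ℕ∞) g) (n : ℕ) :
    ContDiff ℝ (⊤ : ℕ∞) (iteratedDeriv n g) := by
  induction n with
  | zero => simpa using hg
  | succ n ih =>
    rw [iteratedDeriv_succ]
    exact ((contDiff_succ_iff_deriv (n := (⊤ : ℕ∞))).1 ih).2.2

theorem iteratedDeriv_iteratedDeriv' (g : ℝ → ℝ) (m n : ℕ) :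
    iteratedDeriv n (iteratedDeriv m g) = iteratedDeriv (n + m) g := by
  simp only [iteratedDeriv_eq_iterate, Function.iterate_add_apply]

theorem contDiff_tens {f : Fin 3 → ℝ → ℝ} (hf : ∀ i, ContDiff ℝ (⊤ : ℕ∞) (f i)) :
    ContDiff ℝ (⊤ : ℕ∞) (tens f) := by
  unfold tens
  exact contDiff_prod fun i _ => (hf i).comp (contDiff_apply ℝ ℝ i)

/-- second derivative in direction `m` of a product function -/
theorem dX_dX_tens {f : Fin 3 → ℝ → ℝ} (hf : ∀ i, ContDiff ℝ (⊤ : ℕ∞) (f i)) (m : Fin 3) :
    dX m (dX m (tens f)) = tens (Function.update f m (iteratedDeriv 2 (f m))) := by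
  have hd : ∀ i, Differentiable ℝ (f i) := fun i => (hf i).differentiable (by simp)
  rw [dX_tens hd]
  have hd' : ∀ i, Differentiable ℝ (Function.update f m (deriv (f m)) i) := by
    intro i
    by_cases hi : i = m
    · subst hi
      rw [Function.update_self]
      have := differentiable_iteratedDeriv' (hf i) 1
      simpa using this
    · rw [Function.update_of_ne hi]
      exact hd i
  rw [dX_tens hd']
  simp only [Function.update_self, Function.update_idem]
  rw [show (2 : ℕ) = 1 + 1 from rfl, iteratedDeriv_succ, iteratedDeriv_one]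

theorem dX_sum {κ : Type*} (S : Finset κ) (W : κ → R3 → ℝ) (hW : ∀ s ∈ S, Differentiable ℝ (W s))
    (k : Fin 3) : dX k (fun y => ∑ s ∈ S, W s y) = fun y => ∑ s ∈ S, dX k (W s) y := by
  funext x
  unfold dX
  rw [fderiv_fun_sum (fun s hs => hW s hs x), _root_.sum_apply]

/-- Laplacian of a shear field whose profile is a sum of product functions. -/
theorem lap_shear_tens {κ : Type*} (d : Fin 3) (S : Finset κ) (T : κ → Fin 3 → ℝ → ℝ)
    (hT : ∀ s ∈ S, ∀ k, ContDiff ℝ (⊤ : ℕ∞) (T s k)) (x : R3) :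
    lap (shearField d (fun y => ∑ s ∈ S, tens (T s) y)) x =
      (∑ s ∈ S, ∑ m, tens (Function.update (T s) m (iteratedDeriv 2 (T s m))) x) • ee d := by
  have hc : ∀ s ∈ S, ContDiff ℝ (⊤ : ℕ∞) (tens (T s)) := fun s hs => contDiff_tens (hT s hs)
  have hG : ContDiff ℝ (⊤ : ℕ∞) (fun y => ∑ s ∈ S, tens (T s) y) :=
    ContDiff.sum fun s hs => hc s hs
  unfold lap
  have h1 : ∀ k, dX k (dX k (shearField d (fun y => ∑ s ∈ S, tens (T s) y))) x =
      (∑ s ∈ S, tens (Function.update (T s) k (iteratedDeriv 2 (T s k))) x) • ee d := by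
    intro k
    have e1 : dX k (shearField d (fun y => ∑ s ∈ S, tens (T s) y)) =
        shearField d (dX k (fun y => ∑ s ∈ S, tens (T s) y)) := by
      funext y
      rw [dX_shearField (hG.differentiable (by simp))]
      rfl
    rw [e1, dX_shearField ((cd_dX hG k).differentiable (by simp))]
    rw [dX_sum S _ (fun s hs => (hc s hs).differentiable (by simp))]
    rw [dX_sum S _ (fun s hs => (cd_dX (hc s hs) k).differentiable (by simp))]
    congr 1
    exact Finset.sum_congr rfl fun s hs => by rw [dX_dX_tens (hT s hs)]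
  simp only [h1]
  rw [← Finset.sum_smul, Finset.sum_comm]


/-- time factors of the four terms `ρ' G`, `-ν ρ ∂ₘ²G` -/
noncomputable def tf (ρ : ℝ → ℝ) (ν e : ℝ) : Option (Fin 3) → ℝ → ℝ
  | none => fun t => e * deriv ρ t
  | some _ => fun t => (-(ν * e)) * ρ t

/-- space factors of the four terms -/
noncomputable def sf (T : Fin 3 → ℝ → ℝ) : Option (Fin 3) → Fin 3 → ℝ → ℝ
  | none => T
  | some m => Function.update T m (iteratedDeriv 2 (T m))

theorem tf_contDiff {ρ : ℝ → ℝ} (hρ : ContDiff ℝ (⊤ : ℕ∞) ρ) (ν e : ℝ) (o : Option (Fin 3)) :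
    ContDiff ℝ (⊤ : ℕ∞) (tf ρ ν e o) := by
  cases o with
  | none =>
    have := contDiff_iteratedDeriv' hρ 1
    rw [iteratedDeriv_one] at this
    exact contDiff_const.mul this
  | some m => exact contDiff_const.mul hρ

theorem sf_contDiff {T : Fin 3 → ℝ → ℝ} (hT : ∀ k, ContDiff ℝ (⊤ : ℕ∞) (T k))
    (o : Option (Fin 3)) (k : Fin 3) : ContDiff ℝ (⊤ : ℕ∞) (sf T o k) := by
  cases o with
  | none => exact hT k
  | some m =>
    simp only [sf]
    by_cases hk : k = m
    · subst hk
      rw [Function.update_self]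
      exact contDiff_iteratedDeriv' (hT k) 2
    · rw [Function.update_of_ne hk]
      exact hT k

theorem iteratedDeriv_tf (ρ : ℝ → ℝ) (ν e : ℝ) (o : Option (Fin 3)) (n : ℕ) (t : ℝ) :
    iteratedDeriv n (tf ρ ν e o) t =
      match o with
      | none => e * iteratedDeriv (n + 1) ρ t
      | some _ => (-(ν * e)) * iteratedDeriv n ρ t := by
  cases o with
  | none => simp only [tf, iteratedDeriv_const_mul_field, iteratedDeriv_succ']
  | some m => simp only [tf, iteratedDeriv_const_mul_field]

theorem iteratedDeriv_sf (T : Fin 3 → ℝ → ℝ) (o : Option (Fin 3)) (k : Fin 3) (n : ℕ) :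
    iteratedDeriv n (sf T o k) = iteratedDeriv (n + if o = some k then 2 else 0) (T k) := by
  cases o with
  | none => simp [sf]
  | some m =>
    simp only [sf]
    by_cases hk : k = m
    · subst hk
      simp [iteratedDeriv_iteratedDeriv']
    · rw [Function.update_of_ne hk]
      have : (some m : Option (Fin 3)) ≠ some k := fun h => hk (Option.some.inj h).symm
      simp [this]

section family

variable {ι κ : Type*} (J : Finset ι) (ρ : ι → ℝ → ℝ) (dir : ι → Fin 3) (S : ι → Finset κ)
  (T : ι → κ → Fin 3 → ℝ → ℝ) (ν : ℝ)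

theorem famForce_shear_apply (hT : ∀ j ∈ J, ∀ s ∈ S j, ∀ k, ContDiff ℝ (⊤ : ℕ∞) (T j s k))
    (t : ℝ) (x : R3) (i : Fin 3) :
    famForce J ρ (fun j => shearField (dir j) (fun y => ∑ s ∈ S j, tens (T j s) y)) ν t x i =
      ∑ j ∈ J, ∑ s ∈ S j, ∑ o : Option (Fin 3),
        tf (ρ j) ν (ee (dir j) i) o t * tens (sf (T j s) o) x := by
  unfold famForce
  rw [Finset.sum_apply]
  refine Finset.sum_congr rfl fun j hj => ?_
  rw [lap_shear_tens (dir j) (S j) (T j) (hT j hj)]
  simp only [shearField, Pi.sub_apply, Pi.smul_apply, smul_eq_mul, Fintype.sum_option, tf, sf]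
  rw [Finset.sum_mul, Finset.mul_sum, Finset.sum_mul, Finset.mul_sum, ← Finset.sum_sub_distrib]
  refine Finset.sum_congr rfl fun s _ => ?_
  rw [Finset.sum_mul, Finset.mul_sum, sub_eq_add_neg, ← Finset.sum_neg_distrib]
  congr 1
  · ring
  · exact Finset.sum_congr rfl fun m _ => by ring

/-- Mixed derivatives of the components of a force built from shear fields whose profiles are sums
of product functions. -/
theorem mixedDeriv_famForce_shear (hρ : ∀ j ∈ J, ContDiff ℝ (⊤ : ℕ∞) (ρ j))
    (hT : ∀ j ∈ J, ∀ s ∈ S j, ∀ k, ContDiff ℝ (⊤ : ℕ∞) (T j s k))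
    (i : Fin 3) (l : List (Option (Fin 3))) (t : ℝ) (x : R3) :
    mixedDeriv l (fun t x =>
      famForce J ρ (fun j => shearField (dir j) (fun y => ∑ s ∈ S j, tens (T j s) y)) ν t x i) t x =
      ∑ j ∈ J, ∑ s ∈ S j, ee (dir j) i *
        (iteratedDeriv (l.count none + 1) (ρ j) t *
            tens (fun k => iteratedDeriv (l.count (some k)) (T j s k)) x
          - ν * iteratedDeriv (l.count none) (ρ j) t *
            ∑ m : Fin 3, tens (fun k => iteratedDeriv (l.count (some k) + if m = k then 2 else 0)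
              (T j s k)) x) := by
  have e1 : (fun t x =>
      famForce J ρ (fun j => shearField (dir j) (fun y => ∑ s ∈ S j, tens (T j s) y)) ν t x i) =
      fun t x => ∑ p ∈ (J.sigma S) ×ˢ (univ : Finset (Option (Fin 3))),
        tf (ρ p.1.1) ν (ee (dir p.1.1) i) p.2 t * tens (sf (T p.1.1 p.1.2) p.2) x := by
    funext t x
    rw [famForce_shear_apply J ρ dir S T ν hT, Finset.sum_product, Finset.sum_sigma]
  rw [e1, mixedDeriv_sum_tens]
  · simp only []
    rw [Finset.sum_product, Finset.sum_sigma]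
    refine Finset.sum_congr rfl fun j _ => Finset.sum_congr rfl fun s _ => ?_
    simp only [Fintype.sum_option, iteratedDeriv_tf, iteratedDeriv_sf]
    simp only [reduceCtorEq, if_false, add_zero, Option.some.injEq]
    rw [mul_sub, sub_eq_add_neg, Finset.mul_sum, Finset.mul_sum, ← Finset.sum_neg_distrib]
    congr 1
    · ring
    · exact Finset.sum_congr rfl fun m _ => by ring
  · intro p hp
    have hj := (Finset.mem_sigma.1 (Finset.mem_product.1 hp).1).1
    exact tf_contDiff (hρ _ hj) _ _ _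
  · intro p hp k
    have hj := Finset.mem_sigma.1 (Finset.mem_product.1 hp).1
    exact sf_contDiff (hT _ hj.1 _ hj.2) _ _

end family

end Vale.Agent.Lib.P113
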