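import Vale.Agent.Lib.P113.Step

/-!
# Explicit rational recursion for the derivatives of `expNegInvGlue`, `bump` and `sstep`

`iteratedDeriv n expNegInvGlue x = rfac n x * expNegInvGlue x` where `rfac n x` obeys a two-term
recursion with rational operations in `n` and `x`.
-/

namespace Vale.Agent.Lib.P113

open Set Filter Topology

/-- The rational factor: `g⁽ⁿ⁾ = rfac n · g` for `g = expNegInvGlue`. -/
noncomputable def rfac : ℕ → ℝ → ℝ
  | 0, _ => 1
  | 1, x => 1 / x ^ 2
  | (n + 2), x => ((1 - 2 * ((n : ℝ) + 1) * x) * rfac (n + 1) x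
      - ((n : ℝ) + 1) * (n : ℝ) * rfac n x) / x ^ 2

theorem rfac_zero (x : ℝ) : rfac 0 x = 1 := by simp [rfac]

theorem rfac_one (x : ℝ) : rfac 1 x = 1 / x ^ 2 := by simp [rfac]

theorem rfac_add_two (n : ℕ) (x : ℝ) :
    rfac (n + 2) x = ((1 - 2 * ((n : ℝ) + 1) * x) * rfac (n + 1) x
      - ((n : ℝ) + 1) * (n : ℝ) * rfac n x) / x ^ 2 := by
  simp [rfac]

theorem rfac_zero_fun : rfac 0 = fun _ => 1 := funext rfac_zero

theorem rfac_one_fun : rfac 1 = fun x => 1 / x ^ 2 := funext rfac_one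

theorem rfac_add_two_fun (n : ℕ) :
    rfac (n + 2) = fun x => ((1 - 2 * ((n : ℝ) + 1) * x) * rfac (n + 1) x
      - ((n : ℝ) + 1) * (n : ℝ) * rfac n x) / x ^ 2 := funext (rfac_add_two n)

/-- The first-order relation `r_{n+1} = r_n' + r_n / x²`. -/
theorem hasDerivAt_rfac_aux (x : ℝ) (hx : x ≠ 0) (n : ℕ) :
    HasDerivAt (rfac n) (rfac (n + 1) x - rfac n x / x ^ 2) x ∧
    HasDerivAt (rfac (n + 1)) (rfac (n + 2) x - rfac (n + 1) x / x ^ 2) x := by
  have hx2 : x ^ 2 ≠ 0 := pow_ne_zero 2 hx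
  have hpow : HasDerivAt (fun y : ℝ => y ^ 2) (2 * x) x := by
    simpa using hasDerivAt_pow 2 x
  induction n with
  | zero =>
    constructor
    · rw [rfac_one, rfac_zero, rfac_zero_fun]
      have : (1 / x ^ 2 - 1 / x ^ 2 : ℝ) = 0 := sub_self _
      rw [this]
      exact hasDerivAt_const _ _
    · rw [rfac_add_two, rfac_one, rfac_zero, rfac_one_fun]
      have h := (hasDerivAt_const x (1 : ℝ)).div hpow hx2
      have e : (0 * x ^ 2 - 1 * (2 * x)) / (x ^ 2) ^ 2
          = ((1 - 2 * (((0 : ℕ) : ℝ) + 1) * x) * (1 / x ^ 2)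
            - (((0 : ℕ) : ℝ) + 1) * ((0 : ℕ) : ℝ) * 1) / x ^ 2 - 1 / x ^ 2 / x ^ 2 := by
        field_simp
        push_cast
        ring
      rw [← e]
      exact h
  | succ n ih =>
    refine ⟨ih.2, ?_⟩
    obtain ⟨h0, h1⟩ := ih
    have hlin : HasDerivAt (fun y : ℝ => 1 - 2 * ((n : ℝ) + 1) * y) (-(2 * ((n : ℝ) + 1))) x := by
      have := ((hasDerivAt_id x).const_mul (2 * ((n : ℝ) + 1))).const_sub 1
      simpa using this
    have hnum := (hlin.mul h1).sub (h0.const_mul (((n : ℝ) + 1) * (n : ℝ)))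
    have h := hnum.div hpow hx2
    rw [rfac_add_two_fun n]
    have e3 := rfac_add_two (n + 1) x
    have e2 := rfac_add_two n x
    refine h.congr_deriv ?_
    rw [e3]
    simp only [show n + 1 + 1 = n + 2 from rfl, Pi.mul_apply, Pi.sub_apply]
    rw [e2]
    push_cast
    field_simp
    ring

theorem hasDerivAt_rfac (n : ℕ) {x : ℝ} (hx : x ≠ 0) :
    HasDerivAt (rfac n) (rfac (n + 1) x - rfac n x / x ^ 2) x :=
  (hasDerivAt_rfac_aux x hx n).1

theorem hasDerivAt_glue {x : ℝ} (hx : x ≠ 0) :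
    HasDerivAt expNegInvGlue (expNegInvGlue x / x ^ 2) x := by
  have h := expNegInvGlue.hasDerivAt_polynomial_eval_inv_mul 1 x
  simp only [Polynomial.eval_one, one_mul] at h
  refine h.congr_deriv ?_
  simp
  field_simp

theorem iteratedDeriv_glue_exists_poly (n : ℕ) :
    ∃ p : Polynomial ℝ, iteratedDeriv n expNegInvGlue = fun x => p.eval x⁻¹ * expNegInvGlue x := by
  induction n with
  | zero => exact ⟨1, by simp⟩
  | succ n ih =>
    obtain ⟨p, hp⟩ := ih
    refine ⟨Polynomial.X ^ 2 * (p - Polynomial.derivative (R := ℝ) p), ?_⟩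
    rw [iteratedDeriv_succ, hp]
    exact funext fun x => (expNegInvGlue.hasDerivAt_polynomial_eval_inv_mul p x).deriv

theorem iteratedDeriv_glue_of_nonpos (n : ℕ) {x : ℝ} (hx : x ≤ 0) :
    iteratedDeriv n expNegInvGlue x = 0 := by
  obtain ⟨p, hp⟩ := iteratedDeriv_glue_exists_poly n
  rw [hp]
  simp [expNegInvGlue.zero_of_nonpos hx]

theorem iteratedDeriv_glue_of_pos (n : ℕ) : ∀ x : ℝ, 0 < x →
    iteratedDeriv n expNegInvGlue x = rfac n x * expNegInvGlue x := by
  induction n with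
  | zero => intro x _; simp [rfac_zero]
  | succ n ih =>
    intro x hx
    rw [iteratedDeriv_succ]
    have hev : iteratedDeriv n expNegInvGlue =ᶠ[𝓝 x] fun y => rfac n y * expNegInvGlue y := by
      filter_upwards [lt_mem_nhds hx] with y hy
      exact ih y hy
    rw [hev.deriv_eq]
    have h := (hasDerivAt_rfac n hx.ne').mul (hasDerivAt_glue hx.ne')
    have h' : HasDerivAt (fun y => rfac n y * expNegInvGlue y)
        (rfac (n + 1) x * expNegInvGlue x) x := by
      refine h.congr_deriv ?_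
      have hx2 : x ^ 2 ≠ 0 := pow_ne_zero 2 hx.ne'
      field_simp
      ring
    exact h'.deriv

/-- **Derivatives of `expNegInvGlue`** through the rational recursion `rfac`. -/
theorem iteratedDeriv_glue (n : ℕ) (x : ℝ) :
    iteratedDeriv n expNegInvGlue x = rfac n x * expNegInvGlue x := by
  rcases le_or_gt x 0 with hx | hx
  · rw [iteratedDeriv_glue_of_nonpos n hx, expNegInvGlue.zero_of_nonpos hx, mul_zero]
  · exact iteratedDeriv_glue_of_pos n x hx

/-- **Derivatives of `bump`**. -/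
theorem iteratedDeriv_bump (n : ℕ) (x : ℝ) :
    iteratedDeriv n bump x = ∑ i ∈ Finset.range (n + 1),
      (n.choose i : ℝ) * (rfac i x * expNegInvGlue x) *
        ((-1) ^ (n - i) * rfac (n - i) (1 - x) * expNegInvGlue (1 - x)) := by
  have hb : bump = expNegInvGlue * fun y => expNegInvGlue (1 - y) := by
    funext y; simp [bump]
  have h1 : ContDiffAt ℝ n expNegInvGlue x :=
    (expNegInvGlue.contDiff (n := n)).contDiffAt
  have h2 : ContDiffAt ℝ n (fun y => expNegInvGlue (1 - y)) x :=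
    ((expNegInvGlue.contDiff (n := n)).comp (contDiff_const.sub contDiff_id)).contDiffAt
  rw [hb, iteratedDeriv_mul h1 h2]
  refine Finset.sum_congr rfl fun i _ => ?_
  rw [iteratedDeriv_comp_const_sub, iteratedDeriv_glue]
  simp only [smul_eq_mul, iteratedDeriv_glue]
  ring

/-- **Derivatives of `sstep`**. -/
theorem iteratedDeriv_succ_sstep (n : ℕ) (x : ℝ) :
    iteratedDeriv (n + 1) sstep x = iteratedDeriv n bump x / bumpMass := by
  rw [iteratedDeriv_succ', deriv_sstep]
  exact iteratedDeriv_div_const bump bumpMass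

end Vale.Agent.Lib.P113
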