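import Vale.Agent.Lib.P113.Defs

/-!
# P113: mixed derivatives of finite sums of products of one-variable functions
-/

namespace Vale.Agent.Lib.P113

open Finset

/-- The product function `x ↦ f₀(x₀) f₁(x₁) f₂(x₂)`. -/
noncomputable def tens (f : Fin 3 → ℝ → ℝ) (x : R3) : ℝ := ∏ i, f i (x i)

theorem tens_vec (a b c : ℝ → ℝ) (x : R3) : tens ![a, b, c] x = a (x 0) * b (x 1) * c (x 2) := by
  simp [tens, Fin.prod_univ_three]

theorem hasFDerivAt_tens {f : Fin 3 → ℝ → ℝ} (hf : ∀ i, Differentiable ℝ (f i)) (x : R3) :
    HasFDerivAt (tens f)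
      (∑ i, (∏ j ∈ univ.erase i, f j (x j)) •
        (deriv (f i) (x i) • ContinuousLinearMap.proj (R := ℝ) (φ := fun _ : Fin 3 => ℝ) i)) x := by
  have h : ∀ i ∈ (univ : Finset (Fin 3)), HasFDerivAt (fun y : R3 => f i (y i))
      (deriv (f i) (x i) • ContinuousLinearMap.proj (R := ℝ) (φ := fun _ : Fin 3 => ℝ) i) x := by
    intro i _
    exact ((hf i (x i)).hasDerivAt).comp_hasFDerivAt x (hasFDerivAt_apply i x)
  exact HasFDerivAt.finsetProd h

theorem differentiable_tens {f : Fin 3 → ℝ → ℝ} (hf : ∀ i, Differentiable ℝ (f i)) :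
    Differentiable ℝ (tens f) := fun x => (hasFDerivAt_tens hf x).differentiableAt

theorem dX_tens {f : Fin 3 → ℝ → ℝ} (hf : ∀ i, Differentiable ℝ (f i)) (k : Fin 3) :
    dX k (tens f) = tens (Function.update f k (deriv (f k))) := by
  funext x
  unfold dX
  rw [(hasFDerivAt_tens hf x).fderiv]
  simp only [_root_.sum_apply, _root_.smul_apply,
    ContinuousLinearMap.proj_apply, ee, smul_eq_mul]
  rw [Finset.sum_eq_single k]
  · simp only [Pi.single_eq_same, mul_one, tens]
    rw [← Finset.mul_prod_erase univ _ (Finset.mem_univ k)]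
    simp only [Function.update_self]
    rw [mul_comm]
    refine congrArg₂ _ rfl (Finset.prod_congr rfl fun j hj => ?_)
    rw [Function.update_of_ne (Finset.ne_of_mem_erase hj)]
  · intro i _ hik
    simp [Pi.single_eq_of_ne hik]
  · intro h
    exact absurd (Finset.mem_univ k) h


theorem differentiable_iteratedDeriv' {g : ℝ → ℝ} (hg : ContDiff ℝ (⊤ : ℕ∞) g) (n : ℕ) :
    Differentiable ℝ (iteratedDeriv n g) :=
  hg.differentiable_iteratedDeriv n (by exact_mod_cast WithTop.coe_lt_top (n : ℕ))

/-- Mixed derivatives of a finite sum of products of smooth one-variable functions. -/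
theorem mixedDeriv_sum_tens {ι : Type*} (I : Finset ι) (ρ : ι → ℝ → ℝ) (f : ι → Fin 3 → ℝ → ℝ)
    (hρ : ∀ i ∈ I, ContDiff ℝ (⊤ : ℕ∞) (ρ i)) (hf : ∀ i ∈ I, ∀ k, ContDiff ℝ (⊤ : ℕ∞) (f i k))
    (l : List (Option (Fin 3))) :
    mixedDeriv l (fun t x => ∑ i ∈ I, ρ i t * tens (f i) x) =
      fun t x => ∑ i ∈ I, iteratedDeriv (l.count none) (ρ i) t *
        tens (fun k => iteratedDeriv (l.count (some k)) (f i k)) x := by
  induction l with
  | nil => simp [mixedDeriv]
  | cons d l ih =>
    cases d with
    | none =>
      simp only [mixedDeriv, ih]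
      funext t x
      unfold dT
      rw [deriv_fun_sum]
      · refine Finset.sum_congr rfl fun i hi => ?_
        rw [deriv_mul_const (differentiable_iteratedDeriv' (hρ i hi) _ t)]
        simp [List.count_cons, iteratedDeriv_succ]
      · intro i hi
        exact (differentiable_iteratedDeriv' (hρ i hi) _ t).mul_const _
    | some j =>
      simp only [mixedDeriv, ih]
      funext t x
      unfold dS
      have hd : ∀ i ∈ I, Differentiable ℝ
          (tens (fun k => iteratedDeriv (l.count (some k)) (f i k))) := fun i hi =>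
        differentiable_tens fun k => differentiable_iteratedDeriv' (hf i hi k) _
      have h1 : dX j (fun x => ∑ i ∈ I, iteratedDeriv (l.count none) (ρ i) t *
          tens (fun k => iteratedDeriv (l.count (some k)) (f i k)) x) x =
          ∑ i ∈ I, iteratedDeriv (l.count none) (ρ i) t *
            dX j (tens (fun k => iteratedDeriv (l.count (some k)) (f i k))) x := by
        unfold dX
        rw [fderiv_fun_sum (fun i hi => ((hd i hi) x).const_mul _)]
        rw [_root_.sum_apply]
        refine Finset.sum_congr rfl fun i hi => ?_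
        rw [fderiv_const_mul ((hd i hi) x)]
        simp
      rw [h1]
      refine Finset.sum_congr rfl fun i hi => ?_
      rw [dX_tens fun k => differentiable_iteratedDeriv' (hf i hi k) _]
      have h2 : Function.update (fun k => iteratedDeriv (l.count (some k)) (f i k)) j
          (deriv (iteratedDeriv (l.count (some j)) (f i j))) =
          fun k => iteratedDeriv ((some j :: l).count (some k)) (f i k) := by
        funext k
        by_cases hk : k = j
        · subst hk
          simp [iteratedDeriv_succ]
        · rw [Function.update_of_ne hk]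
          have : (some j : Option (Fin 3)) ≠ some k := fun h => hk (Option.some.inj h).symm
          simp [List.count_cons, this]
      rw [h2]
      simp [List.count_cons]

end Vale.Agent.Lib.P113
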