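import Vale.Agent.Lib.P113.Construct

/-!
# The orbit of the marked particle at the window boundaries
-/

namespace Vale.Agent.Lib.P113

open Set MC

theorem vec_add_ee0 (x y z r : ℝ) : (![x, y, z] : R3) + r • ee 0 = ![x + r, y, z] := by
  funext i; fin_cases i <;> simp [ee]

theorem vec_add_ee1 (x y z r : ℝ) : (![x, y, z] : R3) + r • ee 1 = ![x, y + r, z] := by
  funext i; fin_cases i <;> simp [ee]

theorem vec_add_ee2 (x y z r : ℝ) : (![x, y, z] : R3) + r • ee 2 = ![x, y, z + r] := by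
  funext i; fin_cases i <;> simp [ee]

/-- Positions of the particle started at the origin, at times `m / 16`. -/
noncomputable def PP (c : MC) (x0 y0 : ℝ) (m : ℕ) : R3 := pos (gWin c x0 y0) dWin 0 m

variable {c : MC} {x0 y0 : ℝ}

theorem PP_active (n j : ℕ) (h4 : 4 ≤ j) (h13 : j ≤ 13) :
    PP c x0 y0 (16 * n + j + 1)
      = PP c x0 y0 (16 * n + j) + GW c x0 y0 j (PP c x0 y0 (16 * n + j)) • ee (dirW j) := by
  have e : (16 * n + j) % 16 = j := by omega
  have ha : Active (16 * n + j) := by unfold Active; omega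
  show pos _ _ _ _ + gWin c x0 y0 (16 * n + j) _ • ee (dWin (16 * n + j)) = _
  unfold gWin dWin
  rw [if_pos ha, e]
  rfl

theorem PP_init (j : ℕ) (h2 : 2 ≤ j) (h3 : j ≤ 3) :
    PP c x0 y0 (j + 1) = PP c x0 y0 j + GW c x0 y0 j (PP c x0 y0 j) • ee (dirW j) := by
  have e : j % 16 = j := by omega
  have ha : Active j := by unfold Active; omega
  show pos _ _ _ _ + gWin c x0 y0 j _ • ee (dWin j) = _
  unfold gWin dWin
  rw [if_pos ha, e]
  rfl

theorem PP_idle (m : ℕ) (h : ¬ Active m) : PP c x0 y0 (m + 1) = PP c x0 y0 m := by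
  show pos _ _ _ _ + gWin c x0 y0 m _ • ee (dWin m) = _
  unfold gWin
  rw [if_neg h]
  simp
  rfl

theorem PPx (n j : ℕ) (h4 : 4 ≤ j) (h13 : j ≤ 13) (hd : dirW j = 0) {x y z r x' : ℝ}
    (hs : PP c x0 y0 (16 * n + j) = ![x, y, z]) (hg : GW c x0 y0 j ![x, y, z] = r)
    (hx : x + r = x') : PP c x0 y0 (16 * n + j + 1) = ![x', y, z] := by
  rw [PP_active n j h4 h13, hs, hg, hd, vec_add_ee0, hx]

theorem PPy (n j : ℕ) (h4 : 4 ≤ j) (h13 : j ≤ 13) (hd : dirW j = 1) {x y z r y' : ℝ}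
    (hs : PP c x0 y0 (16 * n + j) = ![x, y, z]) (hg : GW c x0 y0 j ![x, y, z] = r)
    (hy : y + r = y') : PP c x0 y0 (16 * n + j + 1) = ![x, y', z] := by
  rw [PP_active n j h4 h13, hs, hg, hd, vec_add_ee1, hy]

theorem PPz (n j : ℕ) (h4 : 4 ≤ j) (h13 : j ≤ 13) (hd : dirW j = 2) {x y z r z' : ℝ}
    (hs : PP c x0 y0 (16 * n + j) = ![x, y, z]) (hg : GW c x0 y0 j ![x, y, z] = r)
    (hz : z + r = z') : PP c x0 y0 (16 * n + j + 1) = ![x, y, z'] := by
  rw [PP_active n j h4 h13, hs, hg, hd, vec_add_ee2, hz]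

theorem PP_four : PP c x0 y0 4 = ![x0, y0, 0] := by
  have h0 : PP c x0 y0 0 = ![0, 0, 0] := by
    show (0 : R3) = _
    funext i; fin_cases i <;> rfl
  have h1 : PP c x0 y0 1 = ![0, 0, 0] := by
    rw [PP_idle 0 (by unfold Active; omega), h0]
  have h2 : PP c x0 y0 2 = ![0, 0, 0] := by
    rw [PP_idle 1 (by unfold Active; omega), h1]
  have h3 : PP c x0 y0 3 = ![x0, 0, 0] := by
    rw [PP_init 2 le_rfl (by omega), h2, show dirW 2 = 0 from rfl,
      show GW c x0 y0 2 ![0, 0, 0] = x0 from rfl, vec_add_ee0, zero_add]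
  rw [PP_init 3 (by omega) le_rfl, h3, show dirW 3 = 1 from rfl,
    show GW c x0 y0 3 ![x0, 0, 0] = y0 from rfl, vec_add_ee1, zero_add]

theorem haltF_enc {X : List ℕ} (hX : Dig c.B X) (hh : X.headD 0 < 2 * c.m) :
    haltF c (enc c.B X) = if c.hlt (X.headD 0 / 2) = true then 3 / 8 else 0 := by
  unfold haltF
  have e : ∀ a ∈ Finset.range (2 * c.m),
      (if c.hlt (a / 2) = true then cyl c.B [a] (enc c.B X) else 0)
        = if a = X.headD 0 then (if c.hlt (a / 2) = true then 1 else 0) else 0 := by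
    intro a ha
    have hd : Dig c.B [a] := by
      apply c.dig_list
      have := c.two_m_lt_D
      have := Finset.mem_range.1 ha
      simp; omega
    rw [cyl_enc c.four_le_B hd hX]
    simp only [Pfx, and_true]
    split_ifs <;> rfl
  rw [Finset.sum_congr rfl e, Finset.sum_ite_eq' , if_pos (Finset.mem_range.2 hh)]
  split_ifs <;> simp

theorem abs_enc_sub_le {X X' : List ℕ} (h : Dig c.B X) (h' : Dig c.B X') :
    |enc c.B X' - enc c.B X| ≤ 1 / 4 := by
  rw [abs_le]
  constructor <;> linarith [enc_nonneg c.B X, enc_nonneg c.B X', enc_le h, enc_le h']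

/-- One full period, for a non-halting control digit. -/
theorem PP_period (hc : c.Valid) (n : ℕ) {p : List ℕ × List ℕ} (h : c.WF p)
    (hnh : c.hlt (p.1.headD 0 / 2) = false)
    (hs : PP c x0 y0 (16 * n + 4) = ![enc c.B p.1, enc c.B p.2, 0]) :
    PP c x0 y0 (16 * (n + 1) + 4) = ![enc c.B (c.step2 p).1, enc c.B (c.step2 p).2, 0] ∧
    ∀ j, j ≤ 16 → |PP c x0 y0 (16 * n + 4 + j) 2| ≤ 1 / 4 := by
  have hwf' := step2_WF hc h
  have a1 := abs_enc_sub_le h.1 (X1_dig h)
  have a2 := abs_enc_sub_le h.2.1 hwf'.2.1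
  have a3 := abs_enc_sub_le (X1_dig h) hwf'.1
  have s5 : PP c x0 y0 (16 * n + 5) = ![enc c.B p.1, enc c.B p.2, 0] :=
    PPz n 4 le_rfl (by omega) rfl hs
      (show haltF c (enc c.B p.1) = 0 by rw [haltF_enc h.1 h.2.2, hnh]; simp) (add_zero _)
  have s6 : PP c x0 y0 (16 * n + 6)
      = ![enc c.B p.1, enc c.B p.2, enc c.B (X1 p) - enc c.B p.1] :=
    PPz n 5 (by omega) (by omega) rfl s5 (ph1f h) (zero_add _)
  have s7 : PP c x0 y0 (16 * n + 7)
      = ![enc c.B (X1 p), enc c.B p.2, enc c.B (X1 p) - enc c.B p.1] :=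
    PPx n 6 (by omega) (by omega) rfl (r := enc c.B (X1 p) - enc c.B p.1) s6
      (kap_of_abs_le a1) (by ring)
  have s8 : PP c x0 y0 (16 * n + 8) = ![enc c.B (X1 p), enc c.B p.2, 0] :=
    PPz n 7 (by omega) (by omega) rfl s7 (ph1b h) (by ring)
  have s9 : PP c x0 y0 (16 * n + 9)
      = ![enc c.B (X1 p), enc c.B p.2, enc c.B (c.step2 p).2 - enc c.B p.2] :=
    PPz n 8 (by omega) (by omega) rfl s8 (ph2f h) (zero_add _)
  have s10 : PP c x0 y0 (16 * n + 10)
      = ![enc c.B (X1 p), enc c.B (c.step2 p).2, enc c.B (c.step2 p).2 - enc c.B p.2] :=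
    PPy n 9 (by omega) (by omega) rfl (r := enc c.B (c.step2 p).2 - enc c.B p.2) s9
      (kap_of_abs_le a2) (by ring)
  have s11 : PP c x0 y0 (16 * n + 11) = ![enc c.B (X1 p), enc c.B (c.step2 p).2, 0] :=
    PPz n 10 (by omega) (by omega) rfl s10 (ph2b hc h) (by ring)
  have s12 : PP c x0 y0 (16 * n + 12)
      = ![enc c.B (X1 p), enc c.B (c.step2 p).2, enc c.B (c.step2 p).1 - enc c.B (X1 p)] :=
    PPz n 11 (by omega) (by omega) rfl s11 (ph3f hc h) (zero_add _)
  have s13 : PP c x0 y0 (16 * n + 13)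
      = ![enc c.B (c.step2 p).1, enc c.B (c.step2 p).2,
          enc c.B (c.step2 p).1 - enc c.B (X1 p)] :=
    PPx n 12 (by omega) (by omega) rfl (r := enc c.B (c.step2 p).1 - enc c.B (X1 p)) s12
      (kap_of_abs_le a3) (by ring)
  have s14 : PP c x0 y0 (16 * n + 14) = ![enc c.B (c.step2 p).1, enc c.B (c.step2 p).2, 0] :=
    PPz n 13 (by omega) (by omega) rfl s13 (ph3b hc h) (by ring)
  have s15 : PP c x0 y0 (16 * n + 15) = ![enc c.B (c.step2 p).1, enc c.B (c.step2 p).2, 0] := by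
    rw [PP_idle (16 * n + 14) (by unfold Active; omega), s14]
  have s16 : PP c x0 y0 (16 * n + 16) = ![enc c.B (c.step2 p).1, enc c.B (c.step2 p).2, 0] := by
    rw [PP_idle (16 * n + 15) (by unfold Active; omega), s15]
  have s17 : PP c x0 y0 (16 * n + 17) = ![enc c.B (c.step2 p).1, enc c.B (c.step2 p).2, 0] := by
    rw [PP_idle (16 * n + 16) (by unfold Active; omega), s16]
  have s18 : PP c x0 y0 (16 * n + 18) = ![enc c.B (c.step2 p).1, enc c.B (c.step2 p).2, 0] := by
    rw [PP_idle (16 * n + 17) (by unfold Active; omega), s17]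
  have s19 : PP c x0 y0 (16 * n + 19) = ![enc c.B (c.step2 p).1, enc c.B (c.step2 p).2, 0] := by
    rw [PP_idle (16 * n + 18) (by unfold Active; omega), s18]
  have s20 : PP c x0 y0 (16 * n + 20) = ![enc c.B (c.step2 p).1, enc c.B (c.step2 p).2, 0] := by
    rw [PP_idle (16 * n + 19) (by unfold Active; omega), s19]
  refine ⟨by rw [show 16 * (n + 1) + 4 = 16 * n + 20 by ring]; exact s20, ?_⟩
  intro j hj
  interval_cases j
  · simp [hs]
  · simp [show 16 * n + 4 + 1 = 16 * n + 5 by ring, s5]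
  · simpa [show 16 * n + 4 + 2 = 16 * n + 6 by ring, s6] using a1
  · simpa [show 16 * n + 4 + 3 = 16 * n + 7 by ring, s7] using a1
  · simp [show 16 * n + 4 + 4 = 16 * n + 8 by ring, s8]
  · simpa [show 16 * n + 4 + 5 = 16 * n + 9 by ring, s9] using a2
  · simpa [show 16 * n + 4 + 6 = 16 * n + 10 by ring, s10] using a2
  · simp [show 16 * n + 4 + 7 = 16 * n + 11 by ring, s11]
  · simpa [show 16 * n + 4 + 8 = 16 * n + 12 by ring, s12] using a3
  · simpa [show 16 * n + 4 + 9 = 16 * n + 13 by ring, s13] using a3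
  · simp [show 16 * n + 4 + 10 = 16 * n + 14 by ring, s14]
  · simp [show 16 * n + 4 + 11 = 16 * n + 15 by ring, s15]
  · simp [show 16 * n + 4 + 12 = 16 * n + 16 by ring, s16]
  · simp [show 16 * n + 4 + 13 = 16 * n + 17 by ring, s17]
  · simp [show 16 * n + 4 + 14 = 16 * n + 18 by ring, s18]
  · simp [show 16 * n + 4 + 15 = 16 * n + 19 by ring, s19]
  · simp [show 16 * n + 4 + 16 = 16 * n + 20 by ring, s20]

theorem PP_le_four (m : ℕ) (hm : m ≤ 4) : PP c x0 y0 m 2 = 0 := by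
  have h0 : PP c x0 y0 0 = ![0, 0, 0] := by
    show (0 : R3) = _
    funext i; fin_cases i <;> rfl
  have h1 : PP c x0 y0 1 = ![0, 0, 0] := by
    rw [PP_idle 0 (by unfold Active; omega), h0]
  have h2 : PP c x0 y0 2 = ![0, 0, 0] := by
    rw [PP_idle 1 (by unfold Active; omega), h1]
  have h3 : PP c x0 y0 3 = ![x0, 0, 0] := by
    rw [PP_init 2 le_rfl (by omega), h2, show dirW 2 = 0 from rfl,
      show GW c x0 y0 2 ![0, 0, 0] = x0 from rfl, vec_add_ee0, zero_add]
  interval_cases m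
  · rw [h0]; rfl
  · rw [h1]; rfl
  · rw [h2]; rfl
  · rw [h3]; rfl
  · rw [PP_four]; rfl

theorem Oset_open : IsOpen Oset := by
  have : Oset = ⋃ n : ℤ, {x : R3 | 5 / 16 < x 2 - n ∧ x 2 - n < 7 / 16} := by
    ext x; simp [Oset]
  rw [this]
  refine isOpen_iUnion fun n => IsOpen.inter ?_ ?_
  · exact isOpen_lt continuous_const ((continuous_apply 2).sub continuous_const)
  · exact isOpen_lt ((continuous_apply 2).sub continuous_const) continuous_const

theorem Oset_per (x : R3) (k : Fin 3 → ℤ) : (x + fun i => (k i : ℝ)) ∈ Oset ↔ x ∈ Oset := by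
  constructor
  · rintro ⟨n, h1, h2⟩
    refine ⟨n - k 2, ?_, ?_⟩ <;> simp only [Pi.add_apply] at h1 h2 <;> push_cast <;> linarith
  · rintro ⟨n, h1, h2⟩
    refine ⟨n + k 2, ?_, ?_⟩ <;> simp only [Pi.add_apply] <;> push_cast <;> linarith

theorem not_mem_Oset {x : R3} (h : |x 2| ≤ 1 / 4) : x ∉ Oset := by
  rintro ⟨n, h1, h2⟩
  rw [abs_le] at h
  have a1 : (n : ℝ) < 0 + 1 := by linarith [h.2]
  have a2 : (-1 : ℝ) < n := by linarith [h.1]
  have b1 : n < 0 + 1 := by exact_mod_cast a1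
  have b2 : -1 < n := by exact_mod_cast a2
  have : n = 0 := by omega
  subst this
  simp at h1
  linarith [h.2]

section orbit

variable (c) (p0 : List ℕ × List ℕ)

/-- The run of the two-stack machine. -/
def run (n : ℕ) : List ℕ × List ℕ := c.step2^[n] p0

/-- The control digit after `n` steps is halting. -/
def HaltAt (n : ℕ) : Prop := c.hlt ((run c p0 n).1.headD 0 / 2) = true

variable {c p0}

theorem orbit_inv (hc : c.Valid) (h0 : c.WF p0) (n : ℕ) (hn : ∀ k < n, ¬ HaltAt c p0 k) :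
    PP c (enc c.B p0.1) (enc c.B p0.2) (16 * n + 4)
        = ![enc c.B (run c p0 n).1, enc c.B (run c p0 n).2, 0] ∧
      ∀ m ≤ 16 * n + 4, |PP c (enc c.B p0.1) (enc c.B p0.2) m 2| ≤ 1 / 4 := by
  induction n with
  | zero =>
    refine ⟨PP_four, fun m hm => ?_⟩
    rw [PP_le_four m hm]; norm_num
  | succ n ih =>
    obtain ⟨i1, i2⟩ := ih fun k hk => hn k (by omega)
    have hnh : c.hlt ((run c p0 n).1.headD 0 / 2) = false := by
      have := hn n (by omega)
      unfold HaltAt at this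
      simpa using this
    obtain ⟨j1, j2⟩ := PP_period hc n (iter_WF hc h0 n) hnh i1
    constructor
    · rw [j1]
      simp only [run, Function.iterate_succ_apply']
    · intro m hm
      by_cases h : m ≤ 16 * n + 4
      · exact i2 m h
      · have := j2 (m - (16 * n + 4)) (by omega)
        rwa [show 16 * n + 4 + (m - (16 * n + 4)) = m by omega] at this

theorem orbit_halt (hc : c.Valid) (h0 : c.WF p0) (n : ℕ) (hn : ∀ k < n, ¬ HaltAt c p0 k)
    (hh : HaltAt c p0 n) : PP c (enc c.B p0.1) (enc c.B p0.2) (16 * n + 5) 2 = 3 / 8 := by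
  obtain ⟨i1, -⟩ := orbit_inv hc h0 n hn
  have hw : c.WF (run c p0 n) := iter_WF hc h0 n
  have := PPz n 4 le_rfl (by omega) rfl i1
      (show haltF c (enc c.B (run c p0 n).1) = 3 / 8 by
        rw [haltF_enc hw.1 hw.2.2]; exact if_pos hh) (zero_add _)
  rw [this]; rfl

theorem orbit_iff (hc : c.Valid) (h0 : c.WF p0) {X : ℝ → R3}
    (hX : IsTrajectory (vel c (enc c.B p0.1) (enc c.B p0.2)) 0 X) :
    (∃ t, 0 ≤ t ∧ X t ∈ Oset) ↔ ∃ n, HaltAt c p0 n := by
  have hform := traj_formula (by norm_num : (0 : ℝ) < 16)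
    (vel_windowed c (enc c.B p0.1) (enc c.B p0.2)) (gWin_indep c _ _) hX
  constructor
  · rintro ⟨t, ht, hO⟩
    by_contra hno
    have hno' : ∀ n, ¬ HaltAt c p0 n := fun n hn => hno ⟨n, hn⟩
    have hb : ∀ m, |PP c (enc c.B p0.1) (enc c.B p0.2) m 2| ≤ 1 / 4 := fun m =>
      (orbit_inv hc h0 m fun k _ => hno' k).2 m (by omega)
    apply not_mem_Oset _ hO
    have h16 : 0 ≤ 16 * t := by positivity
    have e := hform ⌊16 * t⌋₊ t (Nat.floor_le h16) (Nat.lt_floor_add_one _).le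
    set m := ⌊16 * t⌋₊
    set s := sstep (16 * t - m)
    have hs0 : 0 ≤ s := sstep_nonneg _
    have hs1 : s ≤ 1 := sstep_le_one _
    have e1 : PP c (enc c.B p0.1) (enc c.B p0.2) (m + 1) 2
        = PP c (enc c.B p0.1) (enc c.B p0.2) m 2
          + gWin c (enc c.B p0.1) (enc c.B p0.2) m (PP c (enc c.B p0.1) (enc c.B p0.2) m)
            * ee (dWin m) 2 := rfl
    have e2 : X t 2 = PP c (enc c.B p0.1) (enc c.B p0.2) m 2
          + s * gWin c (enc c.B p0.1) (enc c.B p0.2) m (PP c (enc c.B p0.1) (enc c.B p0.2) m)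
            * ee (dWin m) 2 := by
      rw [e]; rfl
    have b1 := abs_le.1 (hb m)
    have b2 := abs_le.1 (hb (m + 1))
    rw [abs_le]
    constructor <;> nlinarith
  · intro hex
    classical
    let n := Nat.find hex
    have hn : HaltAt c p0 n := Nat.find_spec hex
    have hlt : ∀ k < n, ¬ HaltAt c p0 k := fun k hk => Nat.find_min hex hk
    refine ⟨((16 * n + 5 : ℕ) : ℝ) / 16, by positivity, ?_⟩
    have e := hform (16 * n + 5) (((16 * n + 5 : ℕ) : ℝ) / 16) (by field_simp; exact le_rfl)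
      (by field_simp; linarith)
    have e0 : (16 : ℝ) * (((16 * n + 5 : ℕ) : ℝ) / 16) - ((16 * n + 5 : ℕ) : ℝ) = 0 := by
      field_simp; ring
    rw [e0, sstep_of_nonpos le_rfl, zero_mul, zero_smul, add_zero] at e
    refine ⟨0, ?_, ?_⟩
    · rw [e]
      have := orbit_halt hc h0 n hlt hn
      unfold PP at this
      rw [this]; norm_num
    · rw [e]
      have := orbit_halt hc h0 n hlt hn
      unfold PP at this
      rw [this]; norm_num

end orbit

end Vale.Agent.Lib.P113
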