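import Mathlib
import Vale.Agent.Lib.P113.Defs
import Vale.Agent.Lib.P113.Uniqueness

/-!
# P113: a smooth periodic divergence-free field with vanishing advection term is a global smooth
solution (with zero pressure) for the force `u_t - ν Δ u`
-/

namespace Vale.Agent.Lib.P113

open Set MeasureTheory Filter Topology

/-- The force which makes `u`, with zero pressure, a solution when `(u·∇)u = 0`. -/
noncomputable def forceOf (ν : ℝ) (u : ℝ → R3 → R3) : ℝ → R3 → R3 :=
  fun t x i => deriv (fun s => u s x) t i - ν * ∑ j, dX j (dX j (u t)) x i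

section joint

variable {F : Type*} [NormedAddCommGroup F] [NormedSpace ℝ F] {g : ℝ → R3 → F}

/-- joint smoothness of the spatial derivative -/
theorem contDiff_joint_fderiv (hg : ContDiff ℝ (⊤ : ℕ∞) (fun z : ℝ × R3 => g z.1 z.2)) :
    ContDiff ℝ (⊤ : ℕ∞) (fun z : ℝ × R3 => fderiv ℝ (g z.1) z.2) := by
  have h1 : ContDiff ℝ (⊤ : ℕ∞) (Function.uncurry (fun (z : ℝ × R3) (y : R3) => g z.1 y)) := by
    have : (Function.uncurry (fun (z : ℝ × R3) (y : R3) => g z.1 y))
        = (fun z : ℝ × R3 => g z.1 z.2) ∘ (fun q : (ℝ × R3) × R3 => (q.1.1, q.2)) := rfl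
    rw [this]
    exact hg.comp (by fun_prop)
  exact ContDiff.fderiv (m := (⊤ : ℕ∞)) (n := (⊤ : ℕ∞)) h1 contDiff_snd (by simp)

theorem contDiff_joint_dX (hg : ContDiff ℝ (⊤ : ℕ∞) (fun z : ℝ × R3 => g z.1 z.2)) (j : Fin 3) :
    ContDiff ℝ (⊤ : ℕ∞) (fun z : ℝ × R3 => dX j (g z.1) z.2) :=
  (contDiff_joint_fderiv hg).clm_apply contDiff_const

/-- joint smoothness of the time derivative -/
theorem contDiff_joint_deriv (hg : ContDiff ℝ (⊤ : ℕ∞) (fun z : ℝ × R3 => g z.1 z.2)) :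
    ContDiff ℝ (⊤ : ℕ∞) (fun z : ℝ × R3 => deriv (fun s => g s z.2) z.1) := by
  have h1 : ContDiff ℝ (⊤ : ℕ∞) (Function.uncurry (fun (z : ℝ × R3) (s : ℝ) => g s z.2)) := by
    have : (Function.uncurry (fun (z : ℝ × R3) (s : ℝ) => g s z.2))
        = (fun z : ℝ × R3 => g z.1 z.2) ∘ (fun q : (ℝ × R3) × ℝ => (q.2, q.1.2)) := rfl
    rw [this]
    exact hg.comp (by fun_prop)
  have h2 : ContDiff ℝ (⊤ : ℕ∞) (fun z : ℝ × R3 => fderiv ℝ (fun s => g s z.2) z.1) :=
    ContDiff.fderiv (m := (⊤ : ℕ∞)) (n := (⊤ : ℕ∞)) h1 contDiff_fst (by simp)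
  exact h2.clm_apply contDiff_const

theorem contDiff_slice_space (hg : ContDiff ℝ (⊤ : ℕ∞) (fun z : ℝ × R3 => g z.1 z.2)) (t : ℝ) :
    ContDiff ℝ (⊤ : ℕ∞) (g t) :=
  hg.comp (f := fun x : R3 => ((t, x) : ℝ × R3)) (by fun_prop)

theorem contDiff_slice_time (hg : ContDiff ℝ (⊤ : ℕ∞) (fun z : ℝ × R3 => g z.1 z.2)) (x : R3) :
    ContDiff ℝ (⊤ : ℕ∞) (fun s => g s x) :=
  hg.comp (f := fun s : ℝ => ((s, x) : ℝ × R3)) (by fun_prop)

end joint

variable {ν : ℝ} {u : ℝ → R3 → R3}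

theorem contDiff_forceOf (hs : ContDiff ℝ (⊤ : ℕ∞) (fun z : ℝ × R3 => u z.1 z.2)) :
    ContDiff ℝ (⊤ : ℕ∞) (fun z : ℝ × R3 => forceOf ν u z.1 z.2) := by
  rw [contDiff_pi]
  intro i
  have h1 : ContDiff ℝ (⊤ : ℕ∞) (fun z : ℝ × R3 => deriv (fun s => u s z.2) z.1 i) :=
    contDiff_pi.1 (contDiff_joint_deriv hs) i
  have h2 : ∀ j, ContDiff ℝ (⊤ : ℕ∞) (fun z : ℝ × R3 => dX j (dX j (u z.1)) z.2 i) := fun j =>
    contDiff_pi.1 (contDiff_joint_dX (g := fun t => dX j (u t)) (contDiff_joint_dX hs j) j) i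
  exact h1.sub (contDiff_const.mul (ContDiff.sum (fun j _ => h2 j)))

theorem per_forceOf (hper : ∀ t, Per (u t)) (t : ℝ) : Per (forceOf ν u t) := by
  intro x k
  funext i
  simp only [forceOf]
  have h1 : (fun s => u s (x + fun i => (k i : ℝ))) = fun s => u s x := funext fun s => hper s x k
  rw [h1]
  have h2 : ∀ j, dX j (dX j (u t)) (x + fun i => (k i : ℝ)) = dX j (dX j (u t)) x := fun j =>
    per_dX (per_dX (hper t) j) j x k
  simp only [h2]

theorem smoothForce_forceOf (hs : ContDiff ℝ (⊤ : ℕ∞) (fun z : ℝ × R3 => u z.1 z.2))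
    (hper : ∀ t, Per (u t)) : SmoothForce (forceOf ν u) :=
  ⟨contDiff_forceOf hs, per_forceOf hper⟩

theorem classicalSol_of_smooth (hs : ContDiff ℝ (⊤ : ℕ∞) (fun z : ℝ × R3 => u z.1 z.2))
    (hper : ∀ t, Per (u t)) (h0 : ∀ x, u 0 x = 0)
    (hdiv : ∀ t x, ∑ j, dX j (u t) x j = 0)
    (hadv : ∀ t x i, ∑ j, u t x j * dX j (u t) x i = 0) {T : ℝ} (hT : 0 < T) :
    ClassicalSol ν T (forceOf ν u) u (fun _ _ => 0) := by
  have hdw : ∀ t ∈ Icc (0 : ℝ) T, ∀ x,
      derivWithin (fun s => u s x) (Icc (0 : ℝ) T) t = deriv (fun s => u s x) t := by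
    intro t ht x
    exact ((contDiff_slice_time hs x).differentiable (by simp) t).derivWithin
      (uniqueDiffOn_Icc hT t ht)
  refine
    { per_u := fun t _ => hper t
      per_p := fun t _ x k => rfl
      cont_u := hs.continuous.continuousOn
      diff_t := fun t _ x =>
        ((contDiff_slice_time hs x).differentiable (by simp) t).differentiableWithinAt
      cont_ut := ?_
      smooth_u := fun t _ => (contDiff_slice_space hs t).of_le
        (show ((2 : ℕ∞) : WithTop ℕ∞) ≤ ((⊤ : ℕ∞) : WithTop ℕ∞) from WithTop.coe_le_coe.2 le_top)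
      cont_du := (contDiff_joint_fderiv hs).continuous.continuousOn
      cont_ddu := ?_
      cont_p := continuousOn_const
      smooth_p := fun t _ => contDiff_const
      cont_dp := ?_
      momentum := ?_
      div_free := fun t _ x => hdiv t x
      init := h0
      mean_p := fun t _ => by simp }
  · apply (contDiff_joint_deriv hs).continuous.continuousOn.congr
    intro z hz
    exact hdw z.1 hz.1 z.2
  · exact (contDiff_joint_fderiv (g := fun t => fderiv ℝ (u t))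
      (contDiff_joint_fderiv hs)).continuous.continuousOn
  · simp only [fderiv_fun_const]
    exact continuousOn_const
  · intro t ht x i
    rw [hdw t ht x, hadv t x i]
    simp only [forceOf, dX, fderiv_fun_const]
    simp

theorem globalSmoothSol_of_smooth (hs : ContDiff ℝ (⊤ : ℕ∞) (fun z : ℝ × R3 => u z.1 z.2))
    (hper : ∀ t, Per (u t)) (h0 : ∀ x, u 0 x = 0)
    (hdiv : ∀ t x, ∑ j, dX j (u t) x j = 0)
    (hadv : ∀ t x i, ∑ j, u t x j * dX j (u t) x i = 0) :
    GlobalSmoothSol ν (forceOf ν u) u (fun _ _ => 0) :=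
  { smooth_u := hs
    smooth_p := contDiff_const
    classical := fun _ hT => classicalSol_of_smooth hs hper h0 hdiv hadv hT }

theorem uniqueClassical_of_smooth (hν : 0 ≤ ν)
    (hs : ContDiff ℝ (⊤ : ℕ∞) (fun z : ℝ × R3 => u z.1 z.2))
    (hper : ∀ t, Per (u t)) (h0 : ∀ x, u 0 x = 0)
    (hdiv : ∀ t x, ∑ j, dX j (u t) x j = 0)
    (hadv : ∀ t x i, ∑ j, u t x j * dX j (u t) x i = 0) :
    UniqueClassical ν (forceOf ν u) u (fun _ _ => 0) :=
  fun _ hT _ _ hv => uniqueness hν (classicalSol_of_smooth hs hper h0 hdiv hadv hT) hv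

end Vale.Agent.Lib.P113
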