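import Vale.Agent.Lib.P113.Digits

/-!
# Register updates by sums of cylinder functions
-/

namespace Vale.Agent.Lib.P113

open Set

theorem Pfx_append_self (u T : List ℕ) : Pfx u (u ++ T) := by
  induction u with
  | nil => trivial
  | cons d l ih => exact ⟨rfl, ih⟩

theorem enc_of_Pfx (B : ℕ) {u : List ℕ} : ∀ {X : List ℕ}, Pfx u X →
    enc B (u ++ X.drop u.length) = enc B X := by
  induction u with
  | nil => intro X _; simp
  | cons d l ih =>
    intro X h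
    rw [enc_head_tail B X, ← h.1, ← ih h.2]
    simp [enc]

theorem updF_eval {B : ℕ} (hB : 4 ≤ B) {I : Finset Idx} {pu pu' pg : Idx → List ℕ}
    (hpu : ∀ i ∈ I, Dig B (pu i)) (hpg : ∀ i ∈ I, Dig B (pg i))
    {Rg Ot : List ℕ} (hR : Dig B Rg) (hO : Dig B Ot) {i0 : Idx} (hi0 : i0 ∈ I)
    (h1 : Pfx (pu i0) Rg) (h2 : Pfx (pg i0) Ot)
    (huniq : ∀ i ∈ I, Pfx (pu i) Rg → Pfx (pg i) Ot → i = i0) :
    updF B I pu pu' pg (enc B Rg) (enc B Ot)
      = enc B (pu' i0 ++ Rg.drop (pu i0).length) - enc B Rg := by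
  unfold updF
  rw [Finset.sum_eq_single i0]
  · rw [rep_enc hB _ (hpu i0 hi0) hR, cyl_enc hB (hpg i0 hi0) hO, if_pos h1, if_pos h2, mul_one]
  · intro i hi hne
    rw [rep_enc hB _ (hpu i hi) hR, cyl_enc hB (hpg i hi) hO]
    by_cases c1 : Pfx (pu i) Rg
    · by_cases c2 : Pfx (pg i) Ot
      · exact absurd (huniq i hi c1 c2) hne
      · simp [c2]
    · simp [c1]
  · intro h; exact absurd hi0 h

theorem updF_eval_back {B : ℕ} (hB : 4 ≤ B) {I : Finset Idx} {pu pu' pg : Idx → List ℕ}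
    (hpu' : ∀ i ∈ I, Dig B (pu' i)) (hpg : ∀ i ∈ I, Dig B (pg i))
    {Rg Ot : List ℕ} (hR : Dig B Rg) (hO : Dig B Ot) {i0 : Idx} (hi0 : i0 ∈ I)
    (h1 : Pfx (pu i0) Rg) (h2 : Pfx (pg i0) Ot)
    (huniq : ∀ i ∈ I, Pfx (pu' i) (pu' i0 ++ Rg.drop (pu i0).length) → Pfx (pg i) Ot → i = i0) :
    updF B I pu' pu pg (enc B (pu' i0 ++ Rg.drop (pu i0).length)) (enc B Ot)
      = enc B Rg - enc B (pu' i0 ++ Rg.drop (pu i0).length) := by
  rw [updF_eval hB hpu' hpg ((hpu' i0 hi0).append (hR.drop _)) hO hi0 (Pfx_append_self _ _) h2 huniq]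
  simp [enc_of_Pfx B h1]

theorem updF_contDiff {B : ℕ} (hB : 4 ≤ B) {I : Finset Idx} {pu pu' pg : Idx → List ℕ}
    (hpu : ∀ i ∈ I, Dig B (pu i)) (hpg : ∀ i ∈ I, Dig B (pg i)) :
    ContDiff ℝ (⊤ : ℕ∞) (fun z : ℝ × ℝ => updF B I pu pu' pg z.1 z.2) := by
  unfold updF
  refine ContDiff.sum fun i hi => ContDiff.mul ?_ ?_
  · exact (fam_contDiff hB (hpu i hi) _ _).comp contDiff_fst
  · exact (fam_contDiff hB (hpg i hi) _ _).comp contDiff_snd

theorem updF_add_int (B : ℕ) (I : Finset Idx) (pu pu' pg : Idx → List ℕ) (r o : ℝ) (n n' : ℤ) :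
    updF B I pu pu' pg (r + n) (o + n') = updF B I pu pu' pg r o := by
  unfold updF rep cyl
  simp only [fam_add_int]

end Vale.Agent.Lib.P113
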