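import Vale.Agent.Lib.P113.Defs
import Vale.Agent.Lib.P113.Update

/-!
# The reversible two-stack machine attached to a Turing machine

Digits: tape symbols `s < k`; junk symbols `k + a*k + s` with `a < 2m`, `s < k`; control digits
`a = 2q + σ < 2m` where `σ = 0` means that the next symbol is read from the right stack and `σ = 1`
from the left stack.
-/

namespace Vale.Agent.Lib.P113

namespace MC

/-- The rule index read off from a pair of stacks. -/
def idxOf (X Y : List ℕ) : Idx := (X.headD 0, X.tail.headD 0, Y.headD 0)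

/-- One step of the two-stack machine. -/
def step2 (c : MC) (p : List ℕ × List ℕ) : List ℕ × List ℕ :=
  ((c.table (idxOf p.1 p.2)).1 ++ p.1.tail.tail, (c.table (idxOf p.1 p.2)).2 ++ p.2.tail)

/-- The table entries are in range. -/
def Valid (c : MC) : Prop := ∀ q s, q < c.m → s < c.k → (c.tr q s).1 < c.m ∧ (c.tr q s).2.1 < c.k

/-- Recover the rule index from the stacks after the step. -/
def recov (c : MC) (X Y : List ℕ) : Idx :=
  if X.headD 0 % 2 = 0 then
    if c.k ≤ X.tail.headD 0 then (X.headD 0, X.tail.tail.headD 0, X.tail.headD 0)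
    else if ((X.tail.tail.headD 0 - c.k) / c.k) % 2 = 0 then
      ((X.tail.tail.headD 0 - c.k) / c.k, X.tail.tail.tail.headD 0,
        (X.tail.tail.headD 0 - c.k) % c.k)
    else
      ((X.tail.tail.headD 0 - c.k) / c.k, (X.tail.tail.headD 0 - c.k) % c.k, Y.headD 0)
  else
    if c.k ≤ Y.headD 0 then (X.headD 0, Y.headD 0, Y.tail.headD 0)
    else if ((Y.tail.headD 0 - c.k) / c.k) % 2 = 0 then
      ((Y.tail.headD 0 - c.k) / c.k, X.tail.headD 0, (Y.tail.headD 0 - c.k) % c.k)
    else
      ((Y.tail.headD 0 - c.k) / c.k, (Y.tail.headD 0 - c.k) % c.k, Y.tail.tail.headD 0)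

theorem k_pos (c : MC) : 0 < c.k := Nat.succ_pos _
theorem m_pos (c : MC) : 0 < c.m := Nat.succ_pos _

theorem junk_div (c : MC) (a : ℕ) {s : ℕ} (hs : s < c.k) : (c.junk a s - c.k) / c.k = a := by
  unfold junk
  rw [show c.k + a * c.k + s - c.k = s + c.k * a by rw [mul_comm]; omega,
    Nat.add_mul_div_left _ _ c.k_pos, Nat.div_eq_of_lt hs, zero_add]

theorem junk_mod (c : MC) (a : ℕ) {s : ℕ} (hs : s < c.k) : (c.junk a s - c.k) % c.k = s := by
  unfold junk
  rw [show c.k + a * c.k + s - c.k = s + c.k * a by rw [mul_comm]; omega,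
    Nat.add_mul_mod_self_left, Nat.mod_eq_of_lt hs]

theorem recov_table {c : MC} (hc : c.Valid) {i : Idx} (hi : i ∈ c.I) {X Y : List ℕ}
    (hX : Pfx (c.table i).1 X) (hY : Pfx (c.table i).2 Y) : c.recov X Y = i := by
  obtain ⟨a, t, cc⟩ := i
  simp only [I, Finset.mem_product, Finset.mem_range] at hi
  obtain ⟨ha, ht, hcc⟩ := hi
  have hq : a / 2 < c.m := by omega
  unfold table at hX hY
  unfold recov
  dsimp only at hX hY ⊢
  by_cases h1 : a % 2 = 0
  · rw [if_pos h1] at hX hY
    by_cases h2 : c.k ≤ cc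
    · rw [if_pos h2] at hX hY
      simp only [Pfx, and_true] at hX
      obtain ⟨e1, e2, e3⟩ := hX
      rw [← e1, ← e2, ← e3, if_pos h1, if_pos h2]
    · rw [if_neg h2] at hX hY
      have hs : cc < c.k := not_le.1 h2
      obtain ⟨v1, v2⟩ := hc (a / 2) cc hq hs
      by_cases h3 : (c.tr (a / 2) cc).2.2 = true
      · rw [if_pos h3] at hX hY
        simp only [Pfx, and_true] at hX
        obtain ⟨e1, e2, e3, e4⟩ := hX
        rw [← e1, ← e2, ← e3, ← e4, if_pos (by omega), if_neg (by omega), junk_div c a hs,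
          junk_mod c a hs, if_pos h1]
      · rw [if_neg h3] at hX hY
        simp only [Pfx, and_true] at hX hY
        obtain ⟨e1, e2⟩ := hX
        obtain ⟨e3, e4⟩ := hY
        rw [← e1, ← e2, ← e3, ← e4, if_neg (by omega), if_neg (by omega), junk_div c a hs,
          junk_mod c a hs, if_pos h1]
  · rw [if_neg h1] at hX hY
    by_cases h2 : c.k ≤ t
    · rw [if_pos h2] at hX hY
      simp only [Pfx, and_true] at hX hY
      obtain ⟨e2, e3⟩ := hY
      rw [← hX, ← e2, ← e3, if_neg h1, if_pos h2]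
    · rw [if_neg h2] at hX hY
      have hs : t < c.k := not_le.1 h2
      obtain ⟨v1, v2⟩ := hc (a / 2) t hq hs
      by_cases h3 : (c.tr (a / 2) t).2.2 = true
      · rw [if_pos h3] at hX hY
        simp only [Pfx, and_true] at hX hY
        obtain ⟨e1, e2, e3⟩ := hX
        rw [← e1, ← e2, ← e3, ← hY, if_pos (by omega), if_neg (by omega), junk_div c a hs,
          junk_mod c a hs, if_neg h1]
      · rw [if_neg h3] at hX hY
        simp only [Pfx, and_true] at hX hY
        obtain ⟨e2, e3, e4⟩ := hY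
        rw [← hX, ← e2, ← e3, ← e4, if_neg (by omega), if_neg (by omega), junk_div c a hs,
          junk_mod c a hs, if_neg h1]

theorem dig_of_lt (c : MC) {d : ℕ} (h : d < c.D) : 4 * d + 4 ≤ c.B := by
  unfold B; omega

theorem lt_of_dig (c : MC) {d : ℕ} (h : 4 * d + 4 ≤ c.B) : d < c.D := by
  unfold B at h; omega

theorem k_le_D (c : MC) : c.k ≤ c.D := by
  unfold D
  exact Nat.le_mul_of_pos_right _ (by omega)

theorem two_m_lt_D (c : MC) : 2 * c.m < c.D := by
  unfold D
  have := c.k_pos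
  nlinarith

theorem D_pos (c : MC) : 0 < c.D := lt_of_lt_of_le c.k_pos c.k_le_D

theorem four_le_B (c : MC) : 4 ≤ c.B := by
  have := c.D_pos
  unfold B; omega

theorem junk_lt (c : MC) {a s : ℕ} (ha : a < 2 * c.m) (hs : s < c.k) : c.junk a s < c.D := by
  unfold junk D
  have h1 : a + 1 ≤ 2 * c.m := ha
  have h2 : (a + 1) * c.k ≤ 2 * c.m * c.k := Nat.mul_le_mul_right _ h1
  nlinarith

theorem le_junk (c : MC) (a s : ℕ) : c.k ≤ c.junk a s := by
  unfold junk; omega

theorem mem_I {c : MC} {i : Idx} : i ∈ c.I ↔ i.1 < 2 * c.m ∧ i.2.1 < c.D ∧ i.2.2 < c.D := by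
  simp [I, Finset.mem_product]

theorem dig_list (c : MC) {l : List ℕ} (h : ∀ d ∈ l, d < c.D) : Dig c.B l :=
  fun d hd => c.dig_of_lt (h d hd)

theorem table_dig {c : MC} (hc : c.Valid) {i : Idx} (hi : i ∈ c.I) :
    Dig c.B (c.table i).1 ∧ Dig c.B (c.table i).2 := by
  obtain ⟨a, t, cc⟩ := i
  rw [mem_I] at hi
  obtain ⟨ha, ht, hcc⟩ := hi
  dsimp only at ha ht hcc
  have hq : a / 2 < c.m := by omega
  have haD : a < c.D := lt_trans ha c.two_m_lt_D
  have h2m := c.two_m_lt_D
  have hkD := c.k_le_D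
  unfold table
  dsimp only
  split_ifs with h1 h2 h3 h2 h3
  · constructor <;> apply dig_list <;> simp <;> omega
  · obtain ⟨v1, v2⟩ := hc (a / 2) cc hq (not_le.1 h2)
    have := c.junk_lt ha (not_le.1 h2)
    constructor <;> apply dig_list <;> simp <;> omega
  · obtain ⟨v1, v2⟩ := hc (a / 2) cc hq (not_le.1 h2)
    have := c.junk_lt ha (not_le.1 h2)
    constructor <;> apply dig_list <;> simp <;> omega
  · constructor <;> apply dig_list <;> simp <;> omega
  · obtain ⟨v1, v2⟩ := hc (a / 2) t hq (not_le.1 h2)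
    have := c.junk_lt ha (not_le.1 h2)
    constructor <;> apply dig_list <;> simp <;> omega
  · obtain ⟨v1, v2⟩ := hc (a / 2) t hq (not_le.1 h2)
    have := c.junk_lt ha (not_le.1 h2)
    constructor <;> apply dig_list <;> simp <;> omega

/-- The head of the new left string is again a control digit. -/
theorem table_head {c : MC} (hc : c.Valid) {i : Idx} (hi : i ∈ c.I) (T : List ℕ) :
    ((c.table i).1 ++ T).headD 0 < 2 * c.m := by
  obtain ⟨a, t, cc⟩ := i
  rw [mem_I] at hi
  obtain ⟨ha, ht, hcc⟩ := hi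
  dsimp only at ha ht hcc
  have hq : a / 2 < c.m := by omega
  unfold table
  dsimp only
  split_ifs with h1 h2 h3 h2 h3
  · simpa using ha
  · obtain ⟨v1, v2⟩ := hc (a / 2) cc hq (not_le.1 h2)
    simp; omega
  · obtain ⟨v1, v2⟩ := hc (a / 2) cc hq (not_le.1 h2)
    simp; omega
  · simpa using ha
  · obtain ⟨v1, v2⟩ := hc (a / 2) t hq (not_le.1 h2)
    simp; omega
  · obtain ⟨v1, v2⟩ := hc (a / 2) t hq (not_le.1 h2)
    simp; omega

/-- Well-formed pairs of stacks. -/
def WF (c : MC) (p : List ℕ × List ℕ) : Prop :=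
  Dig c.B p.1 ∧ Dig c.B p.2 ∧ p.1.headD 0 < 2 * c.m

theorem idxOf_mem {c : MC} {p : List ℕ × List ℕ} (h : c.WF p) : idxOf p.1 p.2 ∈ c.I := by
  rw [mem_I]
  refine ⟨h.2.2, c.lt_of_dig (h.1.tail.headD c.four_le_B), c.lt_of_dig (h.2.1.headD c.four_le_B)⟩

theorem step2_WF {c : MC} (hc : c.Valid) {p : List ℕ × List ℕ} (h : c.WF p) : c.WF (c.step2 p) := by
  have hi := idxOf_mem h
  refine ⟨(table_dig hc hi).1.append h.1.tail.tail, (table_dig hc hi).2.append h.2.1.tail, ?_⟩
  exact table_head hc hi _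

theorem iter_WF {c : MC} (hc : c.Valid) {p : List ℕ × List ℕ} (h : c.WF p) (n : ℕ) :
    c.WF (c.step2^[n] p) := by
  induction n with
  | zero => exact h
  | succ n ih => rw [Function.iterate_succ_apply']; exact step2_WF hc ih

end MC

end Vale.Agent.Lib.P113
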