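import Vale.Agent.Lib.P113.Shear
import Vale.Agent.Lib.P113.Step

/-!
# Trajectories of time-multiplexed shear flows
-/

namespace Vale.Agent.Lib.P113

open Set Filter Topology

section traj

variable (N : ℝ) (u : ℝ → R3 → R3) (g : ℕ → R3 → ℝ) (d : ℕ → Fin 3) (a : R3)

/-- In the `m`-th time window the velocity is a shear with profile `N s'(N t - m)`. -/
def Windowed : Prop :=
  ∀ (m : ℕ) (t : ℝ), (m : ℝ) ≤ N * t → N * t ≤ (m : ℝ) + 1 → ∀ x,
    u t x = (N * sstep' (N * t - m) * g m x) • ee (d m)

/-- Positions at the window boundaries. -/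
noncomputable def pos : ℕ → R3
  | 0 => a
  | m + 1 => pos m + g m (pos m) • ee (d m)

variable {N u g d a}

theorem hasDerivAt_sstep_lin (N c t : ℝ) :
    HasDerivAt (fun t => sstep (N * t - c)) (N * sstep' (N * t - c)) t := by
  have h1 : HasDerivAt (fun t : ℝ => N * t - c) N t := by
    simpa using ((hasDerivAt_id t).const_mul N).sub_const c
  have := (hasDerivAt_sstep' (N * t - c)).comp t h1
  simpa [Function.comp_def, mul_comm] using this

theorem traj_step (hN : 0 < N) (hw : Windowed N u g d) (hind : ∀ m, IndepOf (d m) (g m))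
    {X : ℝ → R3} (hX : IsTrajectory u a X) (m : ℕ) {P : R3}
    (hstart : X ((m : ℝ) / N) = P) :
    ∀ t : ℝ, (m : ℝ) ≤ N * t → N * t ≤ (m : ℝ) + 1 →
      X t = P + (sstep (N * t - m) * g m P) • ee (d m) := by
  have hcont : ContinuousOn X (Ici 0) := fun t ht => (hX.2 t ht).continuousWithinAt
  set t0 : ℝ := (m : ℝ) / N with ht0
  set t1 : ℝ := ((m : ℝ) + 1) / N with ht1
  have h0 : 0 ≤ t0 := by positivity
  have hmem : ∀ t ∈ Icc t0 t1, (m : ℝ) ≤ N * t ∧ N * t ≤ (m : ℝ) + 1 := by
    intro t ht
    constructor
    · have := ht.1; rw [ht0, div_le_iff₀ hN] at this; linarith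
    · have := ht.2; rw [ht1, le_div_iff₀ hN] at this; linarith
  have hsub : Icc t0 t1 ⊆ Ici 0 := fun t ht => le_trans h0 ht.1
  have hder : ∀ t ∈ Ico t0 t1, HasDerivWithinAt X (u t (X t)) (Ici t) t := by
    intro t ht
    exact (hX.2 t (le_trans h0 ht.1)).mono (Ici_subset_Ici.2 (le_trans h0 ht.1))
  -- other coordinates are constant
  have hconst : ∀ k, k ≠ d m → ∀ t ∈ Icc t0 t1, X t k = P k := by
    intro k hk t ht
    have hc : ContinuousOn (fun t => X t k) (Icc t0 t1) :=
      (continuous_apply k).comp_continuousOn (hcont.mono hsub)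
    have hd : ∀ t ∈ Ico t0 t1, HasDerivWithinAt (fun t => X t k) 0 (Ici t) t := by
      intro t ht
      have h1 := hasDerivWithinAt_pi.1 (hder t ht) k
      have h2 : u t (X t) k = 0 := by
        rw [hw m t (hmem t (Ico_subset_Icc_self ht)).1 (hmem t (Ico_subset_Icc_self ht)).2]
        simp [ee, hk]
      rwa [h2] at h1
    have := constant_of_has_deriv_right_zero hc hd t ht
    rw [this, hstart]
  have hg : ∀ t ∈ Icc t0 t1, g m (X t) = g m P := by
    intro t ht
    exact hind m _ _ fun k hk => hconst k hk t ht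
  have hmain : ∀ t ∈ Icc t0 t1, X t (d m) - sstep (N * t - m) * g m P = P (d m) := by
    intro t ht
    have hc : ContinuousOn (fun t => X t (d m) - sstep (N * t - m) * g m P) (Icc t0 t1) := by
      refine ((continuous_apply (d m)).comp_continuousOn (hcont.mono hsub)).sub ?_
      have : Continuous (fun t => sstep (N * t - m) * g m P) := by
        have := sstep_contDiff.continuous
        fun_prop
      exact this.continuousOn
    have hd : ∀ t ∈ Ico t0 t1,
        HasDerivWithinAt (fun t => X t (d m) - sstep (N * t - m) * g m P) 0 (Ici t) t := by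
      intro t ht
      have h1 := hasDerivWithinAt_pi.1 (hder t ht) (d m)
      have h2 : u t (X t) (d m) = N * sstep' (N * t - m) * g m P := by
        rw [hw m t (hmem t (Ico_subset_Icc_self ht)).1 (hmem t (Ico_subset_Icc_self ht)).2,
          hg t (Ico_subset_Icc_self ht)]
        simp [ee]
      rw [h2] at h1
      have h3 := h1.fun_sub (((hasDerivAt_sstep_lin N m t).mul_const (g m P)).hasDerivWithinAt)
      simpa using h3
    have := constant_of_has_deriv_right_zero hc hd t ht
    rw [this, hstart]
    have : N * t0 - m = 0 := by rw [ht0]; field_simp; ring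
    rw [this, sstep_of_nonpos le_rfl]
    simp
  intro t h1 h2
  have ht : t ∈ Icc t0 t1 := by
    constructor
    · rw [ht0, div_le_iff₀ hN]; linarith
    · rw [ht1, le_div_iff₀ hN]; linarith
  funext k
  by_cases hk : k = d m
  · subst hk
    have := hmain t ht
    simp [ee]
    linarith
  · rw [hconst k hk t ht]
    simp [ee, hk]

theorem traj_formula (hN : 0 < N) (hw : Windowed N u g d) (hind : ∀ m, IndepOf (d m) (g m))
    {X : ℝ → R3} (hX : IsTrajectory u a X) (m : ℕ) :
    ∀ t : ℝ, (m : ℝ) ≤ N * t → N * t ≤ (m : ℝ) + 1 →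
      X t = pos g d a m + (sstep (N * t - m) * g m (pos g d a m)) • ee (d m) := by
  induction m with
  | zero =>
    exact traj_step hN hw hind hX 0 (by simpa [pos] using hX.1)
  | succ m ih =>
    refine traj_step hN hw hind hX (m + 1) ?_
    have h := ih (((m : ℝ) + 1) / N) (by field_simp; linarith) (by field_simp; linarith)
    have e : N * (((m : ℝ) + 1) / N) - m = 1 := by field_simp; ring
    rw [e, sstep_of_one_le le_rfl, one_mul] at h
    push_cast
    rw [h, pos]

variable (N g d a)

/-- Finite partial sums describing the trajectory up to time `K / N`. -/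
noncomputable def XK (K : ℕ) (t : ℝ) : R3 :=
  a + ∑ m ∈ Finset.range K, (sstep (N * t - m) * g m (pos g d a m)) • ee (d m)

/-- The explicit trajectory. -/
noncomputable def trajX (t : ℝ) : R3 := XK N g d a (⌈N * t⌉₊ + 1) t

variable {N g d a}

theorem XK_succ_of_le {K : ℕ} {t : ℝ} (h : N * t ≤ K) : XK N g d a (K + 1) t = XK N g d a K t := by
  unfold XK
  rw [Finset.sum_range_succ, sstep_of_nonpos (by linarith)]
  simp

theorem XK_stable {K K' : ℕ} {t : ℝ} (hK : K ≤ K') (h : N * t ≤ K) :
    XK N g d a K' t = XK N g d a K t := by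
  induction K', hK using Nat.le_induction with
  | base => rfl
  | succ n hn ih =>
    rw [XK_succ_of_le, ih]
    exact le_trans h (by exact_mod_cast hn)

theorem pos_eq_sum (m : ℕ) :
    pos g d a m = a + ∑ k ∈ Finset.range m, g k (pos g d a k) • ee (d k) := by
  induction m with
  | zero => simp [pos]
  | succ m ih => rw [pos, Finset.sum_range_succ, ← add_assoc, ← ih]

theorem XK_window {m : ℕ} {t : ℝ} (h1 : (m : ℝ) ≤ N * t) :
    XK N g d a (m + 1) t
      = pos g d a m + (sstep (N * t - m) * g m (pos g d a m)) • ee (d m) := by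
  unfold XK
  rw [Finset.sum_range_succ, ← add_assoc, pos_eq_sum m]
  congr 2
  refine Finset.sum_congr rfl fun k hk => ?_
  have hk' : (k : ℝ) + 1 ≤ m := by exact_mod_cast Finset.mem_range.1 hk
  rw [sstep_of_one_le (by linarith), one_mul]

theorem hasDerivAt_XK (K : ℕ) (t : ℝ) :
    HasDerivAt (XK N g d a K)
      (∑ m ∈ Finset.range K, (N * sstep' (N * t - m) * g m (pos g d a m)) • ee (d m)) t := by
  unfold XK
  refine HasDerivAt.const_add a (HasDerivAt.fun_sum fun m _ => ?_)
  exact ((hasDerivAt_sstep_lin N m t).mul_const _).smul_const _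

theorem trajX_isTrajectory (hN : 0 < N) (hw : Windowed N u g d)
    (hind : ∀ m, IndepOf (d m) (g m)) : IsTrajectory u a (trajX N g d a) := by
  constructor
  · simp [trajX, XK, sstep_of_nonpos]
  · intro t0 ht0
    apply HasDerivAt.hasDerivWithinAt
    set m0 : ℕ := ⌊N * t0⌋₊ with hm0
    have hNt : 0 ≤ N * t0 := by positivity
    have h1 : (m0 : ℝ) ≤ N * t0 := Nat.floor_le hNt
    have h2 : N * t0 < (m0 : ℝ) + 1 := Nat.lt_floor_add_one _
    -- local description
    have hloc : trajX N g d a =ᶠ[𝓝 t0] XK N g d a (m0 + 3) := by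
      have hopen : {t : ℝ | N * t < (m0 : ℝ) + 2} ∈ 𝓝 t0 := by
        apply IsOpen.mem_nhds
        · exact isOpen_lt (by fun_prop) continuous_const
        · show N * t0 < (m0 : ℝ) + 2
          linarith
      filter_upwards [hopen] with t ht
      have ht' : N * t < (m0 : ℝ) + 2 := ht
      unfold trajX
      symm
      apply XK_stable
      · have : ⌈N * t⌉₊ ≤ m0 + 2 := by
          apply Nat.ceil_le.2
          push_cast
          linarith
        omega
      · push_cast
        linarith [Nat.le_ceil (N * t)]
    have hval : trajX N g d a t0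
        = pos g d a m0 + (sstep (N * t0 - m0) * g m0 (pos g d a m0)) • ee (d m0) := by
      rw [hloc.eq_of_nhds, ← XK_window h1]
      apply XK_stable (by omega)
      push_cast
      linarith
    have hsum : (∑ m ∈ Finset.range (m0 + 3),
        (N * sstep' (N * t0 - m) * g m (pos g d a m)) • ee (d m))
        = (N * sstep' (N * t0 - m0) * g m0 (pos g d a m0)) • ee (d m0) := by
      apply Finset.sum_eq_single m0
      · intro m _ hm
        rcases lt_or_gt_of_ne hm with h | h
        · have : (m : ℝ) + 1 ≤ m0 := by exact_mod_cast h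
          rw [sstep'_of_one_le (by linarith)]
          simp
        · have : (m0 : ℝ) + 1 ≤ m := by exact_mod_cast h
          rw [sstep'_of_nonpos (by linarith)]
          simp
      · intro h
        exact absurd (Finset.mem_range.2 (by omega)) h
    have hu : u t0 (trajX N g d a t0)
        = (N * sstep' (N * t0 - m0) * g m0 (pos g d a m0)) • ee (d m0) := by
      rw [hw m0 t0 h1 h2.le, hval]
      congr 2
      apply hind m0
      intro k hk
      simp [ee, hk]
    rw [hu, ← hsum]
    exact (hasDerivAt_XK (m0 + 3) t0).congr_of_eventuallyEq hloc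

end traj

end Vale.Agent.Lib.P113
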